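import Vale.Agent.P050.H180.NegD
import Vale.Agent.P050.H148.Main

set_option linter.all false

/-!
Truncation of the ladder operator at the pairs with many paths of length three.
-/

namespace Vale.Agent.P050.H180

open Finset Vale.Agent.P050.H148

section core

variable {X : Type*} [Fintype X] [DecidableEq X]
variable {W : X → X → ℝ} {t : X → ℝ} {u : X → X → ℝ}

/-- the indicator of the pairs with many paths of length three -/
noncomputable def big (W : X → X → ℝ) (κ : ℝ) (a : X × X) : ℝ := if rr W a ≤ κ then 0 else 1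

/-- the truncation factor -/
noncomputable def cut (W : X → X → ℝ) (κ : ℝ) (a : X × X) : ℝ :=
  if rr W a ≤ κ then 1 else Real.sqrt (κ / rr W a)

theorem cut_nonneg (κ : ℝ) (a : X × X) : 0 ≤ cut W κ a := by
  unfold cut; split_ifs
  · exact zero_le_one
  · exact Real.sqrt_nonneg _

theorem cut_le {κ : ℝ} (hκ : 0 < κ) (a : X × X) : cut W κ a ≤ 1 := by
  unfold cut; split_ifs with h
  · exact le_refl _
  · rw [not_le] at h
    rw [Real.sqrt_le_one, div_le_one (hκ.trans h)]
    exact h.le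

theorem cut_rr {κ : ℝ} (hκ : 0 < κ) (a : X × X) : rr W a * cut W κ a ^ 2 ≤ κ := by
  unfold cut; split_ifs with h
  · simpa using h
  · rw [not_le] at h
    have h1 : 0 < rr W a := hκ.trans h
    rw [Real.sq_sqrt (by positivity)]
    rw [mul_div_cancel₀ _ h1.ne']

/-- the number of paths around a pair of pairs -/
def ww (W : X → X → ℝ) (a b : X × X) : ℝ := W a.1 a.2 * W b.1 b.2 * (W a.1 b.2 * W b.1 a.2)

theorem ww_symm (a b : X × X) : ww W a b = ww W b a := by unfold ww; ring

theorem ww_nonneg (h0 : ∀ x y, 0 ≤ W x y) (a b : X × X) : 0 ≤ ww W a b :=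
  mul_nonneg (mul_nonneg (h0 _ _) (h0 _ _)) (mul_nonneg (h0 _ _) (h0 _ _))

theorem ww_row (a : X × X) : ∑ b, ww W a b = W a.1 a.2 * rr W a := by
  rw [Fintype.sum_prod_type]
  unfold rr
  rw [mul_sum]
  refine sum_congr rfl fun x' _ => ?_
  rw [mul_sum]
  refine sum_congr rfl fun y' _ => ?_
  unfold ww; ring

theorem core (h0 : ∀ x y, 0 ≤ W x y) (h1 : ∀ x y, W x y ≤ 1) (hW : Eig W t u)
    (k : ℕ) [NeZero k] (hk : Odd k) (hk4 : 4 ≤ k) {lam q : ℝ} (hlam : 0 < lam) (hq : 1 ≤ q)
    (hM : 0 < ∑ a : X × X, W a.1 a.2)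
    (hyp : lam * ∑ a : X × X, W a.1 a.2 ≤ ∑ a : X × X, W a.1 a.2 * rr W a +
      lam * (∑ a, big W (q * lam) a * W a.1 a.2) -
      (2 - q) * ∑ a, big W (q * lam) a * (W a.1 a.2 * rr W a)) :
    lam ^ k - (q * lam / 3) ^ (k - 4) *
      (1 / 2 * ∑ i, ∑ j, if i = j then 0 else |t i * t j| ^ 4) ≤ ladSum W k := by
  set κ : ℝ := q * lam with hκdef
  have hκ : 0 < κ := by positivity
  set s : X × X → ℝ := cut W κ with hs
  set χ : X × X → ℝ := big W κ with hχ
  set w : X × X → ℝ := fun a => Real.sqrt (W a.1 a.2) with hw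
  have hw2 : ∀ a : X × X, w a * w a = W a.1 a.2 := fun a => Real.mul_self_sqrt (h0 _ _)
  have hw0 : ∀ a : X × X, 0 ≤ w a := fun a => Real.sqrt_nonneg _
  have hs0 : ∀ a, 0 ≤ s a := fun a => cut_nonneg κ a
  have hs1 : ∀ a, s a ≤ 1 := fun a => cut_le hκ a
  set D : X × X → ℝ := fun a => s a * w a with hD
  have hD2 : ∀ a, D a ^ 2 ≤ 1 := by
    intro a
    simp only [hD, mul_pow]
    have e1 : s a ^ 2 ≤ 1 := pow_le_one₀ (hs0 a) (hs1 a)
    have e2 : w a ^ 2 ≤ 1 := by rw [sq, hw2]; exact h1 _ _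
    exact mul_le_one₀ e1 (sq_nonneg _) e2
  set K : X × X → X × X → ℝ := fun a b => D a * D b * (W a.1 b.2 * W b.1 a.2) with hK
  have hKlad : ∀ a b, K a b = s a * s b * lad W a b := by
    intro a b
    simp only [hK, hD, hw, lad]; ring
  have hlad0 : ∀ a b, 0 ≤ lad W a b := fun a b =>
    mul_nonneg (mul_nonneg (hw0 a) (hw0 b)) (mul_nonneg (h0 _ _) (h0 _ _))
  have hK0 : ∀ a b, 0 ≤ K a b := fun a b => by
    rw [hKlad]; exact mul_nonneg (mul_nonneg (hs0 a) (hs0 b)) (hlad0 a b)
  have hKle : ∀ a b, K a b ≤ lad W a b := fun a b => by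
    rw [hKlad]
    have e1 : s a * s b ≤ 1 := mul_le_one₀ (hs1 a) (hs0 b) (hs1 b)
    have := mul_le_mul_of_nonneg_right e1 (hlad0 a b)
    linarith
  obtain ⟨l, f, hL⟩ := exists_eig K (fun a b => by simp only [hK]; ring)
  -- comparison of closed walks
  have hlad : ∑ p, l p ^ k ≤ ladSum W k := by
    obtain ⟨l', f', hL'⟩ := exists_eig (lad W) (lad_symm W)
    rw [ladSum_eq h0 hL' k, ← hL'.cyc k, ← hL.cyc k]
    exact sum_le_sum fun v _ => prod_le_prod (fun i _ => hK0 _ _) (fun i _ => hKle _ _)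
  haveI : Nonempty (X × X) := by
    by_contra hne
    rw [not_nonempty_iff] at hne
    simp at hM
  -- the largest eigenvalue
  obtain ⟨p₀, hp₀⟩ := Finite.exists_max l
  have htop : lam ≤ l p₀ := by
    set φ : X × X → ℝ := fun a => if rr W a ≤ κ then w a else
      w a * (q * Real.sqrt (rr W a / κ)) with hφ
    have hsφ : ∀ a, s a * φ a = w a * (1 + (q - 1) * χ a) := by
      intro a
      simp only [hs, hφ, hχ, cut, big]
      split_ifs with h
      · ring
      · rw [not_le] at h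
        have h2 : 0 < rr W a := hκ.trans h
        have h3 : Real.sqrt (κ / rr W a) * Real.sqrt (rr W a / κ) = 1 := by
          rw [← Real.sqrt_mul (by positivity)]
          rw [div_mul_div_comm, mul_comm κ, div_self (by positivity), Real.sqrt_one]
        calc _ = w a * q * (Real.sqrt (κ / rr W a) * Real.sqrt (rr W a / κ)) := by ring
          _ = _ := by rw [h3]; ring
    have hφ2 : ∀ a, lam * φ a ^ 2 = lam * W a.1 a.2 - lam * (χ a * W a.1 a.2) +
        q * (χ a * (W a.1 a.2 * rr W a)) := by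
      intro a
      simp only [hφ, hχ, big]
      split_ifs with h
      · rw [sq, hw2]; ring
      · rw [not_le] at h
        have h2 : 0 < rr W a := hκ.trans h
        rw [mul_pow, mul_pow, Real.sq_sqrt (div_nonneg h2.le hκ.le), sq (w a), hw2, hκdef]
        have hq0 : q ≠ 0 := by positivity
        field_simp
        ring
    have hφge : ∀ a, W a.1 a.2 ≤ φ a ^ 2 := by
      intro a
      simp only [hφ]
      split_ifs with h
      · rw [sq, hw2]
      · rw [not_le] at h
        rw [mul_pow, mul_pow, Real.sq_sqrt (div_nonneg (hκ.trans h).le hκ.le), sq, hw2]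
        have e1 : 1 ≤ rr W a / κ := by rw [le_div_iff₀ hκ]; linarith
        have e2 : (1 : ℝ) ≤ q ^ 2 := one_le_pow₀ hq
        have e3 : 1 ≤ q ^ 2 * (rr W a / κ) := by nlinarith
        have := mul_le_mul_of_nonneg_left e3 (h0 a.1 a.2)
        linarith
    have hpos : 0 < ∑ a, φ a ^ 2 := lt_of_lt_of_le hM (sum_le_sum fun a _ => hφge a)
    have hquad : ∑ a, ∑ b, φ a * K a b * φ b = ∑ a, ∑ b,
        (1 + (q - 1) * χ a) * (1 + (q - 1) * χ b) * ww W a b := by
      refine sum_congr rfl fun a _ => sum_congr rfl fun b _ => ?_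
      rw [hKlad]
      have e1 : lad W a b = w a * w b * (W a.1 b.2 * W b.1 a.2) := rfl
      rw [e1]
      unfold ww
      rw [← hw2 a, ← hw2 b]
      calc φ a * (s a * s b * (w a * w b * (W a.1 b.2 * W b.1 a.2))) * φ b =
          (s a * φ a) * (s b * φ b) * (w a * w b * (W a.1 b.2 * W b.1 a.2)) := by ring
        _ = _ := by rw [hsφ, hsφ]; ring
    have hχ0 : ∀ a, 0 ≤ χ a := fun a => by
      simp only [hχ, big]; split_ifs <;> norm_num
    have hlow : ∑ a, W a.1 a.2 * rr W a + 2 * (q - 1) * ∑ a, χ a * (W a.1 a.2 * rr W a) ≤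
        ∑ a, ∑ b, φ a * K a b * φ b := by
      rw [hquad]
      have e1 : ∀ a b, (1 + (q - 1) * χ a + (q - 1) * χ b) * ww W a b ≤
          (1 + (q - 1) * χ a) * (1 + (q - 1) * χ b) * ww W a b := by
        intro a b
        refine mul_le_mul_of_nonneg_right ?_ (ww_nonneg h0 a b)
        have := mul_nonneg (mul_nonneg (sub_nonneg.mpr hq) (hχ0 a))
          (mul_nonneg (sub_nonneg.mpr hq) (hχ0 b))
        nlinarith
      refine le_trans (le_of_eq ?_) (sum_le_sum fun a _ => sum_le_sum fun b _ => e1 a b)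
      have e2 : ∀ a b, (1 + (q - 1) * χ a + (q - 1) * χ b) * ww W a b =
          ww W a b + (q - 1) * (χ a * ww W a b) + (q - 1) * (χ b * ww W b a) := by
        intro a b
        rw [ww_symm b a]; ring
      simp only [e2, sum_add_distrib, ← mul_sum, ww_row]
      rw [sum_comm (f := fun a b => χ b * ww W b a)]
      simp only [← mul_sum, ww_row]
      ring
    have hup := hL.quad_le hp₀ φ
    have hsum : lam * ∑ a, φ a ^ 2 = lam * ∑ a : X × X, W a.1 a.2 -
        lam * (∑ a, χ a * W a.1 a.2) + q * ∑ a, χ a * (W a.1 a.2 * rr W a) := by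
      rw [mul_sum, sum_congr rfl fun a _ => hφ2 a]
      simp only [sum_add_distrib, sum_sub_distrib, ← mul_sum]
    have hfin : lam * ∑ a, φ a ^ 2 ≤ l p₀ * ∑ a, φ a ^ 2 := by
      refine le_trans ?_ (hlow.trans hup)
      rw [hsum]
      linarith
    exact le_of_mul_le_mul_right hfin hpos
  -- the smallest eigenvalue
  have hbot : ∀ p, -l p ≤ κ / 3 := by
    intro p
    have e1 := cert h0 (fun a => s a * f p a)
    have e2 : ∑ a, ∑ b, s a * f p a * lad W a b * (s b * f p b) = l p := by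
      rw [← hL.self p]
      refine sum_congr rfl fun a _ => sum_congr rfl fun b _ => ?_
      rw [hKlad]; ring
    have e3 : ∑ a, rr W a * (s a * f p a) ^ 2 ≤ κ := by
      have e4 : ∑ a, rr W a * (s a * f p a) ^ 2 ≤ ∑ a, κ * (f p a * f p a) := by
        refine sum_le_sum fun a _ => ?_
        have e5 := mul_le_mul_of_nonneg_right (cut_rr hκ a : rr W a * cut W κ a ^ 2 ≤ κ)
          (mul_self_nonneg (f p a))
        refine le_trans (le_of_eq ?_) e5
        simp only [hs]; ring
      rw [← mul_sum, hL.orth, if_pos rfl, mul_one] at e4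
      exact e4
    rw [e2] at e1
    linarith
  have hnegk : ∑ p, max (-l p) 0 ^ k ≤ (κ / 3) ^ (k - 4) *
      (1 / 2 * ∑ i, ∑ j, if i = j then 0 else |t i * t j| ^ 4) := by
    have e1 := neg_part_D hD2 hW hL (by norm_num : (4 : ℕ) ≠ 0)
    have e2 : ∀ p, max (-l p) 0 ^ k ≤ (κ / 3) ^ (k - 4) * max (-l p) 0 ^ 4 := by
      intro p
      have e3 : max (-l p) 0 ≤ κ / 3 := max_le (hbot p) (by positivity)
      calc max (-l p) 0 ^ k = max (-l p) 0 ^ (k - 4) * max (-l p) 0 ^ 4 := by
            rw [← pow_add]; congr 1; omega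
        _ ≤ _ := mul_le_mul_of_nonneg_right (pow_le_pow_left₀ (le_max_right _ _) e3 _)
            (pow_nonneg (le_max_right _ _) 4)
    calc ∑ p, max (-l p) 0 ^ k ≤ ∑ p, (κ / 3) ^ (k - 4) * max (-l p) 0 ^ 4 :=
          sum_le_sum fun p _ => e2 p
      _ = (κ / 3) ^ (k - 4) * ∑ p, max (-l p) 0 ^ 4 := by rw [mul_sum]
      _ ≤ _ := mul_le_mul_of_nonneg_left e1 (by positivity)
  -- conclusion
  have hsplit : ∑ p, l p ^ k = ∑ p, max (l p) 0 ^ k - ∑ p, max (-l p) 0 ^ k := by
    rw [← sum_sub_distrib]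
    exact sum_congr rfl fun p _ => odd_split _ hk
  have htopk : lam ^ k ≤ ∑ p, max (l p) 0 ^ k := by
    have e1 := single_le_sum (f := fun p => max (l p) 0 ^ k)
      (fun p _ => pow_nonneg (le_max_right _ _) k) (mem_univ p₀)
    refine le_trans (pow_le_pow_left₀ hlam.le ?_ k) e1
    exact htop.trans (le_max_left _ _)
  linarith

end core

end Vale.Agent.P050.H180
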