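import Vale.Agent.P050.H148.Graph
import Mathlib.Combinatorics.SimpleGraph.Circulant
import Mathlib.Combinatorics.SimpleGraph.Prod

set_option linter.all false

/-!
Moebius ladders with an even number of rungs are prisms.
-/

namespace Vale.Agent.P050.H180

open Finset Vale.Agent.P050.H148

/-- parity of a residue -/
def par {m : ℕ} (i : Fin (m + 2)) : Bool := decide (i.val % 2 = 1)

theorem par_succ {m : ℕ} (hm : Even m) (i : Fin (m + 2)) : par (i + 1) = !par i := by
  have h1 : (i + 1).val % 2 = (i.val + 1) % 2 := by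
    rw [Fin.val_add]
    have h2 : ((1 : Fin (m + 2)) : ℕ) = 1 := Fin.val_one _
    rw [h2]
    exact Nat.mod_mod_of_dvd _ (by obtain ⟨a, rfl⟩ := hm; omega)
  unfold par
  rw [h1]
  by_cases h : i.val % 2 = 1
  · have : ¬ ((i.val + 1) % 2 = 1) := by omega
    simp [h, this]
  · have : (i.val + 1) % 2 = 1 := by omega
    simp [h, this]

/-- the bijection -/
def prismEquiv (m : ℕ) : Fin (m + 2) × Bool ≃ Fin (m + 2) × Bool where
  toFun v := (v.1, xor v.2 (par v.1))
  invFun v := (v.1, xor v.2 (par v.1))
  left_inv v := by rcases v with ⟨i, b⟩; simp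
  right_inv v := by rcases v with ⟨i, b⟩; simp

theorem prism_adj (m : ℕ) (hm : Even m) (i j : Fin (m + 2)) (b c : Bool) :
    ((i - j = 1 ∨ j - i = 1) ∧ xor b (par i) = xor c (par j) ∨
      xor b (par i) ≠ xor c (par j) ∧ i = j) ↔ (b ≠ c ∧ (i = j ∨ i = j + 1 ∨ j = i + 1)) := by
  constructor
  · rintro (⟨h, hbc⟩ | ⟨hbc, rfl⟩)
    · rcases h with h | h
      · have hi : i = j + 1 := by rw [← h]; abel
        subst hi
        rw [par_succ hm] at hbc
        refine ⟨?_, Or.inr (Or.inl rfl)⟩
        revert hbc
        cases b <;> cases c <;> cases par j <;> decide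
      · have hi : j = i + 1 := by rw [← h]; abel
        subst hi
        rw [par_succ hm] at hbc
        refine ⟨?_, Or.inr (Or.inr rfl)⟩
        revert hbc
        cases b <;> cases c <;> cases par i <;> decide
    · refine ⟨?_, Or.inl rfl⟩
      revert hbc
      cases b <;> cases c <;> cases par i <;> decide
  · rintro ⟨hbc, h⟩
    rcases h with rfl | rfl | rfl
    · right
      refine ⟨?_, rfl⟩
      revert hbc
      cases b <;> cases c <;> cases par i <;> decide
    · left
      refine ⟨Or.inl (by abel), ?_⟩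
      rw [par_succ hm]
      revert hbc
      cases b <;> cases c <;> cases par j <;> decide
    · left
      refine ⟨Or.inr (by abel), ?_⟩
      rw [par_succ hm]
      revert hbc
      cases b <;> cases c <;> cases par i <;> decide

theorem prism_iso (m : ℕ) (hm : Even m) : Nonempty (moebiusLadder (m + 2) ≃g
    (SimpleGraph.cycleGraph (m + 2)).boxProd (⊤ : SimpleGraph Bool)) := by
  refine ⟨⟨prismEquiv m, ?_⟩⟩
  intro u v
  refine Iff.trans ?_ (prism_adj m hm u.1 v.1 u.2 v.2)
  rw [SimpleGraph.boxProd_adj, SimpleGraph.top_adj]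
  exact or_congr (and_congr_left' SimpleGraph.cycleGraph_adj) Iff.rfl

end Vale.Agent.P050.H180
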