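import Vale.Agent.P050.H180.Odd2
import Vale.Agent.P050.H180.Prism
import Vale.Agent.P050.H180.Core

set_option linter.all false

/-!
Moebius ladders, prisms and four-cycles in graphs.
-/

namespace Vale.Agent.P050.H180

open Finset Vale.Agent.P050.H148

section weighted

variable {X : Type*} [Fintype X]

theorem twin_weighted (W : X → X → ℝ) (h0 : ∀ x y, 0 ≤ W x y) [Nonempty X] {p : ℝ} (hp0 : 0 < p)
    (hp : (∑ x, ∑ y, W x y) / (Fintype.card X : ℝ) ^ 2 = p) (m : ℕ) (hm : m ≠ 0)
    [NeZero (2 * m + 1)] [NeZero (2 * m)] :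
    p ^ (18 * m + 3) ≤ ladderDensity W (2 * m + 1) * ladderDensity W (2 * m) ^ 2 := by
  classical
  have hn : 0 < Fintype.card X := Fintype.card_pos
  have hn0 : (0 : ℝ) < Fintype.card X := by exact_mod_cast hn
  have hp' : ∑ x, ∑ y, W x y = p * (Fintype.card X : ℝ) ^ 2 := by
    rw [← hp]; field_simp
  have key := twin_sum h0 hp0 hn hp' m hm
  unfold ladderDensity
  rw [← ladSum_two, ← ladSum_two]
  set n : ℝ := (Fintype.card X : ℝ) with hndef
  have e1 : ladSum W (2 * m + 1) / n ^ (2 * (2 * m + 1)) *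
      (ladSum W (2 * m) / n ^ (2 * (2 * m))) ^ 2 =
      (n ^ 4 * ladSum W (2 * m + 1) * ladSum W (2 * m) ^ 2) / n ^ (12 * m + 6) := by
    have e2 : n ^ (12 * m + 6) = n ^ 4 * (n ^ (2 * (2 * m + 1)) * (n ^ (2 * (2 * m))) ^ 2) := by
      rw [← pow_mul, ← pow_add, ← pow_add]; congr 1; ring
    rw [e2]
    field_simp
  rw [e1, le_div_iff₀ (by positivity)]
  exact key

end weighted

section graph

variable {X : Type*} [Fintype X]

theorem twin_graph (G : SimpleGraph X) [Nonempty X] (k : ℕ) (hk : Odd k) (hk5 : 5 ≤ k) :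
    edgeDensity G ^ (9 * k - 6) ≤ homDensity (moebiusLadder k) G *
      homDensity ((SimpleGraph.cycleGraph (k - 1)).boxProd (⊤ : SimpleGraph Bool)) G ^ 2 := by
  classical
  obtain ⟨m, rfl⟩ := hk
  have hm : m ≠ 0 := by omega
  haveI : NeZero (2 * m + 1) := ⟨by omega⟩
  haveI : NeZero (2 * m) := ⟨by omega⟩
  have hnn : 0 ≤ edgeDensity G := by unfold edgeDensity; positivity
  have hpr : homDensity ((SimpleGraph.cycleGraph (2 * m + 1 - 1)).boxProd
      (⊤ : SimpleGraph Bool)) G = ladderDensity (adj G) (2 * m) := by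
    rw [← hom_ladder]
    obtain ⟨j, hj⟩ : ∃ j, 2 * m = j + 2 := ⟨2 * m - 2, by omega⟩
    have hje : Even j := ⟨m - 1, by omega⟩
    obtain ⟨e⟩ := prism_iso j hje
    have e1 : 2 * m + 1 - 1 = j + 2 := by omega
    rw [e1, hj]
    exact (homDensity_congr e G).symm
  have e0 : 9 * (2 * m + 1) - 6 = 18 * m + 3 := by omega
  rw [e0]
  rcases hnn.lt_or_eq with hpos | hz
  · rw [hpr, hom_ladder]
    exact twin_weighted (adj G) (fun x y => by simp only [adj]; split_ifs <;> norm_num) hpos
      (adj_sum G) m hm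
  · rw [← hz, zero_pow (by omega)]
    have e1 : 0 ≤ homDensity (moebiusLadder (2 * m + 1)) G := by unfold homDensity; positivity
    exact mul_nonneg e1 (sq_nonneg _)

theorem four_iso : Nonempty (moebiusLadder 2 ≃g SimpleGraph.cycleGraph 4) := by
  refine ⟨⟨⟨fun v => if v.2 then (if v.1 = 0 then 1 else 3) else (if v.1 = 0 then 0 else 2),
    fun i => if i = 0 then (0, false) else if i = 1 then (0, true) else
      if i = 2 then (1, false) else (1, true), ?_, ?_⟩, ?_⟩⟩
  · rintro ⟨i, b⟩
    revert i b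
    decide
  · intro i
    revert i
    decide
  · intro a b
    rw [SimpleGraph.cycleGraph_adj]
    unfold moebiusLadder
    revert a b
    decide

theorem four_density (G : SimpleGraph X) [Nonempty X] [DecidableEq X] :
    homDensity (SimpleGraph.cycleGraph 4) G * (Fintype.card X : ℝ) ^ 4 =
      ∑ a : X × X, adj G a.1 a.2 * rr (adj G) a := by
  classical
  obtain ⟨e⟩ := four_iso
  rw [← homDensity_congr e, hom_ladder]
  unfold ladderDensity
  rw [← ladSum_two]
  have h0 : ∀ x y, 0 ≤ adj G x y := fun x y => by simp only [adj]; split_ifs <;> norm_num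
  have hsq : ∀ x y, adj G x y ^ 2 = adj G x y := fun x y => by
    simp only [adj]; split_ifs <;> norm_num
  obtain ⟨l, f, hL⟩ := exists_eig (lad (adj G)) (lad_symm (adj G))
  rw [ladSum_eq h0 hL 2, hL.sum_sq]
  have e1 : ∀ a b : X × X, lad (adj G) a b ^ 2 = ww (adj G) a b := by
    intro a b
    unfold lad ww
    rw [mul_pow, mul_pow, mul_pow, Real.sq_sqrt (h0 _ _), Real.sq_sqrt (h0 _ _), hsq, hsq]
  simp only [e1, ww_row]
  have hn : (Fintype.card X : ℝ) ≠ 0 := by
    have : Fintype.card X ≠ 0 := Fintype.card_ne_zero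
    exact_mod_cast this
  field_simp

theorem rich_graph (G : SimpleGraph X) [Nonempty X] (k : ℕ) (hk : Odd k) (hk3 : 3 ≤ k) :
    homDensity (SimpleGraph.cycleGraph 4) G ^ (k + 1) ≤
      edgeDensity G ^ k * homDensity (moebiusLadder k) G := by
  classical
  obtain ⟨m, rfl⟩ := hk
  have hm : m ≠ 0 := by omega
  haveI : NeZero (2 * m + 1) := ⟨by omega⟩
  have hnn : 0 ≤ edgeDensity G := by unfold edgeDensity; positivity
  have hn : 0 < Fintype.card X := Fintype.card_pos
  have hn0 : (0 : ℝ) < Fintype.card X := by exact_mod_cast hn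
  have h0 : ∀ x y, 0 ≤ adj G x y := fun x y => by simp only [adj]; split_ifs <;> norm_num
  have h1 : ∀ x y, adj G x y ≤ 1 := fun x y => by simp only [adj]; split_ifs <;> norm_num
  have hp := adj_sum G
  have hp' : ∑ x, ∑ y, adj G x y = edgeDensity G * (Fintype.card X : ℝ) ^ 2 := by
    rw [← hp]; field_simp
  have hfour := four_density G
  rcases hnn.lt_or_eq with hpos | hz
  · have key := rich_sum h0 h1 hpos hn hp' m hm
    rw [← hfour] at key
    rw [hom_ladder]
    unfold ladderDensity
    rw [← ladSum_two]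
    set n : ℝ := (Fintype.card X : ℝ) with hndef
    set T : ℝ := homDensity (SimpleGraph.cycleGraph 4) G with hT
    set p : ℝ := edgeDensity G with hpd
    have e1 : (T * n ^ 4) ^ (2 * m + 2) = T ^ (2 * m + 1 + 1) * n ^ (8 * m + 8) := by
      rw [mul_pow, ← pow_mul]; congr 2; ring
    have e2 : (p * n ^ 2) ^ (2 * m + 1) * (n ^ 4 * ladSum (adj G) (2 * m + 1)) =
        p ^ (2 * m + 1) * (ladSum (adj G) (2 * m + 1) / n ^ (2 * (2 * m + 1))) *
          n ^ (8 * m + 8) := by
      have e3 : n ^ (8 * m + 8) = n ^ (2 * (2 * m + 1)) * (n ^ (2 * (2 * m + 1)) * n ^ 4) := by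
        rw [← pow_add, ← pow_add]; congr 1; ring
      rw [e3, mul_pow, ← pow_mul]
      field_simp
    rw [e1, e2] at key
    exact le_of_mul_le_mul_right key (by positivity)
  · have e1 : ∑ x, ∑ y, adj G x y = 0 := by rw [hp', ← hz, zero_mul]
    have e2 : ∀ x y, adj G x y = 0 := by
      intro x y
      have e3 := (sum_eq_zero_iff_of_nonneg
        (fun x _ => sum_nonneg fun y _ => h0 x y)).mp e1 x (mem_univ x)
      exact (sum_eq_zero_iff_of_nonneg (fun y _ => h0 x y)).mp e3 y (mem_univ y)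
    have e3 : homDensity (SimpleGraph.cycleGraph 4) G = 0 := by
      have e4 : homDensity (SimpleGraph.cycleGraph 4) G * (Fintype.card X : ℝ) ^ 4 = 0 := by
        rw [hfour]
        exact sum_eq_zero fun a _ => by rw [e2, zero_mul]
      rcases mul_eq_zero.mp e4 with h | h
      · exact h
      · exact absurd h (by positivity)
    rw [e3, ← hz, zero_pow (by omega), zero_pow (by omega), zero_mul]

end graph

end Vale.Agent.P050.H180
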