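import Vale.Agent.P050.H180.Ent5

set_option linter.all false

/-!
The exact form of the closing inequality.
-/

namespace Vale.Agent.P050.H180

open Finset Vale.Agent.P050.H148 Filter Topology

section local_

variable {X : Type*} [Fintype X]

/-- the law of the pair `(x, x')` when `(x, y)` has law `q` and `(x', y')` is the opposite edge -/
noncomputable def lawB (W : X → X → ℝ) (q : X × X → ℝ) (c : X × X) : ℝ :=
  cod W c.1 c.2 * ∑ y, q (c.1, y) * W c.2 y / rr W (c.1, y)

/-- the difference of two entropies -/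
noncomputable def Dq (W : X → X → ℝ) (q : X × X → ℝ) : ℝ :=
  ∑ c, lawB W q c * Real.log (lawB W q c) - ∑ a, q a * Real.log (q a)

variable [Nonempty X] [DecidableEq X] {W : X → X → ℝ}

/-- the logarithm of the number of half steps -/
theorem log_half' (hW : ∀ x y, 0 < W x y) (q χ : X × X → ℝ) (hq : ∀ a, 0 < q a)
    (hq1 : ∑ a, q a = 1) (hχ : ∀ a, 0 < χ a) :
    (∑ c, lawB W q c * (Real.log (lawB W q c) - 2 * Real.log (cod W c.1 c.2))) +
      ∑ a, q a * (Real.log (χ a) - Real.log (q a)) +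
      ∑ a, q a * (3 / 2 * Real.log (W a.1 a.2) + 2 * Real.log (rr W a) - Real.log (q a)) ≤
    Real.log (∑ x, ∑ x', half W (fun x y => Real.sqrt (Real.sqrt (W x y) * χ (x, y)) *
      Real.sqrt (W x y)) x x' ^ 2) := by
  set φ : X → X → ℝ := fun x y => Real.sqrt (Real.sqrt (W x y) * χ (x, y)) * Real.sqrt (W x y)
    with hφ
  have hφ0 : ∀ x y, 0 < φ x y := fun x y => mul_pos (Real.sqrt_pos.mpr
    (mul_pos (Real.sqrt_pos.mpr (hW x y)) (hχ _))) (Real.sqrt_pos.mpr (hW x y))
  have hlφ : ∀ x y, Real.log (φ x y) = 3 / 4 * Real.log (W x y) + 1 / 2 * Real.log (χ (x, y)) := by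
    intro x y
    simp only [hφ]
    rw [Real.log_mul (Real.sqrt_pos.mpr (mul_pos (Real.sqrt_pos.mpr (hW x y)) (hχ _))).ne'
      (Real.sqrt_pos.mpr (hW x y)).ne',
      Real.log_sqrt (mul_pos (Real.sqrt_pos.mpr (hW x y)) (hχ _)).le,
      Real.log_sqrt (hW x y).le, Real.log_mul (Real.sqrt_pos.mpr (hW x y)).ne' (hχ _).ne',
      Real.log_sqrt (hW x y).le]
    ring
  set G : X → X → ℝ := half W φ with hG
  have hG0 : ∀ x x', 0 < G x x' := fun x x' =>
    sum_pos (fun y _ => mul_pos (hφ0 _ _) (hW _ _)) univ_nonempty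
  set s : X → X → ℝ := fun x x' => ∑ y, q (x, y) * W x' y / rr W (x, y) with hs
  have hs0 : ∀ x x', 0 < s x x' := fun x x' =>
    sum_pos (fun y _ => div_pos (mul_pos (hq _) (hW _ _)) (rr_pos hW _)) univ_nonempty
  set β : X × X → ℝ := fun c => cod W c.1 c.2 * s c.1 c.2 with hβ
  have hβ0 : ∀ c, 0 < β c := fun c => mul_pos (cod_pos hW _ _) (hs0 _ _)
  -- averages
  have hav : ∀ h : X → X → ℝ, ∑ x, ∑ x', cod W x x' * ∑ y, q (x, y) * W x' y / rr W (x, y) * h x y =
      ∑ a : X × X, q a * h a.1 a.2 := by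
    intro h
    rw [Fintype.sum_prod_type]
    refine sum_congr rfl fun x _ => ?_
    calc ∑ x', cod W x x' * ∑ y, q (x, y) * W x' y / rr W (x, y) * h x y =
          ∑ x', ∑ y, q (x, y) * h x y / rr W (x, y) * (W x' y * cod W x x') := by
          refine sum_congr rfl fun x' _ => ?_
          rw [mul_sum]
          exact sum_congr rfl fun y _ => by ring
      _ = ∑ y, q (x, y) * h x y / rr W (x, y) * ∑ x', W x' y * cod W x x' := by
          rw [sum_comm]
          exact sum_congr rfl fun y _ => by rw [mul_sum]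
      _ = ∑ y, q (x, y) * h x y := by
          refine sum_congr rfl fun y _ => ?_
          have e1 := cod_rr W (x, y)
          simp only at e1
          rw [e1, div_mul_cancel₀ _ (rr_pos hW _).ne']
  have hβ1 : ∑ c, β c = 1 := by
    have e1 := hav (fun _ _ => 1)
    simp only [mul_one] at e1
    rw [hq1] at e1
    rw [Fintype.sum_prod_type]
    exact e1
  -- step b
  have stepb : ∑ c, β c * (2 * Real.log (G c.1 c.2) - Real.log (β c)) ≤
      Real.log (∑ x, ∑ x', G x x' ^ 2) := by
    have e1 := logsum β (fun c => G c.1 c.2 ^ 2) hβ0 (fun c => pow_pos (hG0 _ _) 2)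
    rw [hβ1, Real.log_one, one_mul, zero_sub, Fintype.sum_prod_type
      (f := fun c : X × X => G c.1 c.2 ^ 2)] at e1
    have e2 : ∑ c, β c * (Real.log (β c) - Real.log (G c.1 c.2 ^ 2)) =
        -∑ c, β c * (2 * Real.log (G c.1 c.2) - Real.log (β c)) := by
      rw [← sum_neg_distrib]
      refine sum_congr rfl fun c _ => ?_
      rw [Real.log_pow]
      push_cast; ring
    rw [e2] at e1
    linarith
  -- step c
  have stepc : ∑ c, β c * (Real.log (s c.1 c.2) - Real.log (G c.1 c.2)) ≤
      ∑ a : X × X, q a * (Real.log (q a) - Real.log (rr W a) - Real.log (φ a.1 a.2)) := by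
    have e1 : ∀ x x', s x x' * (Real.log (s x x') - Real.log (G x x')) ≤
        ∑ y, q (x, y) * W x' y / rr W (x, y) *
          (Real.log (q (x, y)) - Real.log (rr W (x, y)) - Real.log (φ x y)) := by
      intro x x'
      have e2 := logsum (fun y => q (x, y) * W x' y / rr W (x, y)) (fun y => φ x y * W x' y)
        (fun y => div_pos (mul_pos (hq _) (hW _ _)) (rr_pos hW _))
        (fun y => mul_pos (hφ0 _ _) (hW _ _))
      refine e2.trans (le_of_eq ?_)
      refine sum_congr rfl fun y _ => ?_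
      rw [Real.log_div (mul_pos (hq _) (hW _ _)).ne' (rr_pos hW _).ne',
        Real.log_mul (hq _).ne' (hW _ _).ne', Real.log_mul (hφ0 _ _).ne' (hW _ _).ne']
      ring
    have e3 := hav (fun x y => Real.log (q (x, y)) - Real.log (rr W (x, y)) - Real.log (φ x y))
    simp only [Prod.mk.eta] at e3
    rw [← e3, Fintype.sum_prod_type]
    refine sum_le_sum fun x _ => sum_le_sum fun x' _ => ?_
    have e4 := mul_le_mul_of_nonneg_left (e1 x x') (cod_pos hW x x').le
    refine le_trans (le_of_eq ?_) e4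
    simp only [hβ]; ring
  -- step d
  have hsl : ∀ c : X × X, Real.log (s c.1 c.2) = Real.log (β c) - Real.log (cod W c.1 c.2) := by
    intro c
    simp only [hβ]
    rw [Real.log_mul (cod_pos hW _ _).ne' (hs0 _ _).ne']; ring
  have e5 : ∑ c, lawB W q c * (Real.log (lawB W q c) - 2 * Real.log (cod W c.1 c.2)) =
      2 * ∑ c, β c * (Real.log (s c.1 c.2) - Real.log (G c.1 c.2)) +
      ∑ c, β c * (2 * Real.log (G c.1 c.2) - Real.log (β c)) := by
    rw [mul_sum, ← sum_add_distrib]
    refine sum_congr rfl fun c _ => ?_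
    rw [hsl]
    change β c * (Real.log (β c) - 2 * Real.log (cod W c.1 c.2)) = _
    ring
  have e7 : 2 * ∑ a : X × X, q a * (Real.log (q a) - Real.log (rr W a) - Real.log (φ a.1 a.2)) =
      -(∑ a, q a * (Real.log (χ a) - Real.log (q a)) +
      ∑ a, q a * (3 / 2 * Real.log (W a.1 a.2) + 2 * Real.log (rr W a) - Real.log (q a))) := by
    rw [mul_sum, ← sum_add_distrib, ← sum_neg_distrib]
    refine sum_congr rfl fun a _ => ?_
    rw [hlφ]
    simp only [Prod.mk.eta]; ring
  have h8 := mul_le_mul_of_nonneg_left stepc (by norm_num : (0 : ℝ) ≤ 2)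
  rw [e7] at h8
  rw [e5]
  linarith



/-- closed walks of odd length of the ladder operator, in exact form -/
theorem odd_exact (hW : ∀ x y, 0 < W x y) (M : ℕ) [NeZero (2 * M + 3)] :
    2 * (∑ e, rho W e * Dq W (kp (qq W) M e)) -
      4 * (∑ c : X × X, cod W c.1 c.2 ^ 2 / zc W * Real.log (cod W c.1 c.2)) +
      2 * ((M : ℝ) + 3) * (∑ a, rho W a * Real.log (rr W a)) +
      3 * (∑ a, rho W a * Real.log (W a.1 a.2)) - Real.log (zc W) -
      (∑ a, rho W a * Real.log (rho W a)) ≤ Real.log (ladSum W (2 * M + 3)) := by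
  have h0 : ∀ x y, 0 ≤ W x y := fun x y => (hW x y).le
  set r : X × X → ℝ := rho W with hr
  set Q : X × X → X × X → ℝ := qq W with hQ
  have hr0 : ∀ a, 0 < r a := rho_pos hW
  have hr1 : ∑ a, r a = 1 := rho_sum hW
  have hQ0 : ∀ a b, 0 < Q a b := qq_pos hW
  have hQ1 : ∀ a, ∑ b, Q a b = 1 := qq_sum hW
  have hQs : ∀ b, ∑ a, r a * Q a b = r b := qq_stat hW
  set w : ℝ := ∑ a, r a * Real.log (W a.1 a.2) with hw
  set ell : ℝ := ∑ a, r a * Real.log (rr W a) with hell
  set h : ℝ := ∑ a, r a * Real.log (r a) with hh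
  set lz : ℝ := Real.log (zc W) with hlz
  have hrel : h = w + ell - lz := by
    have e1 : lz = ∑ a, r a * lz := by rw [← sum_mul, hr1, one_mul]
    rw [e1, hh, hw, hell, ← sum_add_distrib, ← sum_sub_distrib]
    refine sum_congr rfl fun a _ => ?_
    have e2 : Real.log (r a) = Real.log (W a.1 a.2) + Real.log (rr W a) - lz := by
      simp only [hr]
      unfold rho
      rw [Real.log_div (mul_pos (hW _ _) (rr_pos hW a)).ne' (zc_pos hW).ne',
        Real.log_mul (hW _ _).ne' (rr_pos hW a).ne']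
    rw [e2]; ring
  -- averages over the start
  have havg : ∀ (j : ℕ) (F : X × X → ℝ), ∑ e, r e * ∑ a, kp Q j e a * F a = ∑ a, r a * F a := by
    intro j F
    simp only [mul_sum]
    rw [sum_comm]
    refine sum_congr rfl fun a _ => ?_
    rw [← kp_stat hQs j a, sum_mul]
    exact sum_congr rfl fun e _ => by ring
  set χ : X × X → X × X → ℝ := kp (lad W) M with hχ
  have hχ0 : ∀ e a, 0 < χ e a := fun e a => kp_pos (lad_pos hW) M e a
  set N : X × X → ℝ := fun e => ∑ x, ∑ x', ∑ y, ∑ y',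
      Real.sqrt (W x y) * χ e (x, y) * (Real.sqrt (W x' y') * χ e (x', y')) *
        (W x y' * W x' y) with hN
  have htot : ladSum W (2 * M + 3) = ∑ e, N e := lad_total h0 M
  have hsq : ∀ x y, 0 < Real.sqrt (W x y) := fun x y => Real.sqrt_pos.mpr (hW x y)
  have hN0 : ∀ e, 0 < N e := fun e => sum_pos (fun x _ => sum_pos (fun x' _ => sum_pos
    (fun y _ => sum_pos (fun y' _ => mul_pos (mul_pos (mul_pos (hsq _ _) (hχ0 _ _))
      (mul_pos (hsq _ _) (hχ0 _ _))) (mul_pos (hW _ _) (hW _ _))) univ_nonempty)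
      univ_nonempty) univ_nonempty) univ_nonempty
  set B : X × X → ℝ := fun e => ∑ x, ∑ x', half W (fun x y =>
    Real.sqrt (Real.sqrt (W x y) * χ e (x, y)) * Real.sqrt (W x y)) x x' ^ 2 with hB
  have hB0 : ∀ e, 0 < B e := fun e => sum_pos (fun x _ => sum_pos (fun x' _ => pow_pos
    (sum_pos (fun y _ => mul_pos (mul_pos (Real.sqrt_pos.mpr (mul_pos (hsq _ _) (hχ0 _ _)))
      (hsq _ _)) (hW _ _)) univ_nonempty) 2) univ_nonempty) univ_nonempty
  have hcs : ∀ e, 2 * Real.log (B e) - lz ≤ Real.log (N e) := by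
    intro e
    have e1 := local_cs W (fun x y => Real.sqrt (W x y) * χ e (x, y)) h0
      (fun x y => (mul_pos (hsq _ _) (hχ0 _ _)).le)
    have e2 : Real.log (B e ^ 2) ≤ Real.log (zc W * N e) :=
      Real.log_le_log (pow_pos (hB0 e) 2) e1
    rw [Real.log_pow, Real.log_mul (zc_pos hW).ne' (hN0 e).ne'] at e2
    push_cast at e2
    linarith
  have hlow : ∀ e, (∑ c, lawB W (kp Q M e) c * (Real.log (lawB W (kp Q M e) c) -
      2 * Real.log (cod W c.1 c.2))) +
      ∑ a, kp Q M e a * (Real.log (χ e a) - Real.log (kp Q M e a)) +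
      ∑ a, kp Q M e a * (3 / 2 * Real.log (W a.1 a.2) + 2 * Real.log (rr W a) -
        Real.log (kp Q M e a)) ≤ Real.log (B e) := fun e =>
    log_half' hW (kp Q M e) (χ e) (fun a => kp_pos hQ0 M e a) (kp_sum hQ1 M e) (hχ0 e)
  -- Gibbs
  have hgibbs : ∑ e, r e * (Real.log (N e) - Real.log (r e)) ≤ Real.log (∑ e, N e) := by
    have e1 := logsum r N hr0 hN0
    rw [hr1, Real.log_one, one_mul, zero_sub] at e1
    have e2 : ∑ e, r e * (Real.log (r e) - Real.log (N e)) =
        -∑ e, r e * (Real.log (N e) - Real.log (r e)) := by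
      rw [← sum_neg_distrib]
      exact sum_congr rfl fun e _ => by ring
    rw [e2] at e1
    linarith
  have hg2 : 2 * (∑ e, r e * Real.log (B e)) - lz - h ≤ Real.log (∑ e, N e) := by
    refine le_trans (le_of_eq ?_) ((sum_le_sum fun e _ => mul_le_mul_of_nonneg_left
      (sub_le_sub_right (hcs e) (Real.log (r e))) (hr0 e).le).trans hgibbs)
    have e1 : lz = ∑ a, r a * lz := by rw [← sum_mul, hr1, one_mul]
    nth_rewrite 1 [e1]
    rw [hh, mul_sum, ← sum_sub_distrib, ← sum_sub_distrib]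
    exact sum_congr rfl fun e _ => by ring
  -- the average of the lower bound
  have hlaw : ∀ c : X × X, ∑ e, r e * lawB W (kp Q M e) c = cod W c.1 c.2 ^ 2 / zc W := by
    intro c
    unfold lawB
    calc ∑ e, r e * (cod W c.1 c.2 * ∑ y, kp Q M e (c.1, y) * W c.2 y / rr W (c.1, y)) =
        cod W c.1 c.2 * ∑ y, (∑ e, r e * kp Q M e (c.1, y)) * W c.2 y / rr W (c.1, y) := by
          simp only [mul_sum, sum_mul, sum_div]
          rw [sum_comm]
          refine sum_congr rfl fun y _ => sum_congr rfl fun e _ => ?_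
          ring
      _ = cod W c.1 c.2 * ∑ y, r (c.1, y) * W c.2 y / rr W (c.1, y) := by
          congr 1
          refine sum_congr rfl fun y _ => ?_
          rw [kp_stat hQs M (c.1, y)]
      _ = cod W c.1 c.2 * ∑ y, W c.1 y * W c.2 y / zc W := by
          congr 1
          refine sum_congr rfl fun y _ => ?_
          have e1 := (rr_pos hW (c.1, y)).ne'
          have e2 := (zc_pos hW).ne'
          simp only [hr]
          unfold rho
          field_simp
      _ = _ := by
          rw [← sum_div]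
          change cod W c.1 c.2 * (cod W c.1 c.2 / zc W) = _
          ring
  set D : X × X → ℝ := fun e => Dq W (kp Q M e) with hD
  set cc : ℝ := ∑ c : X × X, cod W c.1 c.2 ^ 2 / zc W * Real.log (cod W c.1 c.2) with hcc
  have hT1 : ∑ e, r e * (∑ c, lawB W (kp Q M e) c * (Real.log (lawB W (kp Q M e) c) -
      2 * Real.log (cod W c.1 c.2))) = ∑ e, r e * (D e + ∑ a, kp Q M e a *
      Real.log (kp Q M e a)) - 2 * cc := by
    have e1 : cc = ∑ e, r e * ∑ c, lawB W (kp Q M e) c * Real.log (cod W c.1 c.2) := by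
      rw [hcc]
      simp only [mul_sum]
      rw [sum_comm]
      refine sum_congr rfl fun c _ => ?_
      rw [← hlaw c, sum_mul]
      exact sum_congr rfl fun e _ => by ring
    rw [e1, mul_sum, ← sum_sub_distrib]
    refine sum_congr rfl fun e _ => ?_
    have e2 : D e = ∑ c, lawB W (kp Q M e) c * Real.log (lawB W (kp Q M e) c) -
        ∑ a, kp Q M e a * Real.log (kp Q M e a) := rfl
    have e3 : ∑ c, lawB W (kp Q M e) c * (Real.log (lawB W (kp Q M e) c) -
        2 * Real.log (cod W c.1 c.2)) = (∑ c, lawB W (kp Q M e) c *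
        Real.log (lawB W (kp Q M e) c)) - 2 * ∑ c, lawB W (kp Q M e) c *
        Real.log (cod W c.1 c.2) := by
      rw [mul_sum, ← sum_sub_distrib]
      exact sum_congr rfl fun c _ => by ring
    rw [e3, e2]
    ring
  have hT2 : ((M : ℝ) + 1) * ell ≤ ∑ e, r e * (∑ a, kp Q M e a * (Real.log (χ e a) -
      Real.log (kp Q M e a))) := by
    have e1 := weight_step (S := lad W) hQ0 (lad_pos hW) hQ1 hQs hr0 M
    rw [gain_zero hW] at e1
    refine e1.trans (le_of_eq ?_)
    refine sum_congr rfl fun e _ => ?_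
    rw [mul_sum]
    exact sum_congr rfl fun b _ => by ring
  have hT3 : ∑ e, r e * (∑ a, kp Q M e a * (3 / 2 * Real.log (W a.1 a.2) +
      2 * Real.log (rr W a) - Real.log (kp Q M e a))) = 3 / 2 * w + 2 * ell -
      ∑ e, r e * ∑ a, kp Q M e a * Real.log (kp Q M e a) := by
    have e1 := havg M (fun a => Real.log (W a.1 a.2))
    have e2 := havg M (fun a => Real.log (rr W a))
    rw [hw, hell, ← e1, ← e2]
    rw [mul_sum, mul_sum, ← sum_add_distrib, ← sum_sub_distrib]
    refine sum_congr rfl fun e _ => ?_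
    have e3 : ∑ a, kp Q M e a * (3 / 2 * Real.log (W a.1 a.2) +
      2 * Real.log (rr W a) - Real.log (kp Q M e a)) =
      3 / 2 * (∑ a, kp Q M e a * Real.log (W a.1 a.2)) +
      2 * (∑ a, kp Q M e a * Real.log (rr W a)) -
      ∑ a, kp Q M e a * Real.log (kp Q M e a) := by
      rw [mul_sum, mul_sum, ← sum_add_distrib, ← sum_sub_distrib]
      exact sum_congr rfl fun b _ => by ring
    rw [e3]
    ring
  have hBl : (∑ e, r e * D e) - 2 * cc + ((M : ℝ) + 1) * ell + (3 / 2 * w + 2 * ell) ≤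
      ∑ e, r e * Real.log (B e) := by
    have e1 := sum_le_sum fun e (_ : e ∈ univ) => mul_le_mul_of_nonneg_left (hlow e) (hr0 e).le
    have e3 : ∑ e, r e * ((∑ c, lawB W (kp Q M e) c * (Real.log (lawB W (kp Q M e) c) -
        2 * Real.log (cod W c.1 c.2))) +
        ∑ a, kp Q M e a * (Real.log (χ e a) - Real.log (kp Q M e a)) +
        ∑ a, kp Q M e a * (3 / 2 * Real.log (W a.1 a.2) + 2 * Real.log (rr W a) -
        Real.log (kp Q M e a))) = (∑ e, r e * (∑ c, lawB W (kp Q M e) c *
        (Real.log (lawB W (kp Q M e) c) - 2 * Real.log (cod W c.1 c.2)))) +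
        (∑ e, r e * (∑ a, kp Q M e a * (Real.log (χ e a) - Real.log (kp Q M e a)))) +
        ∑ e, r e * (∑ a, kp Q M e a * (3 / 2 * Real.log (W a.1 a.2) +
        2 * Real.log (rr W a) - Real.log (kp Q M e a))) := by
      rw [← sum_add_distrib, ← sum_add_distrib]
      exact sum_congr rfl fun e _ => by ring
    have e4 : ∑ e, r e * (D e + ∑ a, kp Q M e a * Real.log (kp Q M e a)) =
        (∑ e, r e * D e) + ∑ e, r e * ∑ a, kp Q M e a * Real.log (kp Q M e a) := by
      rw [← sum_add_distrib]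
      exact sum_congr rfl fun e _ => by ring
    rw [e3, hT1, hT3, e4] at e1
    linarith
  rw [htot]
  linarith

/-- the bound for the difference of entropies gives the bound for the ladder -/
theorem half_log_of (hW : ∀ x y, 0 < W x y) (hW1 : ∀ x y, W x y ≤ 1) (M : ℕ) [NeZero (2 * M + 3)]
    (H : -(1 / 2) * Real.log (zc W) - 3 * (∑ a, rho W a * Real.log (W a.1 a.2)) +
      4 * (∑ c : X × X, cod W c.1 c.2 ^ 2 / zc W * Real.log (cod W c.1 c.2)) -
      (∑ a, rho W a * Real.log (rr W a)) ≤ 2 * ∑ e, rho W e * Dq W (kp (qq W) M e)) :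
    (2 * (M : ℝ) + 7 / 2) * Real.log (zc W) -
      (2 * (M : ℝ) + 4) * Real.log (∑ a : X × X, W a.1 a.2) ≤
      Real.log (ladSum W (2 * M + 3)) := by
  have h1 := odd_exact hW M
  have hr0 : ∀ a, 0 < rho W a := rho_pos hW
  have hr1 : ∑ a, rho W a = 1 := rho_sum hW
  have o5 := ell_ge hW
  set w : ℝ := ∑ a, rho W a * Real.log (W a.1 a.2) with hw
  set ell : ℝ := ∑ a, rho W a * Real.log (rr W a) with hell
  set h : ℝ := ∑ a, rho W a * Real.log (rho W a) with hh
  set lz : ℝ := Real.log (zc W) with hlz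
  have hrel : h = w + ell - lz := by
    have e1 : lz = ∑ a, rho W a * lz := by rw [← sum_mul, hr1, one_mul]
    rw [e1, hh, hw, hell, ← sum_add_distrib, ← sum_sub_distrib]
    refine sum_congr rfl fun a _ => ?_
    have e2 : Real.log (rho W a) = Real.log (W a.1 a.2) + Real.log (rr W a) - lz := by
      unfold rho
      rw [Real.log_div (mul_pos (hW _ _) (rr_pos hW a)).ne' (zc_pos hW).ne',
        Real.log_mul (hW _ _).ne' (rr_pos hW a).ne']
    rw [e2]; ring
  have hw0 : w ≤ 0 := by
    rw [hw]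
    exact sum_nonpos fun a _ => mul_nonpos_of_nonneg_of_nonpos (hr0 a).le
      (Real.log_nonpos (hW _ _).le (hW1 _ _))
  have h12 : (0 : ℝ) ≤ 2 * (M : ℝ) + 4 := by positivity
  have h13 := mul_le_mul_of_nonneg_left o5 h12
  linarith

end local_

end Vale.Agent.P050.H180
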