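import Vale.Agent.P050.H148.Gap

set_option linter.all false

/-!
Three times the ladder operator plus the diagonal of path counts is positive semidefinite.
-/

namespace Vale.Agent.P050.H180

open Finset Vale.Agent.P050.H148

section cert

variable {X : Type*} [Fintype X]

/-- paths of length three between the ends of a pair -/
noncomputable def rr (W : X → X → ℝ) (a : X × X) : ℝ :=
  ∑ x', ∑ y', W a.1 y' * W x' y' * W x' a.2

theorem rr_nonneg {W : X → X → ℝ} (h0 : ∀ x y, 0 ≤ W x y) (a : X × X) : 0 ≤ rr W a :=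
  sum_nonneg fun x' _ => sum_nonneg fun y' _ =>
    mul_nonneg (mul_nonneg (h0 _ _) (h0 _ _)) (h0 _ _)

theorem swap34 (F : X → X → X → X → ℝ) : ∑ x, ∑ x', ∑ y, ∑ y', F x x' y y' =
    ∑ x, ∑ x', ∑ y, ∑ y', F x x' y' y :=
  sum_congr rfl fun x _ => sum_congr rfl fun x' _ => sum_comm

theorem swap12 (F : X → X → X → X → ℝ) : ∑ x, ∑ x', ∑ y, ∑ y', F x x' y y' =
    ∑ x, ∑ x', ∑ y, ∑ y', F x' x y y' := sum_comm

theorem mid (F : X → X → X → X → ℝ) : ∑ x, ∑ x', ∑ y, ∑ y', F x x' y y' =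
    ∑ y, ∑ y', ∑ x, ∑ x', F x x' y y' := by
  calc ∑ x, ∑ x', ∑ y, ∑ y', F x x' y y' = ∑ x, ∑ y, ∑ x', ∑ y', F x x' y y' :=
        sum_congr rfl fun x _ => sum_comm
    _ = ∑ y, ∑ x, ∑ x', ∑ y', F x x' y y' := sum_comm
    _ = ∑ y, ∑ x, ∑ y', ∑ x', F x x' y y' :=
        sum_congr rfl fun y _ => sum_congr rfl fun x _ => sum_comm
    _ = ∑ y, ∑ y', ∑ x, ∑ x', F x x' y y' := sum_congr rfl fun y _ => sum_comm

/-- the sum over four-cycles with a weight at one edge -/
theorem om_row (W : X → X → ℝ) (c : X → X → ℝ) :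
    ∑ x, ∑ x', ∑ y, ∑ y', om W x x' y y' * c x y = ∑ x, ∑ y, W x y * rr W (x, y) * c x y := by
  refine sum_congr rfl fun x _ => ?_
  rw [sum_comm]
  refine sum_congr rfl fun y _ => ?_
  unfold rr
  rw [mul_sum, sum_mul]
  refine sum_congr rfl fun x' _ => ?_
  rw [mul_sum, sum_mul]
  refine sum_congr rfl fun y' _ => ?_
  unfold om; ring

variable {W : X → X → ℝ}

theorem sq_form (h0 : ∀ x y, 0 ≤ W x y) (h : X → X → ℝ) :
    0 ≤ 3 * (∑ x, ∑ x', ∑ y, ∑ y', om W x x' y y' * (h x y * h x' y')) +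
      ∑ x, ∑ y, W x y * rr W (x, y) * h x y ^ 2 := by
  set S : ℝ := ∑ x, ∑ x', ∑ y, ∑ y', om W x x' y y' * h x y ^ 2 with hS
  set Q : ℝ := ∑ x, ∑ x', ∑ y, ∑ y', om W x x' y y' * (h x y * h x' y') with hQ
  set A : ℝ := ∑ x, ∑ x', ∑ y, ∑ y', om W x x' y y' * (h x y * h x y') with hA
  set B : ℝ := ∑ x, ∑ x', ∑ y, ∑ y', om W x x' y y' * (h x y * h x' y) with hB
  have hSeq : S = ∑ x, ∑ y, W x y * rr W (x, y) * h x y ^ 2 := om_row W (fun x y => h x y ^ 2)
  rw [← hSeq]
  have hom : ∀ x x' y y', 0 ≤ om W x x' y y' := fun x x' y y' => by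
    have := h0 x y; have := h0 x' y'; have := h0 x y'; have := h0 x' y
    unfold om; positivity
  -- relabelled sums
  have s1 : ∑ x, ∑ x', ∑ y, ∑ y', om W x x' y y' * h x y' ^ 2 = S := by
    rw [hS, swap34]
    refine sum_congr rfl fun x _ => sum_congr rfl fun x' _ => sum_congr rfl fun y _ =>
      sum_congr rfl fun y' _ => ?_
    unfold om; ring
  have s2 : ∑ x, ∑ x', ∑ y, ∑ y', om W x x' y y' * h x' y ^ 2 = S := by
    rw [hS, swap12]
    refine sum_congr rfl fun x _ => sum_congr rfl fun x' _ => sum_congr rfl fun y _ =>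
      sum_congr rfl fun y' _ => ?_
    unfold om; ring
  have s3 : ∑ x, ∑ x', ∑ y, ∑ y', om W x x' y y' * h x' y' ^ 2 = S := by
    rw [hS, swap12, swap34]
    refine sum_congr rfl fun x _ => sum_congr rfl fun x' _ => sum_congr rfl fun y _ =>
      sum_congr rfl fun y' _ => ?_
    unfold om; ring
  have q1 : ∑ x, ∑ x', ∑ y, ∑ y', om W x x' y y' * (h x y' * h x' y) = Q := by
    rw [hQ, swap34]
    refine sum_congr rfl fun x _ => sum_congr rfl fun x' _ => sum_congr rfl fun y _ =>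
      sum_congr rfl fun y' _ => ?_
    unfold om; ring
  have a1 : ∑ x, ∑ x', ∑ y, ∑ y', om W x x' y y' * (h x' y * h x' y') = A := by
    rw [hA, swap12]
    refine sum_congr rfl fun x _ => sum_congr rfl fun x' _ => sum_congr rfl fun y _ =>
      sum_congr rfl fun y' _ => ?_
    unfold om; ring
  have b1 : ∑ x, ∑ x', ∑ y, ∑ y', om W x x' y y' * (h x y' * h x' y') = B := by
    rw [hB, swap34]
    refine sum_congr rfl fun x _ => sum_congr rfl fun x' _ => sum_congr rfl fun y _ =>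
      sum_congr rfl fun y' _ => ?_
    unfold om; ring
  have hsq : 0 ≤ ∑ x, ∑ x', ∑ y, ∑ y', om W x x' y y' *
      (h x y + h x' y' - h x y' - h x' y) ^ 2 :=
    sum_nonneg fun x _ => sum_nonneg fun x' _ => sum_nonneg fun y _ => sum_nonneg fun y' _ =>
      mul_nonneg (hom _ _ _ _) (sq_nonneg _)
  have hexp : ∑ x, ∑ x', ∑ y, ∑ y', om W x x' y y' *
      (h x y + h x' y' - h x y' - h x' y) ^ 2 = 4 * S + 4 * Q - 4 * A - 4 * B := by
    have e : ∀ x x' y y', om W x x' y y' * (h x y + h x' y' - h x y' - h x' y) ^ 2 =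
        om W x x' y y' * h x y ^ 2 + om W x x' y y' * h x' y' ^ 2 +
        om W x x' y y' * h x y' ^ 2 + om W x x' y y' * h x' y ^ 2 +
        2 * (om W x x' y y' * (h x y * h x' y')) + 2 * (om W x x' y y' * (h x y' * h x' y)) -
        2 * (om W x x' y y' * (h x y * h x y')) - 2 * (om W x x' y y' * (h x' y * h x' y')) -
        2 * (om W x x' y y' * (h x y * h x' y)) -
        2 * (om W x x' y y' * (h x y' * h x' y')) := fun x x' y y' => by ring
    simp only [e, sum_add_distrib, sum_sub_distrib, ← mul_sum, s1, s2, s3, q1, a1, b1, ← hS,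
      ← hQ, ← hA, ← hB]
    ring
  -- the two Gram matrices
  have hAQ : 0 ≤ A + Q := by
    set G : X → X → ℝ := fun x x' => ∑ y, W x y * h x y * W x' y with hG
    have e1 : A = ∑ x, ∑ x', G x x' ^ 2 := by
      rw [hA]
      refine sum_congr rfl fun x _ => sum_congr rfl fun x' _ => ?_
      simp only [hG]
      rw [sq, sum_mul_sum]
      refine sum_congr rfl fun y _ => sum_congr rfl fun y' _ => ?_
      unfold om; ring
    have e2 : Q = ∑ x, ∑ x', G x x' * G x' x := by
      rw [hQ]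
      refine sum_congr rfl fun x _ => sum_congr rfl fun x' _ => ?_
      simp only [hG]
      rw [sum_mul_sum]
      refine sum_congr rfl fun y _ => sum_congr rfl fun y' _ => ?_
      unfold om; ring
    have e3 : A = ∑ x, ∑ x', G x' x ^ 2 := by rw [e1, sum_comm]
    have e4 : 2 * (A + Q) = ∑ x, ∑ x', (G x x' + G x' x) ^ 2 := by
      have e5 : ∀ x x', (G x x' + G x' x) ^ 2 = G x x' ^ 2 + G x' x ^ 2 + 2 * (G x x' * G x' x) :=
        fun x x' => by ring
      simp only [e5, sum_add_distrib, ← mul_sum, ← e1, ← e2, ← e3]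
      ring
    have e6 : 0 ≤ ∑ x, ∑ x', (G x x' + G x' x) ^ 2 :=
      sum_nonneg fun x _ => sum_nonneg fun x' _ => sq_nonneg _
    linarith
  have hBQ : 0 ≤ B + Q := by
    set G : X → X → ℝ := fun y y' => ∑ x, W x y * h x y * W x y' with hG
    have e1 : B = ∑ y, ∑ y', G y y' ^ 2 := by
      rw [hB, mid]
      refine sum_congr rfl fun y _ => sum_congr rfl fun y' _ => ?_
      simp only [hG]
      rw [sq, sum_mul_sum]
      refine sum_congr rfl fun x _ => sum_congr rfl fun x' _ => ?_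
      unfold om; ring
    have e2 : Q = ∑ y, ∑ y', G y y' * G y' y := by
      rw [hQ, mid]
      refine sum_congr rfl fun y _ => sum_congr rfl fun y' _ => ?_
      simp only [hG]
      rw [sum_mul_sum]
      refine sum_congr rfl fun x _ => sum_congr rfl fun x' _ => ?_
      unfold om; ring
    have e3 : B = ∑ y, ∑ y', G y' y ^ 2 := by rw [e1, sum_comm]
    have e4 : 2 * (B + Q) = ∑ y, ∑ y', (G y y' + G y' y) ^ 2 := by
      have e5 : ∀ x x', (G x x' + G x' x) ^ 2 = G x x' ^ 2 + G x' x ^ 2 + 2 * (G x x' * G x' x) :=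
        fun x x' => by ring
      simp only [e5, sum_add_distrib, ← mul_sum, ← e1, ← e2, ← e3]
      ring
    have e6 : 0 ≤ ∑ y, ∑ y', (G y y' + G y' y) ^ 2 :=
      sum_nonneg fun x _ => sum_nonneg fun x' _ => sq_nonneg _
    linarith
  rw [hexp] at hsq
  linarith

/-- the certificate -/
theorem cert [DecidableEq X] (h0 : ∀ x y, 0 ≤ W x y) (g : X × X → ℝ) :
    0 ≤ 3 * (∑ a, ∑ b, g a * lad W a b * g b) + ∑ a, rr W a * g a ^ 2 := by
  set h : X → X → ℝ := fun x y => g (x, y) / Real.sqrt (W x y) with hh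
  have key : ∀ x y, W x y * h x y = Real.sqrt (W x y) * g (x, y) := by
    intro x y
    rcases (h0 x y).lt_or_eq with hpos | hz
    · have hs : Real.sqrt (W x y) ≠ 0 := (Real.sqrt_pos.mpr hpos).ne'
      simp only [hh]
      rw [← mul_div_assoc, div_eq_iff hs]
      nth_rewrite 1 [← Real.mul_self_sqrt (h0 x y)]
      ring
    · rw [← hz]; simp
  have e1 := sq_form h0 h
  have e2 : ∑ x, ∑ x', ∑ y, ∑ y', om W x x' y y' * (h x y * h x' y') =
      ∑ a, ∑ b, g a * lad W a b * g b := by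
    rw [prod4]
    refine sum_congr rfl fun x _ => sum_congr rfl fun x' _ => sum_congr rfl fun y _ =>
      sum_congr rfl fun y' _ => ?_
    unfold om lad
    calc _ = (W x y * h x y) * (W x' y' * h x' y') * (W x y' * W x' y) := by ring
      _ = _ := by rw [key, key]; ring
  have e3 : ∑ x, ∑ y, W x y * rr W (x, y) * h x y ^ 2 ≤ ∑ a, rr W a * g a ^ 2 := by
    rw [Fintype.sum_prod_type]
    refine sum_le_sum fun x _ => sum_le_sum fun y _ => ?_
    have e4 : W x y * h x y ^ 2 ≤ g (x, y) ^ 2 := by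
      rcases (h0 x y).lt_or_eq with hpos | hz
      · have hs : Real.sqrt (W x y) ≠ 0 := (Real.sqrt_pos.mpr hpos).ne'
        simp only [hh, div_pow, Real.sq_sqrt (h0 x y)]
        rw [mul_div_cancel₀ _ hpos.ne']
      · rw [← hz]; simp; positivity
    have := mul_le_mul_of_nonneg_left e4 (rr_nonneg h0 (x, y))
    calc W x y * rr W (x, y) * h x y ^ 2 = rr W (x, y) * (W x y * h x y ^ 2) := by ring
      _ ≤ _ := this
  rw [e2] at e1
  linarith

end cert

end Vale.Agent.P050.H180
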