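import Vale.Agent.P050.H180.Graph2

set_option linter.all false

/-!
Entropies of a stationary Markov chain on a finite set.
-/

namespace Vale.Agent.P050.H180

open Finset

/-- the log-sum inequality -/
theorem logsum {ι : Type*} [Fintype ι] [Nonempty ι] (u v : ι → ℝ) (hu : ∀ i, 0 < u i)
    (hv : ∀ i, 0 < v i) :
    (∑ i, u i) * (Real.log (∑ i, u i) - Real.log (∑ i, v i)) ≤
      ∑ i, u i * (Real.log (u i) - Real.log (v i)) := by
  have hU : 0 < ∑ i, u i := sum_pos (fun i _ => hu i) univ_nonempty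
  have hV : 0 < ∑ i, v i := sum_pos (fun i _ => hv i) univ_nonempty
  set U := ∑ i, u i with hUd
  set V := ∑ i, v i with hVd
  have h1 : ∀ i, u i * (Real.log (v i) - Real.log (u i) + (Real.log U - Real.log V)) ≤
      v i * (U / V) - u i := by
    intro i
    have e1 : 0 < v i * U / (u i * V) := div_pos (mul_pos (hv i) hU) (mul_pos (hu i) hV)
    have e2 := Real.log_le_sub_one_of_pos e1
    rw [Real.log_div (mul_pos (hv i) hU).ne' (mul_pos (hu i) hV).ne',
      Real.log_mul (hv i).ne' hU.ne', Real.log_mul (hu i).ne' hV.ne'] at e2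
    have e3 : u i * (v i * U / (u i * V)) = v i * (U / V) := by
      have := (hu i).ne'
      have := hV.ne'
      field_simp
    have e4 := mul_le_mul_of_nonneg_left e2 (hu i).le
    rw [mul_sub (u i) (v i * U / (u i * V)) 1, e3, mul_one] at e4
    refine le_trans (le_of_eq ?_) e4
    ring
  have h2 := sum_le_sum fun i (_ : i ∈ univ) => h1 i
  rw [sum_sub_distrib, ← sum_mul, ← hUd, ← hVd] at h2
  have h3 : V * (U / V) = U := by field_simp
  rw [h3, sub_self] at h2
  have h4 : ∑ i, u i * (Real.log (v i) - Real.log (u i) + (Real.log U - Real.log V)) =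
      -(∑ i, u i * (Real.log (u i) - Real.log (v i))) + U * (Real.log U - Real.log V) := by
    rw [hUd, sum_mul, ← sum_neg_distrib, ← sum_add_distrib]
    refine sum_congr rfl fun i _ => by ring
  rw [h4] at h2
  linarith

section chain

variable {V : Type*} [Fintype V] [Nonempty V]

/-- powers of a kernel: `kp Q j` is the `(j + 1)`-st power -/
def kp (Q : V → V → ℝ) : ℕ → V → V → ℝ
  | 0 => Q
  | j + 1 => fun a b => ∑ c, kp Q j a c * Q c b

theorem kp_pos {Q : V → V → ℝ} (hQ : ∀ a b, 0 < Q a b) (j : ℕ) (a b : V) : 0 < kp Q j a b := by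
  induction j generalizing b with
  | zero => exact hQ a b
  | succ j ih => exact sum_pos (fun c _ => mul_pos (ih c) (hQ c b)) univ_nonempty

theorem kp_left (Q : V → V → ℝ) (j : ℕ) (a b : V) :
    kp Q (j + 1) a b = ∑ c, Q a c * kp Q j c b := by
  induction j generalizing b with
  | zero => rfl
  | succ j ih =>
    calc kp Q (j + 1 + 1) a b = ∑ c, (∑ d, Q a d * kp Q j d c) * Q c b := by
          refine sum_congr rfl fun c _ => ?_
          rw [← ih c]
      _ = ∑ c, ∑ d, Q a d * (kp Q j d c * Q c b) := by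
          refine sum_congr rfl fun c _ => ?_
          rw [sum_mul]
          exact sum_congr rfl fun d _ => by ring
      _ = ∑ d, ∑ c, Q a d * (kp Q j d c * Q c b) := sum_comm
      _ = ∑ d, Q a d * kp Q (j + 1) d b := by
          refine sum_congr rfl fun d _ => ?_
          rw [← mul_sum]
          rfl

variable {Q : V → V → ℝ} {r : V → ℝ}

theorem kp_sum (h1 : ∀ a, ∑ b, Q a b = 1) (j : ℕ) (a : V) : ∑ b, kp Q j a b = 1 := by
  induction j with
  | zero => exact h1 a
  | succ j ih =>
    simp only [kp]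
    rw [sum_comm]
    simp only [← mul_sum, h1, mul_one]
    exact ih

theorem kp_stat (hs : ∀ b, ∑ a, r a * Q a b = r b) (j : ℕ) (b : V) :
    ∑ a, r a * kp Q j a b = r b := by
  induction j generalizing b with
  | zero => exact hs b
  | succ j ih =>
    simp only [kp, mul_sum]
    rw [sum_comm]
    have : ∀ c, ∑ a, r a * (kp Q j a c * Q c b) = r c * Q c b := by
      intro c
      rw [← ih c, sum_mul]
      exact sum_congr rfl fun a _ => by ring
    simp only [this]
    exact hs b

/-- minus the entropy of the chain after `j + 1` steps, given the start -/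
noncomputable def en (Q : V → V → ℝ) (r : V → ℝ) (j : ℕ) : ℝ :=
  ∑ a, ∑ b, r a * kp Q j a b * Real.log (kp Q j a b)

/-- relative entropy -/
noncomputable def kl (u v : V → ℝ) : ℝ := ∑ b, u b * (Real.log (u b) - Real.log (v b))

theorem kl_step (hQ : ∀ a b, 0 < Q a b) (h1 : ∀ a, ∑ b, Q a b = 1) {u v : V → ℝ}
    (hu : ∀ b, 0 < u b) (hv : ∀ b, 0 < v b) :
    kl (fun b => ∑ c, u c * Q c b) (fun b => ∑ c, v c * Q c b) ≤ kl u v := by
  unfold kl
  have e1 : ∀ b, (∑ c, u c * Q c b) * (Real.log (∑ c, u c * Q c b) -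
      Real.log (∑ c, v c * Q c b)) ≤ ∑ c, u c * Q c b * (Real.log (u c) - Real.log (v c)) := by
    intro b
    refine (logsum (fun c => u c * Q c b) (fun c => v c * Q c b)
      (fun c => mul_pos (hu c) (hQ c b)) (fun c => mul_pos (hv c) (hQ c b))).trans (le_of_eq ?_)
    refine sum_congr rfl fun c _ => ?_
    rw [Real.log_mul (hu c).ne' (hQ c b).ne', Real.log_mul (hv c).ne' (hQ c b).ne']
    ring
  refine (sum_le_sum fun b _ => e1 b).trans (le_of_eq ?_)
  rw [sum_comm]
  refine sum_congr rfl fun c _ => ?_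
  rw [← sum_mul, ← mul_sum, h1, mul_one]

theorem en_diff (hQ : ∀ a b, 0 < Q a b) (h1 : ∀ a, ∑ b, Q a b = 1)
    (hs : ∀ b, ∑ a, r a * Q a b = r b) (j : ℕ) :
    en Q r j - en Q r (j + 1) = ∑ a, ∑ g, r a * Q a g * kl (kp Q j g) (kp Q (j + 1) a) := by
  have e1 : en Q r j = ∑ a, ∑ g, ∑ b, r a * Q a g * (kp Q j g b * Real.log (kp Q j g b)) := by
    unfold en
    rw [sum_comm' (s := univ) (t := fun _ => univ) (s' := fun _ => univ) (t' := univ)
      (by simp)]
    · rw [sum_comm]
      have : ∀ g, ∑ a, ∑ b, r a * Q a g * (kp Q j g b * Real.log (kp Q j g b)) =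
          ∑ b, r g * kp Q j g b * Real.log (kp Q j g b) := by
        intro g
        rw [sum_comm]
        refine sum_congr rfl fun b _ => ?_
        rw [← sum_mul, hs]; ring
      rw [sum_comm (f := fun a g => ∑ b, r a * Q a g * (kp Q j g b * Real.log (kp Q j g b)))]
      simp only [this]
  have e2 : en Q r (j + 1) = ∑ a, ∑ g, ∑ b, r a * Q a g *
      (kp Q j g b * Real.log (kp Q (j + 1) a b)) := by
    unfold en
    refine sum_congr rfl fun a _ => ?_
    rw [sum_comm]
    refine sum_congr rfl fun b _ => ?_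
    rw [kp_left Q j a b, mul_sum, sum_mul]
    refine sum_congr rfl fun g _ => ?_
    rw [← kp_left Q j a b]; ring
  rw [e1, e2, ← sum_sub_distrib]
  refine sum_congr rfl fun a _ => ?_
  rw [← sum_sub_distrib]
  refine sum_congr rfl fun g _ => ?_
  rw [← sum_sub_distrib]
  unfold kl
  rw [mul_sum]
  exact sum_congr rfl fun b _ => by ring

theorem en_conv (hQ : ∀ a b, 0 < Q a b) (h1 : ∀ a, ∑ b, Q a b = 1) (hr : ∀ a, 0 < r a)
    (hs : ∀ b, ∑ a, r a * Q a b = r b) (j : ℕ) :
    en Q r (j + 1) - en Q r (j + 2) ≤ en Q r j - en Q r (j + 1) := by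
  rw [en_diff hQ h1 hs, en_diff hQ h1 hs]
  refine sum_le_sum fun a _ => sum_le_sum fun g _ => ?_
  refine mul_le_mul_of_nonneg_left ?_ (mul_pos (hr a) (hQ a g)).le
  exact kl_step hQ h1 (fun b => kp_pos hQ j g b) (fun b => kp_pos hQ (j + 1) a b)

theorem en_tele (hQ : ∀ a b, 0 < Q a b) (h1 : ∀ a, ∑ b, Q a b = 1) (hr : ∀ a, 0 < r a)
    (hs : ∀ b, ∑ a, r a * Q a b = r b) (j : ℕ) :
    ((j : ℝ) + 1) * (en Q r j - en Q r (j + 1)) ≤ en Q r 0 - en Q r (j + 1) := by
  induction j with
  | zero => simp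
  | succ j ih =>
    have e1 := en_conv hQ h1 hr hs j
    have e2 : ((j : ℝ) + 1) * (en Q r (j + 1) - en Q r (j + 2)) ≤
        ((j : ℝ) + 1) * (en Q r j - en Q r (j + 1)) :=
      mul_le_mul_of_nonneg_left e1 (by positivity)
    push_cast
    linarith

theorem en_ge (hQ : ∀ a b, 0 < Q a b) (hr : ∀ a, 0 < r a) (hr1 : ∑ a, r a = 1)
    (hs : ∀ b, ∑ a, r a * Q a b = r b) (j : ℕ) : ∑ b, r b * Real.log (r b) ≤ en Q r j := by
  unfold en
  rw [sum_comm]
  refine sum_le_sum fun b _ => ?_
  have e1 := logsum (fun a => r a * kp Q j a b) r (fun a => mul_pos (hr a) (kp_pos hQ j a b)) hr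
  rw [kp_stat hs, hr1, Real.log_one, sub_zero] at e1
  refine e1.trans (le_of_eq ?_)
  refine sum_congr rfl fun a _ => ?_
  rw [Real.log_mul (hr a).ne' (kp_pos hQ j a b).ne']; ring

/-- comparison with a weighted kernel -/
theorem weight_step {S : V → V → ℝ} (hQ : ∀ a b, 0 < Q a b) (hS : ∀ a b, 0 < S a b)
    (h1 : ∀ a, ∑ b, Q a b = 1) (hs : ∀ b, ∑ a, r a * Q a b = r b) (hr : ∀ a, 0 < r a) (j : ℕ) :
    ((j : ℝ) + 1) * (∑ a, ∑ b, r a * Q a b * (Real.log (S a b) - Real.log (Q a b))) ≤
      ∑ a, ∑ b, r a * kp Q j a b * (Real.log (kp S j a b) - Real.log (kp Q j a b)) := by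
  induction j with
  | zero => simp [kp]
  | succ j ih =>
    have e1 : ∀ a b, ∑ g, kp Q j a g * Q g b * ((Real.log (kp S j a g) - Real.log (kp Q j a g)) +
        (Real.log (S g b) - Real.log (Q g b))) ≤
        kp Q (j + 1) a b * (Real.log (kp S (j + 1) a b) - Real.log (kp Q (j + 1) a b)) := by
      intro a b
      have e2 := logsum (fun g => kp Q j a g * Q g b) (fun g => kp S j a g * S g b)
        (fun g => mul_pos (kp_pos hQ j a g) (hQ g b)) (fun g => mul_pos (kp_pos hS j a g) (hS g b))
      have e3 : ∑ g, kp Q j a g * Q g b * (Real.log (kp Q j a g * Q g b) -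
          Real.log (kp S j a g * S g b)) = -∑ g, kp Q j a g * Q g b *
          ((Real.log (kp S j a g) - Real.log (kp Q j a g)) +
          (Real.log (S g b) - Real.log (Q g b))) := by
        rw [← sum_neg_distrib]
        refine sum_congr rfl fun g _ => ?_
        rw [Real.log_mul (kp_pos hQ j a g).ne' (hQ g b).ne',
          Real.log_mul (kp_pos hS j a g).ne' (hS g b).ne']
        ring
      rw [e3] at e2
      have e4 : kp Q (j + 1) a b = ∑ g, kp Q j a g * Q g b := rfl
      have e5 : kp S (j + 1) a b = ∑ g, kp S j a g * S g b := rfl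
      rw [e4, e5]
      linarith
    have e6 : ∑ a, ∑ b, r a * ∑ g, kp Q j a g * Q g b * ((Real.log (kp S j a g) -
        Real.log (kp Q j a g)) + (Real.log (S g b) - Real.log (Q g b))) =
        (∑ a, ∑ b, r a * kp Q j a b * (Real.log (kp S j a b) - Real.log (kp Q j a b))) +
        ∑ a, ∑ b, r a * Q a b * (Real.log (S a b) - Real.log (Q a b)) := by
      have e7 : ∀ a, ∑ b, r a * ∑ g, kp Q j a g * Q g b * ((Real.log (kp S j a g) -
          Real.log (kp Q j a g)) + (Real.log (S g b) - Real.log (Q g b))) =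
          ∑ g, (r a * kp Q j a g * (Real.log (kp S j a g) - Real.log (kp Q j a g)) +
            r a * kp Q j a g * ∑ b, Q g b * (Real.log (S g b) - Real.log (Q g b))) := by
        intro a
        simp only [mul_sum]
        rw [sum_comm]
        refine sum_congr rfl fun g _ => ?_
        have e8 : ∀ b, r a * (kp Q j a g * Q g b * ((Real.log (kp S j a g) -
            Real.log (kp Q j a g)) + (Real.log (S g b) - Real.log (Q g b)))) =
            r a * kp Q j a g * (Real.log (kp S j a g) - Real.log (kp Q j a g)) * Q g b +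
            r a * kp Q j a g * (Q g b * (Real.log (S g b) - Real.log (Q g b))) := by
          intro b; ring
        simp only [e8, sum_add_distrib]
        rw [← mul_sum, h1, mul_one]
      simp only [e7, sum_add_distrib]
      congr 1
      rw [sum_comm]
      refine sum_congr rfl fun g _ => ?_
      rw [← sum_mul, kp_stat hs, mul_sum]
      exact sum_congr rfl fun b _ => by ring
    have e9 := sum_le_sum fun a (_ : a ∈ univ) => sum_le_sum fun b (_ : b ∈ univ) =>
      mul_le_mul_of_nonneg_left (e1 a b) (hr a).le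
    rw [e6] at e9
    have e10 : ∑ a, ∑ b, r a * (kp Q (j + 1) a b * (Real.log (kp S (j + 1) a b) -
        Real.log (kp Q (j + 1) a b))) = ∑ a, ∑ b, r a * kp Q (j + 1) a b *
        (Real.log (kp S (j + 1) a b) - Real.log (kp Q (j + 1) a b)) :=
      sum_congr rfl fun a _ => sum_congr rfl fun b _ => by ring
    rw [e10] at e9
    push_cast
    linarith

end chain

end Vale.Agent.P050.H180
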