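import Vale.Agent.P050.H180.Chain

set_option linter.all false

/-!
The chain of opposite edges of a random four-cycle, and ladders with an odd number of rungs.
-/

namespace Vale.Agent.P050.H180

open Finset Vale.Agent.P050.H148

section local_

variable {X : Type*} [Fintype X]

/-- the number of common neighbours -/
noncomputable def cod (W : X → X → ℝ) (x x' : X) : ℝ := ∑ y, W x y * W x' y

/-- the paths of length two, one edge being weighted -/
noncomputable def half (W : X → X → ℝ) (φ : X → X → ℝ) (x x' : X) : ℝ := ∑ y, φ x y * W x' y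

theorem cod_rr (W : X → X → ℝ) (a : X × X) : ∑ x', W x' a.2 * cod W a.1 x' = rr W a := by
  unfold rr cod
  refine sum_congr rfl fun x' _ => ?_
  rw [mul_sum]
  exact sum_congr rfl fun y _ => by ring

theorem local_cs (W g : X → X → ℝ) (h0 : ∀ x y, 0 ≤ W x y) (hg : ∀ x y, 0 ≤ g x y) :
    (∑ x, ∑ x', half W (fun x y => Real.sqrt (g x y) * Real.sqrt (W x y)) x x' ^ 2) ^ 2 ≤
      (∑ a : X × X, W a.1 a.2 * rr W a) *
        ∑ x, ∑ x', ∑ y, ∑ y', g x y * g x' y' * (W x y' * W x' y) := by
  set φ : X → X → ℝ := fun x y => Real.sqrt (g x y) * Real.sqrt (W x y) with hφ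
  set U : X × X → ℝ := fun b => ∑ x, φ x b.1 * φ x b.2 with hU
  set V : X × X → ℝ := fun b => ∑ x, W x b.1 * W x b.2 with hV
  have e1 : ∑ x, ∑ x', half W φ x x' ^ 2 = ∑ b, U b * V b := by
    calc ∑ x, ∑ x', half W φ x x' ^ 2 =
          ∑ x, ∑ x', ∑ y, ∑ y', φ x y * W x' y * (φ x y' * W x' y') := by
          refine sum_congr rfl fun x _ => sum_congr rfl fun x' _ => ?_
          unfold half
          rw [sq, sum_mul_sum]
      _ = ∑ y, ∑ y', ∑ x, ∑ x', φ x y * W x' y * (φ x y' * W x' y') := mid _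
      _ = ∑ b, U b * V b := by
          rw [Fintype.sum_prod_type]
          refine sum_congr rfl fun y _ => sum_congr rfl fun y' _ => ?_
          simp only [hU, hV]
          rw [sum_mul_sum]
          exact sum_congr rfl fun x _ => sum_congr rfl fun x' _ => by ring
  have e2 : ∑ b, V b ^ 2 = ∑ a : X × X, W a.1 a.2 * rr W a := by
    have e3 := om_row W (fun _ _ => 1)
    simp only [mul_one] at e3
    rw [Fintype.sum_prod_type, ← Fintype.sum_prod_type (f := fun a : X × X => V a ^ 2),
      Fintype.sum_prod_type, Fintype.sum_prod_type, ← e3, mid]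
    refine sum_congr rfl fun y _ => sum_congr rfl fun y' _ => ?_
    simp only [hV]
    rw [sq, sum_mul_sum]
    refine sum_congr rfl fun x _ => sum_congr rfl fun x' _ => ?_
    unfold om; ring
  have e3 : ∑ b, U b ^ 2 ≤ ∑ x, ∑ x', ∑ y, ∑ y', g x y * g x' y' * (W x y' * W x' y) := by
    have e4 : ∑ b, U b ^ 2 = ∑ x, ∑ x', ∑ y, ∑ y', φ x y * φ x' y' * (φ x y' * φ x' y) := by
      rw [mid, Fintype.sum_prod_type]
      refine sum_congr rfl fun y _ => sum_congr rfl fun y' _ => ?_
      simp only [hU]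
      rw [sq, sum_mul_sum]
      exact sum_congr rfl fun x _ => sum_congr rfl fun x' _ => by ring
    have e5 : ∀ x x' y y', φ x y * φ x' y' * (φ x y' * φ x' y) ≤
        1 / 2 * (g x y * g x' y' * (W x y' * W x' y)) +
        1 / 2 * (g x y' * g x' y * (W x y * W x' y')) := by
      intro x x' y y'
      have s1 := Real.mul_self_sqrt (hg x y)
      have s2 := Real.mul_self_sqrt (hg x' y')
      have s3 := Real.mul_self_sqrt (hg x y')
      have s4 := Real.mul_self_sqrt (hg x' y)
      have t1 := Real.mul_self_sqrt (h0 x y)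
      have t2 := Real.mul_self_sqrt (h0 x' y')
      have t3 := Real.mul_self_sqrt (h0 x y')
      have t4 := Real.mul_self_sqrt (h0 x' y)
      set A : ℝ := Real.sqrt (g x y) * Real.sqrt (g x' y') *
        (Real.sqrt (W x y') * Real.sqrt (W x' y)) with hA
      set B : ℝ := Real.sqrt (g x y') * Real.sqrt (g x' y) *
        (Real.sqrt (W x y) * Real.sqrt (W x' y')) with hB
      have hA2 : A ^ 2 = g x y * g x' y' * (W x y' * W x' y) := by
        calc A ^ 2 = (Real.sqrt (g x y) * Real.sqrt (g x y)) *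
              (Real.sqrt (g x' y') * Real.sqrt (g x' y')) *
              ((Real.sqrt (W x y') * Real.sqrt (W x y')) *
              (Real.sqrt (W x' y) * Real.sqrt (W x' y))) := by rw [hA]; ring
          _ = _ := by rw [s1, s2, t3, t4]
      have hB2 : B ^ 2 = g x y' * g x' y * (W x y * W x' y') := by
        calc B ^ 2 = (Real.sqrt (g x y') * Real.sqrt (g x y')) *
              (Real.sqrt (g x' y) * Real.sqrt (g x' y)) *
              ((Real.sqrt (W x y) * Real.sqrt (W x y)) *
              (Real.sqrt (W x' y') * Real.sqrt (W x' y'))) := by rw [hB]; ring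
          _ = _ := by rw [s3, s4, t1, t2]
      have hAB : φ x y * φ x' y' * (φ x y' * φ x' y) = A * B := by
        simp only [hφ, hA, hB]; ring
      rw [hAB, ← hA2, ← hB2]
      nlinarith [sq_nonneg (A - B)]
    rw [e4]
    refine (sum_le_sum fun x _ => sum_le_sum fun x' _ => sum_le_sum fun y _ =>
      sum_le_sum fun y' _ => e5 x x' y y').trans (le_of_eq ?_)
    simp only [sum_add_distrib, ← mul_sum]
    rw [swap34 (fun x x' y y' => g x y' * g x' y * (W x y * W x' y'))]
    ring
  rw [e1]
  calc (∑ b, U b * V b) ^ 2 ≤ (∑ b, U b ^ 2) * ∑ b, V b ^ 2 := sum_mul_sq_le_sq_mul_sq _ _ _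
    _ ≤ (∑ x, ∑ x', ∑ y, ∑ y', g x y * g x' y' * (W x y' * W x' y)) *
        ∑ a : X × X, W a.1 a.2 * rr W a := by
        rw [e2]
        refine mul_le_mul_of_nonneg_right e3 ?_
        exact sum_nonneg fun a _ => mul_nonneg (h0 _ _) (rr_nonneg h0 a)
    _ = _ := mul_comm _ _

variable [Nonempty X] [DecidableEq X] {W : X → X → ℝ}

theorem cod_pos (hW : ∀ x y, 0 < W x y) (x x' : X) : 0 < cod W x x' :=
  sum_pos (fun y _ => mul_pos (hW _ _) (hW _ _)) univ_nonempty

theorem cod_symm (W : X → X → ℝ) (x x' : X) : cod W x x' = cod W x' x := by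
  unfold cod; exact sum_congr rfl fun y _ => by ring

theorem rr_pos (hW : ∀ x y, 0 < W x y) (a : X × X) : 0 < rr W a := by
  rw [← cod_rr]
  exact sum_pos (fun x _ => mul_pos (hW _ _) (cod_pos hW _ _)) univ_nonempty

/-- the weight of all four-cycles -/
noncomputable def zc (W : X → X → ℝ) : ℝ := ∑ a : X × X, W a.1 a.2 * rr W a

theorem zc_pos (hW : ∀ x y, 0 < W x y) : 0 < zc W :=
  sum_pos (fun a _ => mul_pos (hW _ _) (rr_pos hW a)) univ_nonempty

/-- the law of an edge of a random four-cycle -/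
noncomputable def rho (W : X → X → ℝ) (a : X × X) : ℝ := W a.1 a.2 * rr W a / zc W

/-- the chain of opposite edges -/
noncomputable def qq (W : X → X → ℝ) (a b : X × X) : ℝ := ww W a b / (W a.1 a.2 * rr W a)

theorem ww_pos (hW : ∀ x y, 0 < W x y) (a b : X × X) : 0 < ww W a b :=
  mul_pos (mul_pos (hW _ _) (hW _ _)) (mul_pos (hW _ _) (hW _ _))

theorem rho_pos (hW : ∀ x y, 0 < W x y) (a : X × X) : 0 < rho W a :=
  div_pos (mul_pos (hW _ _) (rr_pos hW a)) (zc_pos hW)

theorem rho_sum (hW : ∀ x y, 0 < W x y) : ∑ a, rho W a = 1 := by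
  unfold rho
  rw [← sum_div]
  exact div_self (zc_pos hW).ne'

theorem qq_pos (hW : ∀ x y, 0 < W x y) (a b : X × X) : 0 < qq W a b :=
  div_pos (ww_pos hW a b) (mul_pos (hW _ _) (rr_pos hW a))

theorem qq_sum (hW : ∀ x y, 0 < W x y) (a : X × X) : ∑ b, qq W a b = 1 := by
  unfold qq
  rw [← sum_div, ww_row]
  exact div_self (mul_pos (hW _ _) (rr_pos hW a)).ne'

theorem rho_qq (hW : ∀ x y, 0 < W x y) (a b : X × X) : rho W a * qq W a b = ww W a b / zc W := by
  unfold rho qq
  have e1 := (hW a.1 a.2).ne'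
  have e2 := (rr_pos hW a).ne'
  have e3 := (zc_pos hW).ne'
  field_simp

theorem qq_stat (hW : ∀ x y, 0 < W x y) (b : X × X) : ∑ a, rho W a * qq W a b = rho W b := by
  simp only [rho_qq hW]
  rw [← sum_div]
  simp only [ww_symm _ b]
  rw [ww_row]
  rfl

/-- the logarithm of the number of half steps -/
theorem log_half (hW : ∀ x y, 0 < W x y) (q χ : X × X → ℝ) (hq : ∀ a, 0 < q a)
    (hq1 : ∑ a, q a = 1) (hχ : ∀ a, 0 < χ a) :
    (∑ b, (∑ a, q a * qq W a b) * (Real.log (∑ a, q a * qq W a b) - Real.log (rho W b))) -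
      Real.log (zc W) + ∑ a, q a * (Real.log (χ a) - Real.log (q a)) +
      ∑ a, q a * (3 / 2 * Real.log (W a.1 a.2) + 2 * Real.log (rr W a) - Real.log (q a)) ≤
    Real.log (∑ x, ∑ x', half W (fun x y => Real.sqrt (Real.sqrt (W x y) * χ (x, y)) *
      Real.sqrt (W x y)) x x' ^ 2) := by
  set φ : X → X → ℝ := fun x y => Real.sqrt (Real.sqrt (W x y) * χ (x, y)) * Real.sqrt (W x y)
    with hφ
  have hφ0 : ∀ x y, 0 < φ x y := fun x y => mul_pos (Real.sqrt_pos.mpr
    (mul_pos (Real.sqrt_pos.mpr (hW x y)) (hχ _))) (Real.sqrt_pos.mpr (hW x y))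
  have hlφ : ∀ x y, Real.log (φ x y) = 3 / 4 * Real.log (W x y) + 1 / 2 * Real.log (χ (x, y)) := by
    intro x y
    simp only [hφ]
    rw [Real.log_mul (Real.sqrt_pos.mpr (mul_pos (Real.sqrt_pos.mpr (hW x y)) (hχ _))).ne'
      (Real.sqrt_pos.mpr (hW x y)).ne',
      Real.log_sqrt (mul_pos (Real.sqrt_pos.mpr (hW x y)) (hχ _)).le,
      Real.log_sqrt (hW x y).le, Real.log_mul (Real.sqrt_pos.mpr (hW x y)).ne' (hχ _).ne',
      Real.log_sqrt (hW x y).le]
    ring
  set G : X → X → ℝ := half W φ with hG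
  have hG0 : ∀ x x', 0 < G x x' := fun x x' =>
    sum_pos (fun y _ => mul_pos (hφ0 _ _) (hW _ _)) univ_nonempty
  set s : X → X → ℝ := fun x x' => ∑ y, q (x, y) * W x' y / rr W (x, y) with hs
  have hs0 : ∀ x x', 0 < s x x' := fun x x' =>
    sum_pos (fun y _ => div_pos (mul_pos (hq _) (hW _ _)) (rr_pos hW _)) univ_nonempty
  set β : X × X → ℝ := fun c => cod W c.1 c.2 * s c.1 c.2 with hβ
  have hβ0 : ∀ c, 0 < β c := fun c => mul_pos (cod_pos hW _ _) (hs0 _ _)
  -- averages
  have hav : ∀ h : X → X → ℝ, ∑ x, ∑ x', cod W x x' * ∑ y, q (x, y) * W x' y / rr W (x, y) * h x y =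
      ∑ a : X × X, q a * h a.1 a.2 := by
    intro h
    rw [Fintype.sum_prod_type]
    refine sum_congr rfl fun x _ => ?_
    calc ∑ x', cod W x x' * ∑ y, q (x, y) * W x' y / rr W (x, y) * h x y =
          ∑ x', ∑ y, q (x, y) * h x y / rr W (x, y) * (W x' y * cod W x x') := by
          refine sum_congr rfl fun x' _ => ?_
          rw [mul_sum]
          exact sum_congr rfl fun y _ => by ring
      _ = ∑ y, q (x, y) * h x y / rr W (x, y) * ∑ x', W x' y * cod W x x' := by
          rw [sum_comm]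
          exact sum_congr rfl fun y _ => by rw [mul_sum]
      _ = ∑ y, q (x, y) * h x y := by
          refine sum_congr rfl fun y _ => ?_
          have e1 := cod_rr W (x, y)
          simp only at e1
          rw [e1, div_mul_cancel₀ _ (rr_pos hW _).ne']
  have hβ1 : ∑ c, β c = 1 := by
    have e1 := hav (fun _ _ => 1)
    simp only [mul_one] at e1
    rw [hq1] at e1
    rw [Fintype.sum_prod_type]
    exact e1
  -- step b
  have stepb : ∑ c, β c * (2 * Real.log (G c.1 c.2) - Real.log (β c)) ≤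
      Real.log (∑ x, ∑ x', G x x' ^ 2) := by
    have e1 := logsum β (fun c => G c.1 c.2 ^ 2) hβ0 (fun c => pow_pos (hG0 _ _) 2)
    rw [hβ1, Real.log_one, one_mul, zero_sub, Fintype.sum_prod_type
      (f := fun c : X × X => G c.1 c.2 ^ 2)] at e1
    have e2 : ∑ c, β c * (Real.log (β c) - Real.log (G c.1 c.2 ^ 2)) =
        -∑ c, β c * (2 * Real.log (G c.1 c.2) - Real.log (β c)) := by
      rw [← sum_neg_distrib]
      refine sum_congr rfl fun c _ => ?_
      rw [Real.log_pow]
      push_cast; ring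
    rw [e2] at e1
    linarith
  -- step c
  have stepc : ∑ c, β c * (Real.log (s c.1 c.2) - Real.log (G c.1 c.2)) ≤
      ∑ a : X × X, q a * (Real.log (q a) - Real.log (rr W a) - Real.log (φ a.1 a.2)) := by
    have e1 : ∀ x x', s x x' * (Real.log (s x x') - Real.log (G x x')) ≤
        ∑ y, q (x, y) * W x' y / rr W (x, y) *
          (Real.log (q (x, y)) - Real.log (rr W (x, y)) - Real.log (φ x y)) := by
      intro x x'
      have e2 := logsum (fun y => q (x, y) * W x' y / rr W (x, y)) (fun y => φ x y * W x' y)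
        (fun y => div_pos (mul_pos (hq _) (hW _ _)) (rr_pos hW _))
        (fun y => mul_pos (hφ0 _ _) (hW _ _))
      refine e2.trans (le_of_eq ?_)
      refine sum_congr rfl fun y _ => ?_
      rw [Real.log_div (mul_pos (hq _) (hW _ _)).ne' (rr_pos hW _).ne',
        Real.log_mul (hq _).ne' (hW _ _).ne', Real.log_mul (hφ0 _ _).ne' (hW _ _).ne']
      ring
    have e3 := hav (fun x y => Real.log (q (x, y)) - Real.log (rr W (x, y)) - Real.log (φ x y))
    simp only [Prod.mk.eta] at e3
    rw [← e3, Fintype.sum_prod_type]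
    refine sum_le_sum fun x _ => sum_le_sum fun x' _ => ?_
    have e4 := mul_le_mul_of_nonneg_left (e1 x x') (cod_pos hW x x').le
    refine le_trans (le_of_eq ?_) e4
    simp only [hβ]; ring
  -- step e
  have stepe : ∑ b, (∑ a, q a * qq W a b) * (Real.log (∑ a, q a * qq W a b) -
      Real.log (rho W b)) ≤ ∑ c, β c * (Real.log (β c) - (2 * Real.log (cod W c.1 c.2) -
        Real.log (zc W))) := by
    have hT : ∀ b : X × X, ∑ a, q a * qq W a b =
        ∑ x, β (x, b.1) * (W b.1 b.2 * W x b.2 / cod W x b.1) := by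
      intro b
      rw [Fintype.sum_prod_type]
      refine sum_congr rfl fun x _ => ?_
      have e1 := (cod_pos hW x b.1).ne'
      calc ∑ y, q (x, y) * qq W (x, y) b =
            ∑ y, (q (x, y) * W b.1 y / rr W (x, y)) * (W b.1 b.2 * W x b.2) := by
            refine sum_congr rfl fun y _ => ?_
            unfold qq ww
            have e2 := (hW x y).ne'
            have e3 := (rr_pos hW (x, y)).ne'
            simp only
            field_simp
        _ = s x b.1 * (W b.1 b.2 * W x b.2) := by rw [← sum_mul]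
        _ = _ := by
            simp only [hβ]
            field_simp
    have hR : ∀ b : X × X, rho W b =
        ∑ x, cod W x b.1 ^ 2 / zc W * (W b.1 b.2 * W x b.2 / cod W x b.1) := by
      intro b
      unfold rho
      rw [← cod_rr, mul_sum, sum_div]
      refine sum_congr rfl fun x _ => ?_
      have e1 := (cod_pos hW x b.1).ne'
      have e2 := (zc_pos hW).ne'
      rw [cod_symm W b.1 x]
      field_simp
    have e1 : ∀ b : X × X, (∑ a, q a * qq W a b) * (Real.log (∑ a, q a * qq W a b) -
        Real.log (rho W b)) ≤ ∑ x, β (x, b.1) * (W b.1 b.2 * W x b.2 / cod W x b.1) *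
          (Real.log (β (x, b.1)) - (2 * Real.log (cod W x b.1) - Real.log (zc W))) := by
      intro b
      rw [hT b, hR b]
      refine (logsum _ _ (fun x => mul_pos (hβ0 _) (div_pos (mul_pos (hW _ _) (hW _ _))
        (cod_pos hW _ _))) (fun x => mul_pos (div_pos (pow_pos (cod_pos hW _ _) 2) (zc_pos hW))
        (div_pos (mul_pos (hW _ _) (hW _ _)) (cod_pos hW _ _)))).trans (le_of_eq ?_)
      refine sum_congr rfl fun x _ => ?_
      have p1 : 0 < W b.1 b.2 * W x b.2 / cod W x b.1 :=
        div_pos (mul_pos (hW _ _) (hW _ _)) (cod_pos hW _ _)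
      rw [Real.log_mul (hβ0 _).ne' p1.ne',
        Real.log_mul (div_pos (pow_pos (cod_pos hW _ _) 2) (zc_pos hW)).ne' p1.ne',
        Real.log_div (pow_pos (cod_pos hW _ _) 2).ne' (zc_pos hW).ne', Real.log_pow]
      push_cast; ring
    refine (sum_le_sum fun b _ => e1 b).trans (le_of_eq ?_)
    rw [Fintype.sum_prod_type]
    calc ∑ x', ∑ y', ∑ x, β (x, x') * (W x' y' * W x y' / cod W x x') *
          (Real.log (β (x, x')) - (2 * Real.log (cod W x x') - Real.log (zc W))) =
          ∑ x', ∑ x, ∑ y', β (x, x') * (W x' y' * W x y' / cod W x x') *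
          (Real.log (β (x, x')) - (2 * Real.log (cod W x x') - Real.log (zc W))) :=
          sum_congr rfl fun x' _ => sum_comm
      _ = ∑ x', ∑ x, β (x, x') *
          (Real.log (β (x, x')) - (2 * Real.log (cod W x x') - Real.log (zc W))) := by
          refine sum_congr rfl fun x' _ => sum_congr rfl fun x _ => ?_
          rw [← sum_mul, ← mul_sum, ← sum_div]
          have e2 : ∑ y', W x' y' * W x y' = cod W x x' := by
            rw [cod_symm]; rfl
          rw [e2, div_self (cod_pos hW _ _).ne', mul_one]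
      _ = _ := by
          rw [sum_comm, Fintype.sum_prod_type]
  -- step d
  have hsl : ∀ c : X × X, Real.log (s c.1 c.2) = Real.log (β c) - Real.log (cod W c.1 c.2) := by
    intro c
    simp only [hβ]
    rw [Real.log_mul (cod_pos hW _ _).ne' (hs0 _ _).ne']; ring
  have e5 : ∑ c, β c * (Real.log (β c) - (2 * Real.log (cod W c.1 c.2) - Real.log (zc W))) =
      2 * ∑ c, β c * (Real.log (s c.1 c.2) - Real.log (G c.1 c.2)) +
      ∑ c, β c * (2 * Real.log (G c.1 c.2) - Real.log (β c)) + Real.log (zc W) := by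
    have e6 : Real.log (zc W) = ∑ c, β c * Real.log (zc W) := by rw [← sum_mul, hβ1, one_mul]
    nth_rewrite 2 [e6]
    rw [mul_sum, ← sum_add_distrib, ← sum_add_distrib]
    refine sum_congr rfl fun c _ => ?_
    rw [hsl]; ring
  have e7 : 2 * ∑ a : X × X, q a * (Real.log (q a) - Real.log (rr W a) - Real.log (φ a.1 a.2)) =
      -(∑ a, q a * (Real.log (χ a) - Real.log (q a)) +
      ∑ a, q a * (3 / 2 * Real.log (W a.1 a.2) + 2 * Real.log (rr W a) - Real.log (q a))) := by
    rw [mul_sum, ← sum_add_distrib, ← sum_neg_distrib]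
    refine sum_congr rfl fun a _ => ?_
    rw [hlφ]
    simp only [Prod.mk.eta]; ring
  have h8 := mul_le_mul_of_nonneg_left stepc (by norm_num : (0 : ℝ) ≤ 2)
  rw [e7] at h8
  rw [e5] at stepe
  linarith

end local_

end Vale.Agent.P050.H180
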