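import Vale.Agent.P050.H180.Ent

set_option linter.all false

/-!
Ladders with an odd number of rungs and four-cycles.
-/

namespace Vale.Agent.P050.H180

open Finset Vale.Agent.P050.H148

section global_

variable {X : Type*} [Fintype X] [DecidableEq X] {W : X → X → ℝ}

theorem kp_pw (M : ℕ) (a b : X × X) : kp (lad W) M a b = pw W (M + 1) a b := by
  induction M generalizing b with
  | zero => simp [kp, pw]
  | succ M ih =>
    change ∑ c, kp (lad W) M a c * lad W c b = ∑ c, pw W (M + 1) a c * lad W c b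
    exact sum_congr rfl fun c _ => by rw [ih]

theorem lad_total (h0 : ∀ x y, 0 ≤ W x y) (M : ℕ) [NeZero (2 * M + 3)] :
    ladSum W (2 * M + 3) = ∑ e : X × X, ∑ x, ∑ x', ∑ y, ∑ y',
      Real.sqrt (W x y) * kp (lad W) M e (x, y) * (Real.sqrt (W x' y') * kp (lad W) M e (x', y')) *
        (W x y' * W x' y) := by
  obtain ⟨l, f, hL⟩ := exists_eig (lad W) (lad_symm W)
  rw [ladSum_eq h0 hL]
  have e1 : ∀ e : X × X, ∑ x, ∑ x', ∑ y, ∑ y',
      Real.sqrt (W x y) * kp (lad W) M e (x, y) * (Real.sqrt (W x' y') * kp (lad W) M e (x', y')) *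
        (W x y' * W x' y) = ∑ i, l i ^ (2 * M + 3) * (f i e * f i e) := by
    intro e
    have e2 : ∑ x, ∑ x', ∑ y, ∑ y', Real.sqrt (W x y) * kp (lad W) M e (x, y) *
        (Real.sqrt (W x' y') * kp (lad W) M e (x', y')) * (W x y' * W x' y) =
        ∑ a, ∑ b, pw W (M + 1) e a * lad W a b * pw W (M + 1) e b := by
      rw [prod4]
      refine sum_congr rfl fun x _ => sum_congr rfl fun x' _ => sum_congr rfl fun y _ =>
        sum_congr rfl fun y' _ => ?_
      rw [kp_pw, kp_pw]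
      unfold lad; ring
    rw [e2, hL.quad]
    refine sum_congr rfl fun i _ => ?_
    rw [pw_coef hL, mul_pow, ← pow_mul]
    ring
  simp only [e1]
  rw [sum_comm]
  refine sum_congr rfl fun i _ => ?_
  rw [← mul_sum, hL.orth, if_pos rfl, mul_one]

/-- averages over the edges of a four-cycle -/
theorem ww_avg1 (F : X × X → ℝ) : ∑ a, ∑ b, ww W a b * F (a.1, b.2) =
    ∑ a, (W a.1 a.2 * rr W a) * F a := by
  have e1 : ∑ a, (W a.1 a.2 * rr W a) * F a = ∑ a, ∑ b, ww W a b * F a := by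
    refine sum_congr rfl fun a _ => ?_
    rw [← sum_mul, ww_row]
  rw [e1, prod4, prod4, swap34]
  refine sum_congr rfl fun x _ => sum_congr rfl fun x' _ => sum_congr rfl fun y _ =>
    sum_congr rfl fun y' _ => ?_
  unfold ww; simp only; ring

theorem ww_avg2 (F : X × X → ℝ) : ∑ a, ∑ b, ww W a b * F (b.1, a.2) =
    ∑ a, (W a.1 a.2 * rr W a) * F a := by
  have e1 : ∑ a, (W a.1 a.2 * rr W a) * F a = ∑ a, ∑ b, ww W a b * F a := by
    refine sum_congr rfl fun a _ => ?_
    rw [← sum_mul, ww_row]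
  rw [e1, prod4, prod4, swap12]
  refine sum_congr rfl fun x _ => sum_congr rfl fun x' _ => sum_congr rfl fun y _ =>
    sum_congr rfl fun y' _ => ?_
  unfold ww; simp only; ring

theorem ww_avg3 (F : X × X → ℝ) : ∑ a, ∑ b, ww W a b * F b =
    ∑ a, (W a.1 a.2 * rr W a) * F a := by
  rw [sum_comm]
  refine sum_congr rfl fun b _ => ?_
  rw [← sum_mul]
  congr 1
  rw [← ww_row]
  exact sum_congr rfl fun a _ => ww_symm a b

theorem ww_avg0 (F : X × X → ℝ) : ∑ a, ∑ b, ww W a b * F a =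
    ∑ a, (W a.1 a.2 * rr W a) * F a := by
  refine sum_congr rfl fun a _ => ?_
  rw [← sum_mul, ww_row]

variable [Nonempty X]

theorem log_qq (hW : ∀ x y, 0 < W x y) (a b : X × X) : Real.log (qq W a b) =
    Real.log (W b.1 b.2) + Real.log (W a.1 b.2) + Real.log (W b.1 a.2) - Real.log (rr W a) := by
  unfold qq ww
  rw [Real.log_div (mul_pos (mul_pos (hW _ _) (hW _ _)) (mul_pos (hW _ _) (hW _ _))).ne'
    (mul_pos (hW _ _) (rr_pos hW a)).ne', Real.log_mul (mul_pos (hW _ _) (hW _ _)).ne'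
    (mul_pos (hW _ _) (hW _ _)).ne', Real.log_mul (hW _ _).ne' (hW _ _).ne',
    Real.log_mul (hW _ _).ne' (hW _ _).ne', Real.log_mul (hW _ _).ne' (rr_pos hW a).ne']
  ring

theorem log_lad (hW : ∀ x y, 0 < W x y) (a b : X × X) : Real.log (lad W a b) =
    1 / 2 * Real.log (W a.1 a.2) + 1 / 2 * Real.log (W b.1 b.2) + Real.log (W a.1 b.2) +
      Real.log (W b.1 a.2) := by
  unfold lad
  have h1 := Real.sqrt_pos.mpr (hW a.1 a.2)
  have h2 := Real.sqrt_pos.mpr (hW b.1 b.2)
  rw [Real.log_mul (mul_pos h1 h2).ne' (mul_pos (hW _ _) (hW _ _)).ne',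
    Real.log_mul h1.ne' h2.ne', Real.log_mul (hW _ _).ne' (hW _ _).ne',
    Real.log_sqrt (hW _ _).le, Real.log_sqrt (hW _ _).le]
  ring

theorem lad_pos (hW : ∀ x y, 0 < W x y) (a b : X × X) : 0 < lad W a b :=
  mul_pos (mul_pos (Real.sqrt_pos.mpr (hW _ _)) (Real.sqrt_pos.mpr (hW _ _)))
    (mul_pos (hW _ _) (hW _ _))

/-- mean of a function of an edge of a random four-cycle -/
theorem rho_avg (hW : ∀ x y, 0 < W x y) (F : X × X → ℝ) :
    ∑ a, (W a.1 a.2 * rr W a) * F a = zc W * ∑ a, rho W a * F a := by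
  rw [mul_sum]
  refine sum_congr rfl fun a _ => ?_
  unfold rho
  have := (zc_pos hW).ne'
  field_simp

theorem ent_zero (hW : ∀ x y, 0 < W x y) : en (qq W) (rho W) 0 =
    3 * (∑ a, rho W a * Real.log (W a.1 a.2)) - ∑ a, rho W a * Real.log (rr W a) := by
  have hz := zc_pos hW
  have e1 : zc W * en (qq W) (rho W) 0 = ∑ a, ∑ b, ww W a b *
      (Real.log (W b.1 b.2) + Real.log (W a.1 b.2) + Real.log (W b.1 a.2) -
        Real.log (rr W a)) := by
    unfold en
    rw [mul_sum]
    refine sum_congr rfl fun a _ => ?_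
    rw [mul_sum]
    refine sum_congr rfl fun b _ => ?_
    simp only [kp]
    rw [← log_qq hW, rho_qq hW]
    field_simp
  have e2 := ww_avg1 (W := W) (fun a => Real.log (W a.1 a.2))
  have e3 := ww_avg2 (W := W) (fun a => Real.log (W a.1 a.2))
  have e4 := ww_avg3 (W := W) (fun a => Real.log (W a.1 a.2))
  have e5 := ww_avg0 (W := W) (fun a => Real.log (rr W a))
  rw [rho_avg hW] at e2 e3 e4 e5
  simp only [mul_add, mul_sub, sum_add_distrib, sum_sub_distrib] at e1
  beta_reduce at e2 e3 e4 e5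
  rw [e2, e3, e4, e5] at e1
  have e6 : zc W * en (qq W) (rho W) 0 = zc W * (3 * (∑ a, rho W a * Real.log (W a.1 a.2)) -
      ∑ a, rho W a * Real.log (rr W a)) := by rw [e1]; ring
  exact mul_left_cancel₀ hz.ne' e6

theorem gain_zero (hW : ∀ x y, 0 < W x y) : ∑ a, ∑ b, rho W a * qq W a b *
    (Real.log (lad W a b) - Real.log (qq W a b)) = ∑ a, rho W a * Real.log (rr W a) := by
  have hz := zc_pos hW
  have e1 : zc W * ∑ a, ∑ b, rho W a * qq W a b * (Real.log (lad W a b) - Real.log (qq W a b)) =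
      ∑ a, ∑ b, ww W a b * (1 / 2 * Real.log (W a.1 a.2) - 1 / 2 * Real.log (W b.1 b.2) +
        Real.log (rr W a)) := by
    rw [mul_sum]
    refine sum_congr rfl fun a _ => ?_
    rw [mul_sum]
    refine sum_congr rfl fun b _ => ?_
    rw [log_qq hW, log_lad hW, rho_qq hW]
    field_simp
    ring
  have e2 := ww_avg0 (W := W) (fun a => 1 / 2 * Real.log (W a.1 a.2))
  have e4 := ww_avg3 (W := W) (fun a => 1 / 2 * Real.log (W a.1 a.2))
  have e5 := ww_avg0 (W := W) (fun a => Real.log (rr W a))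
  have e7 : ∑ a, ∑ b, ww W a b * (1 / 2 * Real.log (W a.1 a.2) - 1 / 2 * Real.log (W b.1 b.2) +
      Real.log (rr W a)) = zc W * ∑ a, rho W a * Real.log (rr W a) := by
    simp only [mul_add, mul_sub, sum_add_distrib, sum_sub_distrib]
    beta_reduce at e2 e4 e5
    rw [e2, e4, e5, rho_avg hW (fun a => Real.log (rr W a)), sub_self, zero_add]
  exact mul_left_cancel₀ hz.ne' (e1.trans e7)

theorem main_log (hW : ∀ x y, 0 < W x y) (hW1 : ∀ x y, W x y ≤ 1) (M : ℕ)
    [NeZero (2 * M + 3)] :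
    (((M : ℝ) + 1) * (2 * M + 3) + 2) * Real.log (zc W) -
      (((M : ℝ) + 1) * (2 * M + 3) + 4) * Real.log (∑ a : X × X, W a.1 a.2) ≤
      ((M : ℝ) + 1) * Real.log (ladSum W (2 * M + 3)) := by
  have h0 : ∀ x y, 0 ≤ W x y := fun x y => (hW x y).le
  set r : X × X → ℝ := rho W with hr
  set Q : X × X → X × X → ℝ := qq W with hQ
  have hr0 : ∀ a, 0 < r a := rho_pos hW
  have hr1 : ∑ a, r a = 1 := rho_sum hW
  have hQ0 : ∀ a b, 0 < Q a b := qq_pos hW
  have hQ1 : ∀ a, ∑ b, Q a b = 1 := qq_sum hW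
  have hQs : ∀ b, ∑ a, r a * Q a b = r b := qq_stat hW
  set w : ℝ := ∑ a, r a * Real.log (W a.1 a.2) with hw
  set ell : ℝ := ∑ a, r a * Real.log (rr W a) with hell
  set h : ℝ := ∑ a, r a * Real.log (r a) with hh
  set lz : ℝ := Real.log (zc W) with hlz
  have hrel : h = w + ell - lz := by
    have e1 : lz = ∑ a, r a * lz := by rw [← sum_mul, hr1, one_mul]
    rw [e1, hh, hw, hell, ← sum_add_distrib, ← sum_sub_distrib]
    refine sum_congr rfl fun a _ => ?_
    have e2 : Real.log (r a) = Real.log (W a.1 a.2) + Real.log (rr W a) - lz := by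
      simp only [hr]
      unfold rho
      rw [Real.log_div (mul_pos (hW _ _) (rr_pos hW a)).ne' (zc_pos hW).ne',
        Real.log_mul (hW _ _).ne' (rr_pos hW a).ne']
    rw [e2]; ring
  -- averages over the start
  have havg : ∀ (j : ℕ) (F : X × X → ℝ), ∑ e, r e * ∑ a, kp Q j e a * F a = ∑ a, r a * F a := by
    intro j F
    simp only [mul_sum]
    rw [sum_comm]
    refine sum_congr rfl fun a _ => ?_
    rw [← kp_stat hQs j a, sum_mul]
    exact sum_congr rfl fun e _ => by ring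
  set χ : X × X → X × X → ℝ := kp (lad W) M with hχ
  have hχ0 : ∀ e a, 0 < χ e a := fun e a => kp_pos (lad_pos hW) M e a
  set N : X × X → ℝ := fun e => ∑ x, ∑ x', ∑ y, ∑ y',
      Real.sqrt (W x y) * χ e (x, y) * (Real.sqrt (W x' y') * χ e (x', y')) *
        (W x y' * W x' y) with hN
  have htot : ladSum W (2 * M + 3) = ∑ e, N e := lad_total h0 M
  have hsq : ∀ x y, 0 < Real.sqrt (W x y) := fun x y => Real.sqrt_pos.mpr (hW x y)
  have hN0 : ∀ e, 0 < N e := fun e => sum_pos (fun x _ => sum_pos (fun x' _ => sum_pos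
    (fun y _ => sum_pos (fun y' _ => mul_pos (mul_pos (mul_pos (hsq _ _) (hχ0 _ _))
      (mul_pos (hsq _ _) (hχ0 _ _))) (mul_pos (hW _ _) (hW _ _))) univ_nonempty)
      univ_nonempty) univ_nonempty) univ_nonempty
  set B : X × X → ℝ := fun e => ∑ x, ∑ x', half W (fun x y =>
    Real.sqrt (Real.sqrt (W x y) * χ e (x, y)) * Real.sqrt (W x y)) x x' ^ 2 with hB
  have hB0 : ∀ e, 0 < B e := fun e => sum_pos (fun x _ => sum_pos (fun x' _ => pow_pos
    (sum_pos (fun y _ => mul_pos (mul_pos (Real.sqrt_pos.mpr (mul_pos (hsq _ _) (hχ0 _ _)))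
      (hsq _ _)) (hW _ _)) univ_nonempty) 2) univ_nonempty) univ_nonempty
  have hcs : ∀ e, 2 * Real.log (B e) - lz ≤ Real.log (N e) := by
    intro e
    have e1 := local_cs W (fun x y => Real.sqrt (W x y) * χ e (x, y)) h0
      (fun x y => (mul_pos (hsq _ _) (hχ0 _ _)).le)
    have e2 : Real.log (B e ^ 2) ≤ Real.log (zc W * N e) :=
      Real.log_le_log (pow_pos (hB0 e) 2) e1
    rw [Real.log_pow, Real.log_mul (zc_pos hW).ne' (hN0 e).ne'] at e2
    push_cast at e2
    linarith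
  have hlow : ∀ e, (∑ b, kp Q (M + 1) e b * (Real.log (kp Q (M + 1) e b) - Real.log (r b))) -
      lz + ∑ a, kp Q M e a * (Real.log (χ e a) - Real.log (kp Q M e a)) +
      ∑ a, kp Q M e a * (3 / 2 * Real.log (W a.1 a.2) + 2 * Real.log (rr W a) -
        Real.log (kp Q M e a)) ≤ Real.log (B e) := fun e =>
    log_half hW (kp Q M e) (χ e) (fun a => kp_pos hQ0 M e a) (kp_sum hQ1 M e) (hχ0 e)
  -- Gibbs
  have hgibbs : ∑ e, r e * (Real.log (N e) - Real.log (r e)) ≤ Real.log (∑ e, N e) := by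
    have e1 := logsum r N hr0 hN0
    rw [hr1, Real.log_one, one_mul, zero_sub] at e1
    have e2 : ∑ e, r e * (Real.log (r e) - Real.log (N e)) =
        -∑ e, r e * (Real.log (N e) - Real.log (r e)) := by
      rw [← sum_neg_distrib]
      exact sum_congr rfl fun e _ => by ring
    rw [e2] at e1
    linarith
  have hg2 : 2 * (∑ e, r e * Real.log (B e)) - lz - h ≤ Real.log (∑ e, N e) := by
    refine le_trans (le_of_eq ?_) ((sum_le_sum fun e _ => mul_le_mul_of_nonneg_left
      (sub_le_sub_right (hcs e) (Real.log (r e))) (hr0 e).le).trans hgibbs)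
    have e1 : lz = ∑ a, r a * lz := by rw [← sum_mul, hr1, one_mul]
    nth_rewrite 1 [e1]
    rw [hh, mul_sum, ← sum_sub_distrib, ← sum_sub_distrib]
    exact sum_congr rfl fun e _ => by ring
  -- the average of the lower bound
  have hT1 : ∑ e, r e * (∑ b, kp Q (M + 1) e b * (Real.log (kp Q (M + 1) e b) -
      Real.log (r b))) = en Q r (M + 1) - h := by
    have e1 := havg (M + 1) (fun b => Real.log (r b))
    rw [hh, ← e1]
    unfold en
    rw [← sum_sub_distrib]
    refine sum_congr rfl fun e _ => ?_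
    rw [mul_sum, mul_sum, ← sum_sub_distrib]
    exact sum_congr rfl fun b _ => by ring
  have hT2 : ((M : ℝ) + 1) * ell ≤ ∑ e, r e * (∑ a, kp Q M e a * (Real.log (χ e a) -
      Real.log (kp Q M e a))) := by
    have e1 := weight_step (S := lad W) hQ0 (lad_pos hW) hQ1 hQs hr0 M
    rw [gain_zero hW] at e1
    refine e1.trans (le_of_eq ?_)
    refine sum_congr rfl fun e _ => ?_
    rw [mul_sum]
    exact sum_congr rfl fun b _ => by ring
  have hT3 : ∑ e, r e * (∑ a, kp Q M e a * (3 / 2 * Real.log (W a.1 a.2) +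
      2 * Real.log (rr W a) - Real.log (kp Q M e a))) = 3 / 2 * w + 2 * ell - en Q r M := by
    have e1 := havg M (fun a => Real.log (W a.1 a.2))
    have e2 := havg M (fun a => Real.log (rr W a))
    rw [hw, hell, ← e1, ← e2]
    unfold en
    rw [mul_sum, mul_sum, ← sum_add_distrib, ← sum_sub_distrib]
    refine sum_congr rfl fun e _ => ?_
    rw [mul_sum, mul_sum, mul_sum, mul_sum, mul_sum, ← sum_add_distrib, ← sum_sub_distrib]
    exact sum_congr rfl fun b _ => by ring
  have hBl : (en Q r (M + 1) - h) - lz + ((M : ℝ) + 1) * ell +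
      (3 / 2 * w + 2 * ell - en Q r M) ≤ ∑ e, r e * Real.log (B e) := by
    have e1 := sum_le_sum fun e (_ : e ∈ univ) => mul_le_mul_of_nonneg_left (hlow e) (hr0 e).le
    have e2 : lz = ∑ a, r a * lz := by rw [← sum_mul, hr1, one_mul]
    have e3 : ∑ e, r e * ((∑ b, kp Q (M + 1) e b * (Real.log (kp Q (M + 1) e b) -
        Real.log (r b))) - lz + ∑ a, kp Q M e a * (Real.log (χ e a) - Real.log (kp Q M e a)) +
        ∑ a, kp Q M e a * (3 / 2 * Real.log (W a.1 a.2) + 2 * Real.log (rr W a) -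
        Real.log (kp Q M e a))) = (∑ e, r e * (∑ b, kp Q (M + 1) e b *
        (Real.log (kp Q (M + 1) e b) - Real.log (r b)))) - (∑ a, r a * lz) +
        (∑ e, r e * (∑ a, kp Q M e a * (Real.log (χ e a) - Real.log (kp Q M e a)))) +
        ∑ e, r e * (∑ a, kp Q M e a * (3 / 2 * Real.log (W a.1 a.2) +
        2 * Real.log (rr W a) - Real.log (kp Q M e a))) := by
      rw [← sum_sub_distrib, ← sum_add_distrib, ← sum_add_distrib]
      exact sum_congr rfl fun e _ => by ring
    rw [e3, hT1, hT3, ← e2] at e1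
    linarith
  -- the increments
  have htele := en_tele hQ0 hQ1 hr0 hQs M
  have hge := en_ge hQ0 hr0 hr1 hQs (M + 1)
  rw [ent_zero hW] at htele
  have hw0 : w ≤ 0 := by
    refine sum_nonpos fun a _ => mul_nonpos_of_nonneg_of_nonpos (hr0 a).le ?_
    exact Real.log_nonpos (h0 _ _) (hW1 _ _)
  have hedge : w - h ≤ Real.log (∑ a : X × X, W a.1 a.2) := by
    have e1 := logsum r (fun a : X × X => W a.1 a.2) hr0 (fun a => hW _ _)
    rw [hr1, Real.log_one, one_mul, zero_sub] at e1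
    have e2 : ∑ a, r a * (Real.log (r a) - Real.log (W a.1 a.2)) = h - w := by
      rw [hh, hw, ← sum_sub_distrib]
      exact sum_congr rfl fun e _ => by ring
    rw [e2] at e1
    linarith
  rw [htot]
  set L : ℝ := Real.log (∑ e, N e) with hL
  set Le : ℝ := Real.log (∑ a : X × X, W a.1 a.2) with hLe
  set E0 : ℝ := en Q r M with hE0
  set E1 : ℝ := en Q r (M + 1) with hE1
  have hk : (2 * (M : ℝ) + 3) * ell - 2 * (E0 - E1) ≤ L := by
    rw [hrel] at hBl hg2
    nlinarith
  have hM0 : (0 : ℝ) ≤ (M : ℝ) + 1 := by positivity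
  have h10 := mul_le_mul_of_nonneg_left hk hM0
  have h11 : lz - Le ≤ ell := by rw [hrel] at hedge; linarith
  have h12 : (0 : ℝ) ≤ ((M : ℝ) + 1) * (2 * M + 3) + 4 := by positivity
  have h13 := mul_le_mul_of_nonneg_left h11 h12
  have hge' : h ≤ E1 := hge
  rw [hrel] at hge'
  nlinarith

end global_

end Vale.Agent.P050.H180
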