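import Vale.Agent.P050.H180.Ent3

set_option linter.all false

/-!
Moebius ladders, prisms and four-cycles.
-/

namespace Vale.Agent.P050.H180

open Finset Vale.Agent.P050.H148 Filter Topology

section fam

variable {X : Type*} [Fintype X] [DecidableEq X] [Nonempty X] {W : X → X → ℝ}

/-- closed walks of odd length of the ladder operator -/
theorem odd_log (hW : ∀ x y, 0 < W x y) (M : ℕ) [NeZero (2 * M + 3)] :
    (2 * (M : ℝ) + 3) * (∑ a, rho W a * Real.log (rr W a)) -
      2 * (en (qq W) (rho W) M - en (qq W) (rho W) (M + 1)) ≤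
      Real.log (ladSum W (2 * M + 3)) := by
  have h0 : ∀ x y, 0 ≤ W x y := fun x y => (hW x y).le
  set r : X × X → ℝ := rho W with hr
  set Q : X × X → X × X → ℝ := qq W with hQ
  have hr0 : ∀ a, 0 < r a := rho_pos hW
  have hr1 : ∑ a, r a = 1 := rho_sum hW
  have hQ0 : ∀ a b, 0 < Q a b := qq_pos hW
  have hQ1 : ∀ a, ∑ b, Q a b = 1 := qq_sum hW
  have hQs : ∀ b, ∑ a, r a * Q a b = r b := qq_stat hW
  set w : ℝ := ∑ a, r a * Real.log (W a.1 a.2) with hw
  set ell : ℝ := ∑ a, r a * Real.log (rr W a) with hell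
  set h : ℝ := ∑ a, r a * Real.log (r a) with hh
  set lz : ℝ := Real.log (zc W) with hlz
  have hrel : h = w + ell - lz := by
    have e1 : lz = ∑ a, r a * lz := by rw [← sum_mul, hr1, one_mul]
    rw [e1, hh, hw, hell, ← sum_add_distrib, ← sum_sub_distrib]
    refine sum_congr rfl fun a _ => ?_
    have e2 : Real.log (r a) = Real.log (W a.1 a.2) + Real.log (rr W a) - lz := by
      simp only [hr]
      unfold rho
      rw [Real.log_div (mul_pos (hW _ _) (rr_pos hW a)).ne' (zc_pos hW).ne',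
        Real.log_mul (hW _ _).ne' (rr_pos hW a).ne']
    rw [e2]; ring
  -- averages over the start
  have havg : ∀ (j : ℕ) (F : X × X → ℝ), ∑ e, r e * ∑ a, kp Q j e a * F a = ∑ a, r a * F a := by
    intro j F
    simp only [mul_sum]
    rw [sum_comm]
    refine sum_congr rfl fun a _ => ?_
    rw [← kp_stat hQs j a, sum_mul]
    exact sum_congr rfl fun e _ => by ring
  set χ : X × X → X × X → ℝ := kp (lad W) M with hχ
  have hχ0 : ∀ e a, 0 < χ e a := fun e a => kp_pos (lad_pos hW) M e a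
  set N : X × X → ℝ := fun e => ∑ x, ∑ x', ∑ y, ∑ y',
      Real.sqrt (W x y) * χ e (x, y) * (Real.sqrt (W x' y') * χ e (x', y')) *
        (W x y' * W x' y) with hN
  have htot : ladSum W (2 * M + 3) = ∑ e, N e := lad_total h0 M
  have hsq : ∀ x y, 0 < Real.sqrt (W x y) := fun x y => Real.sqrt_pos.mpr (hW x y)
  have hN0 : ∀ e, 0 < N e := fun e => sum_pos (fun x _ => sum_pos (fun x' _ => sum_pos
    (fun y _ => sum_pos (fun y' _ => mul_pos (mul_pos (mul_pos (hsq _ _) (hχ0 _ _))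
      (mul_pos (hsq _ _) (hχ0 _ _))) (mul_pos (hW _ _) (hW _ _))) univ_nonempty)
      univ_nonempty) univ_nonempty) univ_nonempty
  set B : X × X → ℝ := fun e => ∑ x, ∑ x', half W (fun x y =>
    Real.sqrt (Real.sqrt (W x y) * χ e (x, y)) * Real.sqrt (W x y)) x x' ^ 2 with hB
  have hB0 : ∀ e, 0 < B e := fun e => sum_pos (fun x _ => sum_pos (fun x' _ => pow_pos
    (sum_pos (fun y _ => mul_pos (mul_pos (Real.sqrt_pos.mpr (mul_pos (hsq _ _) (hχ0 _ _)))
      (hsq _ _)) (hW _ _)) univ_nonempty) 2) univ_nonempty) univ_nonempty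
  have hcs : ∀ e, 2 * Real.log (B e) - lz ≤ Real.log (N e) := by
    intro e
    have e1 := local_cs W (fun x y => Real.sqrt (W x y) * χ e (x, y)) h0
      (fun x y => (mul_pos (hsq _ _) (hχ0 _ _)).le)
    have e2 : Real.log (B e ^ 2) ≤ Real.log (zc W * N e) :=
      Real.log_le_log (pow_pos (hB0 e) 2) e1
    rw [Real.log_pow, Real.log_mul (zc_pos hW).ne' (hN0 e).ne'] at e2
    push_cast at e2
    linarith
  have hlow : ∀ e, (∑ b, kp Q (M + 1) e b * (Real.log (kp Q (M + 1) e b) - Real.log (r b))) -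
      lz + ∑ a, kp Q M e a * (Real.log (χ e a) - Real.log (kp Q M e a)) +
      ∑ a, kp Q M e a * (3 / 2 * Real.log (W a.1 a.2) + 2 * Real.log (rr W a) -
        Real.log (kp Q M e a)) ≤ Real.log (B e) := fun e =>
    log_half hW (kp Q M e) (χ e) (fun a => kp_pos hQ0 M e a) (kp_sum hQ1 M e) (hχ0 e)
  -- Gibbs
  have hgibbs : ∑ e, r e * (Real.log (N e) - Real.log (r e)) ≤ Real.log (∑ e, N e) := by
    have e1 := logsum r N hr0 hN0
    rw [hr1, Real.log_one, one_mul, zero_sub] at e1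
    have e2 : ∑ e, r e * (Real.log (r e) - Real.log (N e)) =
        -∑ e, r e * (Real.log (N e) - Real.log (r e)) := by
      rw [← sum_neg_distrib]
      exact sum_congr rfl fun e _ => by ring
    rw [e2] at e1
    linarith
  have hg2 : 2 * (∑ e, r e * Real.log (B e)) - lz - h ≤ Real.log (∑ e, N e) := by
    refine le_trans (le_of_eq ?_) ((sum_le_sum fun e _ => mul_le_mul_of_nonneg_left
      (sub_le_sub_right (hcs e) (Real.log (r e))) (hr0 e).le).trans hgibbs)
    have e1 : lz = ∑ a, r a * lz := by rw [← sum_mul, hr1, one_mul]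
    nth_rewrite 1 [e1]
    rw [hh, mul_sum, ← sum_sub_distrib, ← sum_sub_distrib]
    exact sum_congr rfl fun e _ => by ring
  -- the average of the lower bound
  have hT1 : ∑ e, r e * (∑ b, kp Q (M + 1) e b * (Real.log (kp Q (M + 1) e b) -
      Real.log (r b))) = en Q r (M + 1) - h := by
    have e1 := havg (M + 1) (fun b => Real.log (r b))
    rw [hh, ← e1]
    unfold en
    rw [← sum_sub_distrib]
    refine sum_congr rfl fun e _ => ?_
    rw [mul_sum, mul_sum, ← sum_sub_distrib]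
    exact sum_congr rfl fun b _ => by ring
  have hT2 : ((M : ℝ) + 1) * ell ≤ ∑ e, r e * (∑ a, kp Q M e a * (Real.log (χ e a) -
      Real.log (kp Q M e a))) := by
    have e1 := weight_step (S := lad W) hQ0 (lad_pos hW) hQ1 hQs hr0 M
    rw [gain_zero hW] at e1
    refine e1.trans (le_of_eq ?_)
    refine sum_congr rfl fun e _ => ?_
    rw [mul_sum]
    exact sum_congr rfl fun b _ => by ring
  have hT3 : ∑ e, r e * (∑ a, kp Q M e a * (3 / 2 * Real.log (W a.1 a.2) +
      2 * Real.log (rr W a) - Real.log (kp Q M e a))) = 3 / 2 * w + 2 * ell - en Q r M := by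
    have e1 := havg M (fun a => Real.log (W a.1 a.2))
    have e2 := havg M (fun a => Real.log (rr W a))
    rw [hw, hell, ← e1, ← e2]
    unfold en
    rw [mul_sum, mul_sum, ← sum_add_distrib, ← sum_sub_distrib]
    refine sum_congr rfl fun e _ => ?_
    rw [mul_sum, mul_sum, mul_sum, mul_sum, mul_sum, ← sum_add_distrib, ← sum_sub_distrib]
    exact sum_congr rfl fun b _ => by ring
  have hBl : (en Q r (M + 1) - h) - lz + ((M : ℝ) + 1) * ell +
      (3 / 2 * w + 2 * ell - en Q r M) ≤ ∑ e, r e * Real.log (B e) := by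
    have e1 := sum_le_sum fun e (_ : e ∈ univ) => mul_le_mul_of_nonneg_left (hlow e) (hr0 e).le
    have e2 : lz = ∑ a, r a * lz := by rw [← sum_mul, hr1, one_mul]
    have e3 : ∑ e, r e * ((∑ b, kp Q (M + 1) e b * (Real.log (kp Q (M + 1) e b) -
        Real.log (r b))) - lz + ∑ a, kp Q M e a * (Real.log (χ e a) - Real.log (kp Q M e a)) +
        ∑ a, kp Q M e a * (3 / 2 * Real.log (W a.1 a.2) + 2 * Real.log (rr W a) -
        Real.log (kp Q M e a))) = (∑ e, r e * (∑ b, kp Q (M + 1) e b *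
        (Real.log (kp Q (M + 1) e b) - Real.log (r b)))) - (∑ a, r a * lz) +
        (∑ e, r e * (∑ a, kp Q M e a * (Real.log (χ e a) - Real.log (kp Q M e a)))) +
        ∑ e, r e * (∑ a, kp Q M e a * (3 / 2 * Real.log (W a.1 a.2) +
        2 * Real.log (rr W a) - Real.log (kp Q M e a))) := by
      rw [← sum_sub_distrib, ← sum_add_distrib, ← sum_add_distrib]
      exact sum_congr rfl fun e _ => by ring
    rw [e3, hT1, hT3, ← e2] at e1
    linarith
  rw [htot]
  set L : ℝ := Real.log (∑ e, N e) with hL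
  set E0 : ℝ := en Q r M with hE0
  set E1 : ℝ := en Q r (M + 1) with hE1
  rw [hrel] at hBl hg2
  nlinarith

/-- closed walks of even length -/
theorem lad_even (h0 : ∀ x y, 0 ≤ W x y) (i : ℕ) [NeZero (2 * i + 2)] :
    ladSum W (2 * i + 2) = ∑ e : X × X, ∑ a : X × X, kp (lad W) i e a ^ 2 := by
  obtain ⟨l, f, hL⟩ := exists_eig (lad W) (lad_symm W)
  rw [ladSum_eq h0 hL]
  have e1 : ∀ e : X × X, ∑ a, kp (lad W) i e a ^ 2 = ∑ p, l p ^ (2 * i + 2) * (f p e * f p e) := by
    intro e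
    rw [← hL.parseval]
    refine sum_congr rfl fun p _ => ?_
    have e2 := pw_coef hL (i + 1) e p
    have e3 : ∑ a, f p a * kp (lad W) i e a = ∑ a, f p a * pw W (i + 1) e a :=
      sum_congr rfl fun a _ => by rw [kp_pw]
    first
      | rw [e3, e2]; ring
      | (simp only [mul_comm (kp (lad W) i e _)] ; rw [e3, e2]; ring)
  simp only [e1]
  rw [sum_comm]
  refine sum_congr rfl fun p _ => ?_
  rw [← mul_sum, hL.orth, if_pos rfl, mul_one]

theorem even_log (hW : ∀ x y, 0 < W x y) (i : ℕ) [NeZero (2 * i + 2)] :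
    (2 * (i : ℝ) + 2) * (∑ a, rho W a * Real.log (rr W a)) +
      (en (qq W) (rho W) i - ∑ a, rho W a * Real.log (rho W a)) ≤
      Real.log (ladSum W (2 * i + 2)) := by
  have h0 : ∀ x y, 0 ≤ W x y := fun x y => (hW x y).le
  rw [lad_even h0]
  have hr0 : ∀ a, 0 < rho W a := rho_pos hW
  have hQ0 : ∀ a b, 0 < qq W a b := qq_pos hW
  have hk0 : ∀ a b, 0 < kp (qq W) i a b := fun a b => kp_pos hQ0 i a b
  have hχ0 : ∀ a b, 0 < kp (lad W) i a b := fun a b => kp_pos (lad_pos hW) i a b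
  have e1 := logsum (fun c : (X × X) × (X × X) => rho W c.1 * kp (qq W) i c.1 c.2)
    (fun c => kp (lad W) i c.1 c.2 ^ 2) (fun c => mul_pos (hr0 _) (hk0 _ _))
    (fun c => pow_pos (hχ0 _ _) 2)
  have hsp : ∀ F : (X × X) × (X × X) → ℝ, ∑ c, F c = ∑ a, ∑ b, F (a, b) :=
    fun F => Fintype.sum_prod_type F
  simp only [hsp] at e1
  have e2 : ∑ a, ∑ b, rho W a * kp (qq W) i a b = 1 := by
    simp only [← mul_sum, kp_sum (qq_sum hW), mul_one]
    exact rho_sum hW
  rw [e2, Real.log_one, one_mul, zero_sub] at e1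
  have e3 := weight_step (S := lad W) hQ0 (lad_pos hW) (qq_sum hW) (qq_stat hW) hr0 i
  rw [gain_zero hW] at e3
  have e4 : ∑ a, ∑ b, rho W a * kp (qq W) i a b * (Real.log (rho W a * kp (qq W) i a b) -
      Real.log (kp (lad W) i a b ^ 2)) = (∑ a, rho W a * Real.log (rho W a)) -
      en (qq W) (rho W) i - 2 * ∑ a, ∑ b, rho W a * kp (qq W) i a b *
        (Real.log (kp (lad W) i a b) - Real.log (kp (qq W) i a b)) := by
    have e5 : ∑ a, rho W a * Real.log (rho W a) = ∑ a, ∑ b, rho W a * kp (qq W) i a b *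
        Real.log (rho W a) := by
      refine sum_congr rfl fun a _ => ?_
      rw [← sum_mul, ← mul_sum, kp_sum (qq_sum hW), mul_one]
    rw [e5]
    unfold en
    rw [mul_sum, ← sum_sub_distrib, ← sum_sub_distrib]
    refine sum_congr rfl fun a _ => ?_
    rw [mul_sum, ← sum_sub_distrib, ← sum_sub_distrib]
    refine sum_congr rfl fun b _ => ?_
    rw [Real.log_mul (hr0 a).ne' (hk0 a b).ne', Real.log_pow]
    push_cast; ring
  rw [e4] at e1
  linarith

theorem en_tele2 {V : Type*} [Fintype V] [Nonempty V] {Q : V → V → ℝ} {r : V → ℝ}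
    (hQ : ∀ a b, 0 < Q a b) (h1 : ∀ a, ∑ b, Q a b = 1) (hr : ∀ a, 0 < r a)
    (hs : ∀ b, ∑ a, r a * Q a b = r b) (i d : ℕ) :
    ((d : ℝ) + 1) * (en Q r (i + d) - en Q r (i + d + 1)) ≤ en Q r i - en Q r (i + d + 1) := by
  induction d with
  | zero => simp
  | succ d ih =>
    have e1 := en_conv hQ h1 hr hs (i + d)
    have e2 : ((d : ℝ) + 1) * (en Q r (i + d + 1) - en Q r (i + d + 2)) ≤
        ((d : ℝ) + 1) * (en Q r (i + d) - en Q r (i + d + 1)) :=
      mul_le_mul_of_nonneg_left e1 (by positivity)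
    have e3 : i + (d + 1) = i + d + 1 := by ring
    have e4 : i + (d + 1) + 1 = i + d + 2 := by ring
    rw [e3]
    have e5 : i + d + 1 + 1 = i + d + 2 := by ring
    rw [e5]
    push_cast
    linarith

/-- `i + 1 = j`, `i + d + 1 = m` -/
theorem fam_log (hW : ∀ x y, 0 < W x y) (i d : ℕ) [NeZero (2 * (i + d) + 3)]
    [NeZero (2 * i + 2)] :
    (((d : ℝ) + 1) * (2 * (i + d) + 3) + 4 * (i + 1)) *
      (Real.log (zc W) - Real.log (∑ a : X × X, W a.1 a.2)) ≤
      ((d : ℝ) + 1) * Real.log (ladSum W (2 * (i + d) + 3)) +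
        2 * Real.log (ladSum W (2 * i + 2)) := by
  have hr0 : ∀ a, 0 < rho W a := rho_pos hW
  have hr1 : ∑ a, rho W a = 1 := rho_sum hW
  have hQ0 : ∀ a b, 0 < qq W a b := qq_pos hW
  have o1 := odd_log hW (i + d)
  have o2 := even_log hW i
  have o3 := en_tele2 hQ0 (qq_sum hW) hr0 (qq_stat hW) i d
  have o4 := en_ge hQ0 hr0 hr1 (qq_stat hW) (i + d + 1)
  set w : ℝ := ∑ a, rho W a * Real.log (W a.1 a.2) with hw
  set ell : ℝ := ∑ a, rho W a * Real.log (rr W a) with hell
  set h : ℝ := ∑ a, rho W a * Real.log (rho W a) with hh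
  have hrel : h = w + ell - Real.log (zc W) := by
    have e1 : Real.log (zc W) = ∑ a, rho W a * Real.log (zc W) := by rw [← sum_mul, hr1, one_mul]
    rw [e1, hh, hw, hell, ← sum_add_distrib, ← sum_sub_distrib]
    refine sum_congr rfl fun a _ => ?_
    have e2 : Real.log (rho W a) = Real.log (W a.1 a.2) + Real.log (rr W a) -
        Real.log (zc W) := by
      unfold rho
      rw [Real.log_div (mul_pos (hW _ _) (rr_pos hW a)).ne' (zc_pos hW).ne',
        Real.log_mul (hW _ _).ne' (rr_pos hW a).ne']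
    rw [e2]; ring
  have hedge : w - h ≤ Real.log (∑ a : X × X, W a.1 a.2) := by
    have e1 := logsum (rho W) (fun a : X × X => W a.1 a.2) hr0 (fun a => hW _ _)
    rw [hr1, Real.log_one, one_mul, zero_sub] at e1
    have e2 : ∑ a, rho W a * (Real.log (rho W a) - Real.log (W a.1 a.2)) = h - w := by
      rw [hh, hw, ← sum_sub_distrib]
      exact sum_congr rfl fun e _ => by ring
    rw [e2] at e1
    linarith
  have h11 : Real.log (zc W) - Real.log (∑ a : X × X, W a.1 a.2) ≤ ell := by linarith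
  have h12 : (0 : ℝ) ≤ (((d : ℝ) + 1) * (2 * (i + d) + 3) + 4 * (i + 1)) := by positivity
  have h13 := mul_le_mul_of_nonneg_left h11 h12
  have h14 : (0 : ℝ) ≤ (d : ℝ) + 1 := by positivity
  have h15 := mul_le_mul_of_nonneg_left o1 h14
  push_cast at h15
  nlinarith

theorem fam_pow (hW : ∀ x y, 0 < W x y) (i d : ℕ) [NeZero (2 * (i + d) + 3)]
    [NeZero (2 * i + 2)] :
    zc W ^ ((d + 1) * (2 * (i + d) + 3) + 4 * (i + 1)) ≤
      (∑ a : X × X, W a.1 a.2) ^ ((d + 1) * (2 * (i + d) + 3) + 4 * (i + 1)) *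
      (ladSum W (2 * (i + d) + 3) ^ (d + 1) * ladSum W (2 * i + 2) ^ 2) := by
  have h1 : 0 < zc W := zc_pos hW
  have h2 : 0 < ∑ a : X × X, W a.1 a.2 := sum_pos (fun a _ => hW _ _) univ_nonempty
  have h3 : ∀ k [NeZero k], 0 < ladSum W k := by
    intro k _
    unfold ladSum
    exact sum_pos (fun w _ => prod_pos fun i _ => mul_pos (hW _ _) (mul_pos (hW _ _) (hW _ _)))
      univ_nonempty
  have key := fam_log hW i d
  have h4 := h3 (2 * (i + d) + 3)
  have h5 := h3 (2 * i + 2)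
  rw [← Real.log_le_log_iff (pow_pos h1 _) (mul_pos (pow_pos h2 _) (mul_pos (pow_pos h4 _)
    (pow_pos h5 _))), Real.log_mul (pow_pos h2 _).ne' (mul_pos (pow_pos h4 _)
    (pow_pos h5 _)).ne', Real.log_mul (pow_pos h4 _).ne' (pow_pos h5 _).ne', Real.log_pow,
    Real.log_pow, Real.log_pow, Real.log_pow]
  push_cast
  linarith

theorem fam_le (h0 : ∀ x y, 0 ≤ W x y) (i d : ℕ) [NeZero (2 * (i + d) + 3)]
    [NeZero (2 * i + 2)] :
    zc W ^ ((d + 1) * (2 * (i + d) + 3) + 4 * (i + 1)) ≤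
      (∑ a : X × X, W a.1 a.2) ^ ((d + 1) * (2 * (i + d) + 3) + 4 * (i + 1)) *
      (ladSum W (2 * (i + d) + 3) ^ (d + 1) * ladSum W (2 * i + 2) ^ 2) := by
  set V : ℝ → X → X → ℝ := fun ε x y => W x y + ε with hV
  have hVc : ∀ x y, Continuous fun ε => V ε x y := fun x y => by
    simp only [hV]; fun_prop
  have hV0 : V 0 = W := by
    funext x y
    simp only [hV]; ring
  have c0 : ∀ k [NeZero k], Continuous fun ε => ladSum (V ε) k := by
    intro k _
    unfold ladSum
    refine continuous_finset_sum _ fun w _ => continuous_finset_prod _ fun i _ => ?_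
    exact (hVc _ _).mul ((hVc _ _).mul (hVc _ _))
  have c1 : Continuous fun ε => zc (V ε) ^ ((d + 1) * (2 * (i + d) + 3) + 4 * (i + 1)) := by
    refine Continuous.pow ?_ _
    unfold zc rr
    refine continuous_finset_sum _ fun a _ => (hVc _ _).mul ?_
    refine continuous_finset_sum _ fun x' _ => continuous_finset_sum _ fun y' _ => ?_
    exact ((hVc _ _).mul (hVc _ _)).mul (hVc _ _)
  have c2 : Continuous fun ε => (∑ a : X × X, V ε a.1 a.2) ^
      ((d + 1) * (2 * (i + d) + 3) + 4 * (i + 1)) *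
      (ladSum (V ε) (2 * (i + d) + 3) ^ (d + 1) * ladSum (V ε) (2 * i + 2) ^ 2) := by
    refine Continuous.mul (Continuous.pow ?_ _) (Continuous.mul (Continuous.pow (c0 _) _)
      (Continuous.pow (c0 _) _))
    exact continuous_finset_sum _ fun a _ => hVc _ _
  have t1 := (c1.tendsto 0).mono_left (nhdsWithin_le_nhds (s := Set.Ioi (0 : ℝ)))
  have t2 := (c2.tendsto 0).mono_left (nhdsWithin_le_nhds (s := Set.Ioi (0 : ℝ)))
  simp only [hV0] at t1 t2
  refine le_of_tendsto_of_tendsto t1 t2 ?_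
  filter_upwards [self_mem_nhdsWithin] with ε hε
  have hp : ∀ x y, 0 < V ε x y := by
    intro x y
    simp only [hV]
    have e1 := h0 x y
    have e3 : 0 < ε := hε
    linarith
  exact fam_pow hp i d

end fam

section graph

variable {X : Type*} [Fintype X]

/-- Moebius ladders and prisms -/
theorem fam_graph (G : SimpleGraph X) [Nonempty X] (j m : ℕ) (hj : 1 ≤ j) (hjm : j ≤ m) :
    homDensity (SimpleGraph.cycleGraph 4) G ^ ((2 * m + 1) * (m + 1 - j) + 4 * j) ≤
      edgeDensity G ^ ((2 * m + 1) * (m + 1 - j) + 4 * j) *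
        (homDensity (moebiusLadder (2 * m + 1)) G ^ (m + 1 - j) *
        homDensity ((SimpleGraph.cycleGraph (2 * j)).boxProd (⊤ : SimpleGraph Bool)) G ^ 2) := by
  classical
  obtain ⟨i, rfl⟩ : ∃ i, j = i + 1 := ⟨j - 1, by omega⟩
  obtain ⟨d, rfl⟩ : ∃ d, m = i + d + 1 := ⟨m - i - 1, by omega⟩
  haveI : NeZero (2 * (i + d) + 3) := ⟨by omega⟩
  haveI : NeZero (2 * i + 2) := ⟨by omega⟩
  have hk : 2 * (i + d + 1) + 1 = 2 * (i + d) + 3 := by ring
  have hd : i + d + 1 + 1 - (i + 1) = d + 1 := by omega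
  have hK : (2 * (i + d) + 3) * (d + 1) + 4 * (i + 1) = (d + 1) * (2 * (i + d) + 3) + 4 * (i + 1) :=
    by ring
  rw [hk, hd, hK]
  have hpr : homDensity ((SimpleGraph.cycleGraph (2 * (i + 1))).boxProd
      (⊤ : SimpleGraph Bool)) G = ladderDensity (adj G) (2 * i + 2) := by
    rw [← hom_ladder]
    have hje : Even (2 * i) := ⟨i, by ring⟩
    obtain ⟨e⟩ := prism_iso (2 * i) hje
    have e1 : 2 * (i + 1) = 2 * i + 2 := by ring
    rw [e1]
    exact (homDensity_congr e G).symm
  have hn : 0 < Fintype.card X := Fintype.card_pos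
  have hn0 : (0 : ℝ) < Fintype.card X := by exact_mod_cast hn
  have h0 : ∀ x y, 0 ≤ adj G x y := fun x y => by simp only [adj]; split_ifs <;> norm_num
  have hp := adj_sum G
  have hp' : ∑ a : X × X, adj G a.1 a.2 = edgeDensity G * (Fintype.card X : ℝ) ^ 2 := by
    rw [Fintype.sum_prod_type, ← hp]; field_simp
  have hfour : homDensity (SimpleGraph.cycleGraph 4) G * (Fintype.card X : ℝ) ^ 4 =
      zc (adj G) := four_density G
  have key := fam_le h0 i d
  rw [hpr, hom_ladder]
  unfold ladderDensity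
  rw [← ladSum_two, ← ladSum_two]
  rw [← hfour, hp'] at key
  set n : ℝ := (Fintype.card X : ℝ) with hndef
  set T : ℝ := homDensity (SimpleGraph.cycleGraph 4) G with hT
  set p : ℝ := edgeDensity G with hpd
  set K : ℕ := (d + 1) * (2 * (i + d) + 3) + 4 * (i + 1) with hKd
  have e1 : (T * n ^ 4) ^ K = T ^ K * n ^ (4 * K) := by
    rw [mul_pow, ← pow_mul]
  have e2 : (p * n ^ 2) ^ K * (ladSum (adj G) (2 * (i + d) + 3) ^ (d + 1) *
      ladSum (adj G) (2 * i + 2) ^ 2) =
      p ^ K * ((ladSum (adj G) (2 * (i + d) + 3) / n ^ (2 * (2 * (i + d) + 3))) ^ (d + 1) *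
        (ladSum (adj G) (2 * i + 2) / n ^ (2 * (2 * i + 2))) ^ 2) * n ^ (4 * K) := by
    have e3 : n ^ (4 * K) = n ^ (2 * K) * ((n ^ (2 * (2 * (i + d) + 3))) ^ (d + 1) *
        (n ^ (2 * (2 * i + 2))) ^ 2) := by
      rw [← pow_mul, ← pow_mul, ← pow_add, ← pow_add]; congr 1; rw [hKd]; ring
    rw [e3, mul_pow, ← pow_mul, div_pow, div_pow]
    field_simp
  rw [e1, e2] at key
  exact le_of_mul_le_mul_right key (by positivity)

end graph

end Vale.Agent.P050.H180
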