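import Vale.Agent.P050.H180.Ent4

set_option linter.all false

/-!
Copies of a Moebius ladder with one prism.
-/

namespace Vale.Agent.P050.H180

open Finset Vale.Agent.P050.H148 Filter Topology

section fam

variable {X : Type*} [Fintype X] [DecidableEq X] [Nonempty X] {W : X → X → ℝ}

theorem ell_ge (hW : ∀ x y, 0 < W x y) :
    Real.log (zc W) - Real.log (∑ a : X × X, W a.1 a.2) ≤
      ∑ a, rho W a * Real.log (rr W a) := by
  have hr0 : ∀ a, 0 < rho W a := rho_pos hW
  have hr1 : ∑ a, rho W a = 1 := rho_sum hW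
  set w : ℝ := ∑ a, rho W a * Real.log (W a.1 a.2) with hw
  set ell : ℝ := ∑ a, rho W a * Real.log (rr W a) with hell
  set h : ℝ := ∑ a, rho W a * Real.log (rho W a) with hh
  have hrel : h = w + ell - Real.log (zc W) := by
    have e1 : Real.log (zc W) = ∑ a, rho W a * Real.log (zc W) := by rw [← sum_mul, hr1, one_mul]
    rw [e1, hh, hw, hell, ← sum_add_distrib, ← sum_sub_distrib]
    refine sum_congr rfl fun a _ => ?_
    have e2 : Real.log (rho W a) = Real.log (W a.1 a.2) + Real.log (rr W a) -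
        Real.log (zc W) := by
      unfold rho
      rw [Real.log_div (mul_pos (hW _ _) (rr_pos hW a)).ne' (zc_pos hW).ne',
        Real.log_mul (hW _ _).ne' (rr_pos hW a).ne']
    rw [e2]; ring
  have e1 := logsum (rho W) (fun a : X × X => W a.1 a.2) hr0 (fun a => hW _ _)
  rw [hr1, Real.log_one, one_mul, zero_sub] at e1
  have e2 : ∑ a, rho W a * (Real.log (rho W a) - Real.log (W a.1 a.2)) = h - w := by
    rw [hh, hw, ← sum_sub_distrib]
    exact sum_congr rfl fun e _ => by ring
  rw [e2] at e1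
  linarith

theorem even_pow (hW : ∀ x y, 0 < W x y) (i : ℕ) [NeZero (2 * i + 2)] :
    zc W ^ (2 * i + 2) ≤ (∑ a : X × X, W a.1 a.2) ^ (2 * i + 2) * ladSum W (2 * i + 2) := by
  have h1 : 0 < zc W := zc_pos hW
  have h2 : 0 < ∑ a : X × X, W a.1 a.2 := sum_pos (fun a _ => hW _ _) univ_nonempty
  have h5 : 0 < ladSum W (2 * i + 2) := by
    unfold ladSum
    exact sum_pos (fun w _ => prod_pos fun i _ => mul_pos (hW _ _) (mul_pos (hW _ _) (hW _ _)))
      univ_nonempty
  have o2 := even_log hW i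
  have o4 := en_ge (qq_pos hW) (rho_pos hW) (rho_sum hW) (qq_stat hW) i
  have o5 := ell_ge hW
  have h12 : (0 : ℝ) ≤ 2 * (i : ℝ) + 2 := by positivity
  have h13 := mul_le_mul_of_nonneg_left o5 h12
  rw [← Real.log_le_log_iff (pow_pos h1 _) (mul_pos (pow_pos h2 _) h5),
    Real.log_mul (pow_pos h2 _).ne' h5.ne', Real.log_pow, Real.log_pow]
  push_cast
  linarith

theorem even_le (h0 : ∀ x y, 0 ≤ W x y) (i : ℕ) [NeZero (2 * i + 2)] :
    zc W ^ (2 * i + 2) ≤ (∑ a : X × X, W a.1 a.2) ^ (2 * i + 2) * ladSum W (2 * i + 2) := by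
  set V : ℝ → X → X → ℝ := fun ε x y => W x y + ε with hV
  have hVc : ∀ x y, Continuous fun ε => V ε x y := fun x y => by
    simp only [hV]; fun_prop
  have hV0 : V 0 = W := by
    funext x y
    simp only [hV]; ring
  have c0 : ∀ k [NeZero k], Continuous fun ε => ladSum (V ε) k := by
    intro k _
    unfold ladSum
    refine continuous_finset_sum _ fun w _ => continuous_finset_prod _ fun i _ => ?_
    exact (hVc _ _).mul ((hVc _ _).mul (hVc _ _))
  have c1 : Continuous fun ε => zc (V ε) ^ (2 * i + 2) := by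
    refine Continuous.pow ?_ _
    unfold zc rr
    refine continuous_finset_sum _ fun a _ => (hVc _ _).mul ?_
    refine continuous_finset_sum _ fun x' _ => continuous_finset_sum _ fun y' _ => ?_
    exact ((hVc _ _).mul (hVc _ _)).mul (hVc _ _)
  have c2 : Continuous fun ε => (∑ a : X × X, V ε a.1 a.2) ^ (2 * i + 2) *
      ladSum (V ε) (2 * i + 2) := by
    refine Continuous.mul (Continuous.pow ?_ _) (c0 _)
    exact continuous_finset_sum _ fun a _ => hVc _ _
  have t1 := (c1.tendsto 0).mono_left (nhdsWithin_le_nhds (s := Set.Ioi (0 : ℝ)))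
  have t2 := (c2.tendsto 0).mono_left (nhdsWithin_le_nhds (s := Set.Ioi (0 : ℝ)))
  simp only [hV0] at t1 t2
  refine le_of_tendsto_of_tendsto t1 t2 ?_
  filter_upwards [self_mem_nhdsWithin] with ε hε
  have hp : ∀ x y, 0 < V ε x y := by
    intro x y
    simp only [hV]
    have e1 := h0 x y
    have e3 : 0 < ε := hε
    linarith
  exact even_pow hp i

end fam

section graph

variable {X : Type*} [Fintype X]

/-- prisms and four-cycles -/
theorem even_graph (G : SimpleGraph X) [Nonempty X] (j : ℕ) (hj : 1 ≤ j) :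
    homDensity (SimpleGraph.cycleGraph 4) G ^ (2 * j) ≤ edgeDensity G ^ (2 * j) *
      homDensity ((SimpleGraph.cycleGraph (2 * j)).boxProd (⊤ : SimpleGraph Bool)) G := by
  classical
  obtain ⟨i, rfl⟩ : ∃ i, j = i + 1 := ⟨j - 1, by omega⟩
  haveI : NeZero (2 * i + 2) := ⟨by omega⟩
  have e1 : 2 * (i + 1) = 2 * i + 2 := by ring
  rw [e1]
  have hpr : homDensity ((SimpleGraph.cycleGraph (2 * i + 2)).boxProd
      (⊤ : SimpleGraph Bool)) G = ladderDensity (adj G) (2 * i + 2) := by
    rw [← hom_ladder]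
    have hje : Even (2 * i) := ⟨i, by ring⟩
    obtain ⟨e⟩ := prism_iso (2 * i) hje
    exact (homDensity_congr e G).symm
  have hn : 0 < Fintype.card X := Fintype.card_pos
  have hn0 : (0 : ℝ) < Fintype.card X := by exact_mod_cast hn
  have h0 : ∀ x y, 0 ≤ adj G x y := fun x y => by simp only [adj]; split_ifs <;> norm_num
  have hp := adj_sum G
  have hp' : ∑ a : X × X, adj G a.1 a.2 = edgeDensity G * (Fintype.card X : ℝ) ^ 2 := by
    rw [Fintype.sum_prod_type, ← hp]; field_simp
  have hfour : homDensity (SimpleGraph.cycleGraph 4) G * (Fintype.card X : ℝ) ^ 4 =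
      zc (adj G) := four_density G
  have key := even_le h0 i
  rw [hpr]
  unfold ladderDensity
  rw [← ladSum_two]
  rw [← hfour, hp'] at key
  set n : ℝ := (Fintype.card X : ℝ) with hndef
  set T : ℝ := homDensity (SimpleGraph.cycleGraph 4) G with hT
  set p : ℝ := edgeDensity G with hpd
  set K : ℕ := 2 * i + 2 with hKd
  have e1 : (T * n ^ 4) ^ K = T ^ K * n ^ (4 * K) := by
    rw [mul_pow, ← pow_mul]
  have e2 : (p * n ^ 2) ^ K * ladSum (adj G) K = p ^ K * (ladSum (adj G) K / n ^ (2 * K)) *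
      n ^ (4 * K) := by
    have e3 : n ^ (4 * K) = n ^ (2 * K) * n ^ (2 * K) := by
      rw [← pow_add]; congr 1; ring
    rw [e3, mul_pow, ← pow_mul]
    field_simp
  rw [e1, e2] at key
  exact le_of_mul_le_mul_right key (by positivity)

theorem even_sid (G : SimpleGraph X) [Nonempty X] (j : ℕ) (hj : 1 ≤ j) :
    edgeDensity G ^ (6 * j) ≤
      homDensity ((SimpleGraph.cycleGraph (2 * j)).boxProd (⊤ : SimpleGraph Bool)) G := by
  have hnn : 0 ≤ edgeDensity G := by unfold edgeDensity; positivity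
  have ht : 0 ≤ homDensity ((SimpleGraph.cycleGraph (2 * j)).boxProd
    (⊤ : SimpleGraph Bool)) G := by unfold homDensity; positivity
  rcases hnn.lt_or_eq with hpos | hz
  · have e1 := even_graph G j hj
    have e2 := pow_le_pow_left₀ (by positivity) (four_ge G) (2 * j)
    have e3 := e2.trans e1
    have e4 : (edgeDensity G ^ 4) ^ (2 * j) = edgeDensity G ^ (2 * j) *
        edgeDensity G ^ (6 * j) := by
      rw [← pow_mul, ← pow_add]; congr 1; ring
    rw [e4] at e3
    exact le_of_mul_le_mul_left e3 (by positivity)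
  · rw [← hz, zero_pow (by omega)]
    exact ht

/-- copies of a Moebius ladder with one prism -/
theorem mixed_graph (G : SimpleGraph X) [Nonempty X] (c j m : ℕ) (hj : 1 ≤ j)
    (hc : 2 * c + j ≤ m + 1) (hc0 : 1 ≤ c) :
    edgeDensity G ^ (3 * (2 * m + 1) * c + 6 * j) ≤
      homDensity (moebiusLadder (2 * m + 1)) G ^ c *
        homDensity ((SimpleGraph.cycleGraph (2 * j)).boxProd (⊤ : SimpleGraph Bool)) G := by
  have hnn : 0 ≤ edgeDensity G := by unfold edgeDensity; positivity
  have hB0 := even_sid G j hj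
  set p : ℝ := edgeDensity G with hp
  set A : ℝ := homDensity (moebiusLadder (2 * m + 1)) G with hA
  set B : ℝ := homDensity ((SimpleGraph.cycleGraph (2 * j)).boxProd (⊤ : SimpleGraph Bool)) G
    with hB
  have hAn : 0 ≤ A := by rw [hA]; unfold homDensity; positivity
  have hBn : 0 ≤ B := by rw [hB]; unfold homDensity; positivity
  rcases hnn.lt_or_eq with hpos | hz
  · have e1 := fam_graph G j m hj (by omega)
    have e2 := pow_le_pow_left₀ (by positivity) (four_ge G) ((2 * m + 1) * (m + 1 - j) + 4 * j)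
    have e3 := e2.trans e1
    rw [← hp, ← hA, ← hB] at e3
    set d : ℕ := m + 1 - j with hd
    have e4 : (p ^ 4) ^ ((2 * m + 1) * d + 4 * j) = p ^ ((2 * m + 1) * d + 4 * j) *
        (p ^ (3 * (2 * m + 1) * d) * (p ^ (6 * j)) ^ 2) := by
      rw [← pow_mul, ← pow_mul, ← pow_add, ← pow_add]; congr 1; ring
    rw [e4] at e3
    have e5 := le_of_mul_le_mul_left e3 (by positivity)
    rcases le_total (p ^ (3 * (2 * m + 1))) A with h | h
    · have e6 := pow_le_pow_left₀ (by positivity) h c
      rw [← pow_mul] at e6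
      rw [pow_add]
      exact mul_le_mul e6 hB0 (by positivity) (by positivity)
    · -- `A ≤ p ^ (3 k)`
      have hq : 0 < p ^ (3 * (2 * m + 1)) := by positivity
      have e6 : A ^ (d - 2 * c) ≤ (p ^ (3 * (2 * m + 1))) ^ (d - 2 * c) :=
        pow_le_pow_left₀ hAn h _
      have e7 : A ^ d = A ^ (2 * c) * A ^ (d - 2 * c) := by
        rw [← pow_add]; congr 1; omega
      have e8 : p ^ (3 * (2 * m + 1) * d) = (p ^ (3 * (2 * m + 1))) ^ (2 * c) *
          (p ^ (3 * (2 * m + 1))) ^ (d - 2 * c) := by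
        rw [← pow_add, ← pow_mul]; congr 2; omega
      rw [e7, e8] at e5
      have e9 : (p ^ (3 * (2 * m + 1))) ^ (d - 2 * c) *
          ((p ^ (3 * (2 * m + 1))) ^ (2 * c) * (p ^ (6 * j)) ^ 2) ≤
          (p ^ (3 * (2 * m + 1))) ^ (d - 2 * c) * (A ^ (2 * c) * B ^ 2) := by
        calc _ = (p ^ (3 * (2 * m + 1))) ^ (2 * c) * (p ^ (3 * (2 * m + 1))) ^ (d - 2 * c) *
              (p ^ (6 * j)) ^ 2 := by ring
          _ ≤ A ^ (2 * c) * A ^ (d - 2 * c) * B ^ 2 := e5
          _ ≤ A ^ (2 * c) * (p ^ (3 * (2 * m + 1))) ^ (d - 2 * c) * B ^ 2 := by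
              refine mul_le_mul_of_nonneg_right ?_ (sq_nonneg _)
              exact mul_le_mul_of_nonneg_left e6 (by positivity)
          _ = _ := by ring
      have e10 := le_of_mul_le_mul_left e9 (by positivity)
      have e11 : (p ^ (3 * (2 * m + 1) * c + 6 * j)) ^ 2 ≤ (A ^ c * B) ^ 2 := by
        refine le_trans (le_of_eq ?_) (e10.trans (le_of_eq ?_))
        · ring
        · ring
      exact (pow_le_pow_iff_left₀ (by positivity) (by positivity) (by norm_num)).mp e11
  · rw [← hz, zero_pow (by omega)]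
    positivity

end graph

end Vale.Agent.P050.H180
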