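import Vale.Agent.P050.H180.Core
import Vale.Agent.P050.H148.Defs

set_option linter.all false

/-!
Moebius ladders of all densities that are not exponentially small.
-/

namespace Vale.Agent.P050.H180

open Finset Vale.Agent.P050.H148

section num

theorem numA (E c : ℝ) (hE : 0 ≤ E) (hc : c ≤ 5) (k : ℕ) (hk : 5 ≤ k) :
    1 ≤ (1 + E) ^ (k - 4) * ((1 + E) ^ 4 - c * (E + E ^ 2 / 2)) := by
  have h1 : 1 ≤ (1 + E) ^ 1 * ((1 + E) ^ 4 - c * (E + E ^ 2 / 2)) := by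
    have e1 : 0 ≤ (5 - c) * ((1 + E) * (E + E ^ 2 / 2)) := by
      have : 0 ≤ 5 - c := by linarith
      positivity
    have e2 : 0 ≤ 5 / 2 * E ^ 2 + 15 / 2 * E ^ 3 + 5 * E ^ 4 + E ^ 5 := by positivity
    nlinarith
  obtain ⟨d, rfl⟩ := Nat.exists_eq_add_of_le hk
  have h2 : 1 ≤ (1 + E) ^ d := one_le_pow₀ (by linarith)
  have h3 : 5 + d - 4 = d + 1 := by omega
  rw [h3, pow_add, mul_assoc]
  nlinarith

theorem numB (E c : ℝ) (hE : 0 ≤ E) (hc : c ≤ 8 / 3) (k : ℕ) (hk : 9 ≤ k) :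
    1 ≤ (1 + 4 / 9 * E) ^ (k - 4) * ((1 + 4 / 9 * E) ^ 4 - c * (E + E ^ 2 / 2)) := by
  have h1 : 1 ≤ (1 + 4 / 9 * E) ^ 5 * ((1 + 4 / 9 * E) ^ 4 - c * (E + E ^ 2 / 2)) := by
    have e1 : 0 ≤ (8 / 3 - c) * ((1 + 4 / 9 * E) ^ 5 * (E + E ^ 2 / 2)) := by
      have : 0 ≤ 8 / 3 - c := by linarith
      positivity
    have e2 : 1 ≤ (1 + 4 / 9 * E) ^ 5 * ((1 + 4 / 9 * E) ^ 4 - 8 / 3 * (E + E ^ 2 / 2)) := by
      have h2 : 0 ≤ E * (7 / 10 * E ^ 2 - 62 / 100) ^ 2 := by positivity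
      have h3 : 0 ≤ E * (E - 1) ^ 2 := by positivity
      have h4 : 0 ≤ E ^ 2 * (E ^ 2 - 1) ^ 2 := by positivity
      have h5 : 0 ≤ E ^ 4 * (E - 1) ^ 2 := by positivity
      have h6 : 0 ≤ E ^ 6 := by positivity
      have h7 : 0 ≤ E ^ 7 := by positivity
      have h8 : 0 ≤ E ^ 8 := by positivity
      have h9 : 0 ≤ E ^ 9 := by positivity
      have h10 : 0 ≤ E ^ 5 := by positivity
      have h11 : 0 ≤ E ^ 4 := by positivity
      have h12 : 0 ≤ E ^ 3 := by positivity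
      have h13 : 0 ≤ E ^ 2 := by positivity
      have key : (1 + 4 / 9 * E) ^ 5 * ((1 + 4 / 9 * E) ^ 4 - 8 / 3 * (E + E ^ 2 / 2)) - 1 =
          4 / 3 * E + (-4 / 27) * E ^ 2 + (-208 / 243) * E ^ 3 + (-128 / 2187) * E ^ 4 +
          (9728 / 19683) * E ^ 5 + (60416 / 177147) * E ^ 6 + (53248 / 531441) * E ^ 7 +
          (65536 / 4782969) * E ^ 8 + (262144 / 387420489) * E ^ 9 := by
        ring
      linarith
    nlinarith
  obtain ⟨d, rfl⟩ := Nat.exists_eq_add_of_le hk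
  have h2 : 1 ≤ (1 + 4 / 9 * E) ^ d := one_le_pow₀ (by linarith)
  have h3 : 9 + d - 4 = d + 5 := by omega
  rw [h3, pow_add, mul_assoc]
  nlinarith

theorem numC (E c : ℝ) (hE : 0 ≤ E) (hc : c ≤ 97 / 20) (k : ℕ) (hk : 7 ≤ k) :
    1 ≤ (1 + 3 / 4 * E) ^ (k - 4) * ((1 + 3 / 4 * E) ^ 4 - c * (E + E ^ 2 / 2)) := by
  have h1 : 1 ≤ (1 + 3 / 4 * E) ^ 3 * ((1 + 3 / 4 * E) ^ 4 - c * (E + E ^ 2 / 2)) := by
    have e1 : 0 ≤ (97 / 20 - c) * ((1 + 3 / 4 * E) ^ 3 * (E + E ^ 2 / 2)) := by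
      have : 0 ≤ 97 / 20 - c := by linarith
      positivity
    have e2 : 1 ≤ (1 + 3 / 4 * E) ^ 3 * ((1 + 3 / 4 * E) ^ 4 - 97 / 20 * (E + E ^ 2 / 2)) := by
      have h2 : 0 ≤ E * (E - 1 / 4) ^ 2 := by positivity
      have h3 : 0 ≤ E ^ 2 * (E - 1 / 4) ^ 2 := by positivity
      have h4 : 0 ≤ E ^ 3 * (E - 1 / 4) ^ 2 := by positivity
      have h6 : 0 ≤ E ^ 6 := by positivity
      have h7 : 0 ≤ E ^ 7 := by positivity
      have h10 : 0 ≤ E ^ 5 := by positivity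
      have h11 : 0 ≤ E ^ 4 := by positivity
      have h12 : 0 ≤ E ^ 3 := by positivity
      have h13 : 0 ≤ E ^ 2 := by positivity
      have key : (1 + 3 / 4 * E) ^ 3 * ((1 + 3 / 4 * E) ^ 4 - 97 / 20 * (E + E ^ 2 / 2)) - 1 =
          (2 / 5) * E ^ 1 +
          (-61 / 40) * E ^ 2 + (9 / 8) * E ^ 3 + (3159 / 640) * E ^ 4 + (20277 / 5120) * E ^ 5 + (5103 / 4096) * E ^ 6 + (2187 / 16384) * E ^ 7 := by
        ring
      linarith
    nlinarith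
  obtain ⟨d, rfl⟩ := Nat.exists_eq_add_of_le hk
  have h2 : 1 ≤ (1 + 3 / 4 * E) ^ d := one_le_pow₀ (by linarith)
  have h3 : 7 + d - 4 = d + 3 := by omega
  rw [h3, pow_add, mul_assoc]
  nlinarith

end num

section sig

variable {X : Type*} [Fintype X] [DecidableEq X] {W : X → X → ℝ}

theorem big_cases (κ : ℝ) (a : X × X) : big W κ a = 0 ∨ big W κ a = 1 := by
  unfold big; split_ifs
  · exact Or.inl rfl
  · exact Or.inr rfl

/-- the four-cycle inequality for a kernel that is scaled down on some pairs -/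
theorem sigma_ineq (h0 : ∀ x y, 0 ≤ W x y) (κ σ : ℝ) (hσ : 0 ≤ σ) (hσ1 : σ ≤ 1) :
    (∑ a : X × X, W a.1 a.2) ^ 4 -
      4 * (1 - σ) * (∑ a : X × X, W a.1 a.2) ^ 3 * (∑ a, big W κ a * W a.1 a.2) ≤
    (Fintype.card X : ℝ) ^ 4 * (∑ a : X × X, W a.1 a.2 * rr W a -
      (1 - σ ^ 4) * ∑ a, big W κ a * (W a.1 a.2 * rr W a)) := by
  set χ : X × X → ℝ := big W κ with hχ
  set ρ : X → X → ℝ := fun x y => 1 - (1 - σ) * χ (x, y) with hρ
  have hχc : ∀ a, χ a = 0 ∨ χ a = 1 := fun a => big_cases κ a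
  have hρ0 : ∀ x y, 0 ≤ ρ x y := by
    intro x y
    simp only [hρ]
    rcases hχc (x, y) with h | h <;> rw [h]
    · norm_num
    · linarith
  have hρ4 : ∀ x y, ρ x y ^ 4 = 1 - (1 - σ ^ 4) * χ (x, y) := by
    intro x y
    simp only [hρ]
    rcases hχc (x, y) with h | h <;> rw [h] <;> ring
  have h4 := fourcycle W ρ
  have hom : ∀ x x' y y', 0 ≤ om W x x' y y' := fun x x' y y' => by
    have := h0 x y; have := h0 x' y'; have := h0 x y'; have := h0 x' y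
    unfold om; positivity
  set S : ℝ := ∑ x, ∑ x', ∑ y, ∑ y', om W x x' y y' * ρ x y ^ 4 with hS
  have s1 : ∑ x, ∑ x', ∑ y, ∑ y', om W x x' y y' * ρ x y' ^ 4 = S := by
    rw [hS, swap34]
    refine sum_congr rfl fun x _ => sum_congr rfl fun x' _ => sum_congr rfl fun y _ =>
      sum_congr rfl fun y' _ => ?_
    unfold om; ring
  have s2 : ∑ x, ∑ x', ∑ y, ∑ y', om W x x' y y' * ρ x' y ^ 4 = S := by
    rw [hS, swap12]
    refine sum_congr rfl fun x _ => sum_congr rfl fun x' _ => sum_congr rfl fun y _ =>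
      sum_congr rfl fun y' _ => ?_
    unfold om; ring
  have s3 : ∑ x, ∑ x', ∑ y, ∑ y', om W x x' y y' * ρ x' y' ^ 4 = S := by
    rw [hS, swap12, swap34]
    refine sum_congr rfl fun x _ => sum_congr rfl fun x' _ => sum_congr rfl fun y _ =>
      sum_congr rfl fun y' _ => ?_
    unfold om; ring
  have hup : ∑ x, ∑ x', ∑ y, ∑ y', om W x x' y y' * |ρ x y * ρ x' y' * (ρ x y' * ρ x' y)| ≤ S := by
    have e1 : ∀ x x' y y', om W x x' y y' * |ρ x y * ρ x' y' * (ρ x y' * ρ x' y)| ≤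
        1 / 4 * (om W x x' y y' * ρ x y ^ 4) + 1 / 4 * (om W x x' y y' * ρ x' y' ^ 4) +
        1 / 4 * (om W x x' y y' * ρ x y' ^ 4) + 1 / 4 * (om W x x' y y' * ρ x' y ^ 4) := by
      intro x x' y y'
      have e2 : 0 ≤ ρ x y * ρ x' y' * (ρ x y' * ρ x' y) :=
        mul_nonneg (mul_nonneg (hρ0 _ _) (hρ0 _ _)) (mul_nonneg (hρ0 _ _) (hρ0 _ _))
      rw [abs_of_nonneg e2]
      have e3 : ρ x y * ρ x' y' * (ρ x y' * ρ x' y) ≤
          1 / 4 * (ρ x y ^ 4 + ρ x' y' ^ 4 + ρ x y' ^ 4 + ρ x' y ^ 4) := by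
        nlinarith [sq_nonneg (ρ x y * ρ x' y' - ρ x y' * ρ x' y),
          sq_nonneg (ρ x y ^ 2 - ρ x' y' ^ 2), sq_nonneg (ρ x y' ^ 2 - ρ x' y ^ 2)]
      have := mul_le_mul_of_nonneg_left e3 (hom x x' y y')
      linarith
    refine (sum_le_sum fun x _ => sum_le_sum fun x' _ => sum_le_sum fun y _ =>
      sum_le_sum fun y' _ => e1 x x' y y').trans ?_
    simp only [sum_add_distrib, ← mul_sum, s1, s2, s3, ← hS]
    linarith
  have hSeq : S = ∑ a : X × X, W a.1 a.2 * rr W a -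
      (1 - σ ^ 4) * ∑ a, χ a * (W a.1 a.2 * rr W a) := by
    rw [hS, om_row W (fun x y => ρ x y ^ 4), Fintype.sum_prod_type, Fintype.sum_prod_type,
      mul_sum, ← sum_sub_distrib]
    refine sum_congr rfl fun x _ => ?_
    rw [mul_sum, ← sum_sub_distrib]
    refine sum_congr rfl fun y _ => ?_
    rw [hρ4]; ring
  have hsum : ∑ x, ∑ y, W x y * |ρ x y| = ∑ a : X × X, W a.1 a.2 -
      (1 - σ) * ∑ a, χ a * W a.1 a.2 := by
    rw [Fintype.sum_prod_type, Fintype.sum_prod_type, mul_sum, ← sum_sub_distrib]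
    refine sum_congr rfl fun x _ => ?_
    rw [mul_sum, ← sum_sub_distrib]
    refine sum_congr rfl fun y _ => ?_
    rw [abs_of_nonneg (hρ0 _ _)]; simp only [hρ]; ring
  rw [hsum] at h4
  set M : ℝ := ∑ a : X × X, W a.1 a.2 with hM
  set B : ℝ := ∑ a, χ a * W a.1 a.2 with hB
  have hconv : M ^ 4 - 4 * (1 - σ) * M ^ 3 * B ≤ (M - (1 - σ) * B) ^ 4 := by
    have e1 : (M - (1 - σ) * B) ^ 4 - (M ^ 4 - 4 * (1 - σ) * M ^ 3 * B) =
        ((1 - σ) * B) ^ 2 * ((M - (1 - σ) * B) ^ 2 + 2 * (M - (1 - σ) * B) * M + 3 * M ^ 2) := by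
      ring
    have e2 : 0 ≤ (M - (1 - σ) * B) ^ 2 + 2 * (M - (1 - σ) * B) * M + 3 * M ^ 2 := by
      nlinarith [sq_nonneg (M - (1 - σ) * B + M), sq_nonneg M]
    have e3 : 0 ≤ ((1 - σ) * B) ^ 2 *
        ((M - (1 - σ) * B) ^ 2 + 2 * (M - (1 - σ) * B) * M + 3 * M ^ 2) :=
      mul_nonneg (sq_nonneg _) e2
    linarith
  have hn : (0 : ℝ) ≤ (Fintype.card X : ℝ) ^ 4 := by positivity
  calc _ ≤ (M - (1 - σ) * B) ^ 4 := hconv
    _ ≤ _ := h4
    _ ≤ (Fintype.card X : ℝ) ^ 4 * S := mul_le_mul_of_nonneg_left hup hn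
    _ = _ := by rw [hSeq]

end sig

section main

variable {X : Type*} [Fintype X] [DecidableEq X] {W : X → X → ℝ} {t : X → ℝ} {u : X → X → ℝ}

theorem sum_rr (hW : Eig W t u) : ∑ a : X × X, W a.1 a.2 * rr W a = ∑ i, t i ^ 4 := by
  rw [← sum_om hW]
  have := om_row W (fun _ _ => 1)
  simp only [mul_one] at this
  rw [this, Fintype.sum_prod_type]

theorem pairs_le (i₀ : X) {m : ℝ} (hm : 0 ≤ m) (hi : m ≤ |t i₀|) :
    1 / 2 * ∑ i, ∑ j, (if i = j then 0 else |t i * t j| ^ 4) ≤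
      1 / 2 * ((∑ i, t i ^ 4) ^ 2 - m ^ 8) := by
  have e1 : ∀ i j : X, (if i = j then 0 else |t i * t j| ^ 4) =
      t i ^ 4 * t j ^ 4 - (if i = j then t i ^ 4 * t j ^ 4 else 0) := by
    intro i j
    have : |t i * t j| ^ 4 = t i ^ 4 * t j ^ 4 := by
      rw [Even.pow_abs (by decide : Even 4), mul_pow]
    rw [this]
    split_ifs <;> ring
  have e2 : ∑ i, ∑ j, (if i = j then 0 else |t i * t j| ^ 4) =
      (∑ i, t i ^ 4) ^ 2 - ∑ i, t i ^ 4 * t i ^ 4 := by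
    simp only [e1, sum_sub_distrib, sum_ite_eq, mem_univ, if_true]
    simp only [← mul_sum, ← sum_mul]
    ring
  have e3 : m ^ 8 ≤ ∑ i, t i ^ 4 * t i ^ 4 := by
    have e4 := single_le_sum (f := fun i => t i ^ 4 * t i ^ 4)
      (fun i _ => mul_self_nonneg (t i ^ 4)) (mem_univ i₀)
    refine le_trans ?_ e4
    have e5 : m ^ 8 ≤ |t i₀| ^ 8 := pow_le_pow_left₀ hm hi 8
    rw [Even.pow_abs (by decide : Even 8)] at e5
    calc m ^ 8 ≤ t i₀ ^ 8 := e5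
      _ = t i₀ ^ 4 * t i₀ ^ 4 := by ring
  rw [e2]
  linarith

/-- the final step, for a truncation level `q` and a gain `η` -/
theorem assemble (hs : ∀ x y, W x y = W y x) (h0 : ∀ x y, 0 ≤ W x y) (h1 : ∀ x y, W x y ≤ 1)
    (hn : 0 < Fintype.card X) {p : ℝ} (hp0 : 0 < p)
    (hp : ∑ x, ∑ y, W x y = p * (Fintype.card X : ℝ) ^ 2) (k : ℕ) [NeZero k] (hk : Odd k)
    (hk4 : 4 ≤ k) {q η c : ℝ} (hq : 1 ≤ q) (hη : 0 ≤ η) (hc0 : 0 ≤ c)
    (hqc : (q / 3) ^ (k - 4) ≤ c * p ^ 4)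
    (hloss : ∀ (κ A B T Y : ℝ), 0 ≤ A → 0 ≤ B → 0 ≤ T →
      (∀ σ : ℝ, 0 ≤ σ → σ ≤ 1 → (1 - σ ^ 4) * Y ≤ A + 4 * (1 - σ) * B) → B ≤ T →
        (2 - q) * Y ≤ (1 - η) * A + T)
    (hnum : ∀ E : ℝ, 0 ≤ E → 1 ≤ (1 + η * E) ^ (k - 4) *
      ((1 + η * E) ^ 4 - c * (E + E ^ 2 / 2))) :
    p ^ (3 * k) * (Fintype.card X : ℝ) ^ (2 * k) ≤ ladSum W k := by
  obtain ⟨t, u, hW⟩ := exists_eig W hs
  set n : ℝ := (Fintype.card X : ℝ) with hndef
  have hn0 : 0 < n := by rw [hndef]; exact_mod_cast hn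
  haveI : Nonempty X := Fintype.card_pos_iff.mp hn
  set M : ℝ := ∑ a : X × X, W a.1 a.2 with hMdef
  have hM : M = p * n ^ 2 := by rw [hMdef, Fintype.sum_prod_type, hp]
  have hM0 : 0 < M := by rw [hM]; positivity
  set C : ℝ := ∑ a : X × X, W a.1 a.2 * rr W a with hCdef
  have hCt : C = ∑ i, t i ^ 4 := sum_rr hW
  -- the largest eigenvalue of `W`
  obtain ⟨i₀, hi₀⟩ := Finite.exists_max (fun i => |t i|)
  have han : p * n ≤ |t i₀| := by
    have e := hW.quad_le (L := |t i₀|) (fun i => (le_abs_self _).trans (hi₀ i)) (fun _ => 1)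
    simp only [one_mul, mul_one, one_pow, sum_const, card_univ, nsmul_eq_mul] at e
    rw [hp, ← hndef] at e
    have : p * n * n ≤ |t i₀| * n := by linarith [e, (by ring : p * n ^ 2 = p * n * n)]
    exact le_of_mul_le_mul_right this hn0
  -- four-cycles
  have hsig : ∀ κ σ : ℝ, 0 ≤ σ → σ ≤ 1 → (1 - σ ^ 4) * (∑ a, big W κ a * (W a.1 a.2 * rr W a)) ≤
      (C - p ^ 4 * n ^ 4) + 4 * (1 - σ) * (p ^ 3 * n ^ 2 * ∑ a, big W κ a * W a.1 a.2) := by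
    intro κ σ hσ hσ1
    have e1 := sigma_ineq h0 κ σ hσ hσ1
    rw [← hMdef, ← hCdef, ← hndef, hM] at e1
    have e2 : n ^ 4 * (p ^ 4 * n ^ 4 - 4 * (1 - σ) *
        (p ^ 3 * n ^ 2 * ∑ a, big W κ a * W a.1 a.2)) ≤
        n ^ 4 * (C - (1 - σ ^ 4) * ∑ a, big W κ a * (W a.1 a.2 * rr W a)) := by
      refine le_trans (le_of_eq ?_) e1
      ring
    have e3 := le_of_mul_le_mul_left e2 (by positivity)
    linarith
  have hCge : p ^ 4 * n ^ 4 ≤ C := by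
    have e1 := hsig 0 1 zero_le_one le_rfl
    norm_num at e1
    linarith
  set E : ℝ := C / (p ^ 4 * n ^ 4) - 1 with hE
  have hE0 : 0 ≤ E := by
    rw [hE, sub_nonneg, le_div_iff₀ (by positivity)]; linarith
  have hCE : C = p ^ 4 * n ^ 4 * (1 + E) := by rw [hE]; field_simp; ring
  set lam : ℝ := p ^ 3 * n ^ 2 * (1 + η * E) with hlamdef
  have hlam : 0 < lam := by positivity
  have hlamge : p ^ 3 * n ^ 2 ≤ lam := by
    have : 0 ≤ p ^ 3 * n ^ 2 * (η * E) := by positivity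
    rw [hlamdef]; linarith
  have hWT0 : 0 ≤ ∑ a, big W (q * lam) a * W a.1 a.2 := sum_nonneg fun a _ => by
    rcases big_cases (W := W) (q * lam) a with h | h <;> rw [h]
    · simp
    · rw [one_mul]; exact h0 _ _
  have hyp : lam * M ≤ C + lam * (∑ a, big W (q * lam) a * W a.1 a.2) -
      (2 - q) * ∑ a, big W (q * lam) a * (W a.1 a.2 * rr W a) := by
    have e1 := hloss (q * lam) (C - p ^ 4 * n ^ 4)
      (p ^ 3 * n ^ 2 * ∑ a, big W (q * lam) a * W a.1 a.2)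
      (lam * ∑ a, big W (q * lam) a * W a.1 a.2)
      (∑ a, big W (q * lam) a * (W a.1 a.2 * rr W a)) (by linarith) (by positivity)
      (by positivity) (fun σ hσ hσ1 => hsig (q * lam) σ hσ hσ1)
      (mul_le_mul_of_nonneg_right hlamge hWT0)
    have e2 : lam * M = p ^ 4 * n ^ 4 * (1 + η * E) := by rw [hM, hlamdef]; ring
    have e3 : C - p ^ 4 * n ^ 4 = p ^ 4 * n ^ 4 * E := by rw [hCE]; ring
    rw [e3] at e1
    rw [e2, hCE]
    linarith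
  have hcore := core h0 h1 hW k hk hk4 hlam hq hM0 hyp
  have hpairs := pairs_le (t := t) i₀ (by positivity : 0 ≤ p * n) han
  rw [← hCt] at hpairs
  have hneg : (q * lam / 3) ^ (k - 4) *
      (1 / 2 * ∑ i, ∑ j, (if i = j then 0 else |t i * t j| ^ 4)) ≤
      (p ^ 3 * n ^ 2) ^ k * ((1 + η * E) ^ (k - 4) * (c * (E + E ^ 2 / 2))) := by
    have e1 : 1 / 2 * (C ^ 2 - (p * n) ^ 8) = p ^ 8 * n ^ 8 * (E + E ^ 2 / 2) := by
      rw [hCE]; ring
    rw [e1] at hpairs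
    have e2 : (q * lam / 3) ^ (k - 4) = (q / 3) ^ (k - 4) *
        ((p ^ 3 * n ^ 2) ^ (k - 4) * (1 + η * E) ^ (k - 4)) := by
      rw [hlamdef, ← mul_pow, ← mul_pow]; congr 1; ring
    have e3 : (q * lam / 3) ^ (k - 4) ≤ c * p ^ 4 *
        ((p ^ 3 * n ^ 2) ^ (k - 4) * (1 + η * E) ^ (k - 4)) := by
      rw [e2]
      exact mul_le_mul_of_nonneg_right hqc (by positivity)
    have e4 : 0 ≤ p ^ 8 * n ^ 8 * (E + E ^ 2 / 2) := by positivity
    calc _ ≤ (q * lam / 3) ^ (k - 4) * (p ^ 8 * n ^ 8 * (E + E ^ 2 / 2)) :=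
          mul_le_mul_of_nonneg_left hpairs (by positivity)
      _ ≤ c * p ^ 4 * ((p ^ 3 * n ^ 2) ^ (k - 4) * (1 + η * E) ^ (k - 4)) *
            (p ^ 8 * n ^ 8 * (E + E ^ 2 / 2)) := mul_le_mul_of_nonneg_right e3 e4
      _ = ((p ^ 3 * n ^ 2) ^ (k - 4) * (p ^ 3 * n ^ 2) ^ 4) * ((1 + η * E) ^ (k - 4) *
            (c * (E + E ^ 2 / 2))) := by ring
      _ = _ := by rw [← pow_add]; congr 2; omega
  have hlamk : lam ^ k = (p ^ 3 * n ^ 2) ^ k * ((1 + η * E) ^ (k - 4) * (1 + η * E) ^ 4) := by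
    rw [hlamdef, mul_pow, ← pow_add]; congr 2; omega
  have hmain := hnum E hE0
  have hpk : 0 ≤ (p ^ 3 * n ^ 2) ^ k := by positivity
  have hfin : (p ^ 3 * n ^ 2) ^ k ≤ lam ^ k - (p ^ 3 * n ^ 2) ^ k * ((1 + η * E) ^ (k - 4) *
      (c * (E + E ^ 2 / 2))) := by
    rw [hlamk]
    have := mul_le_mul_of_nonneg_left hmain hpk
    linarith
  have hgoal : p ^ (3 * k) * n ^ (2 * k) = (p ^ 3 * n ^ 2) ^ k := by
    rw [mul_pow, ← pow_mul, ← pow_mul]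
  rw [hgoal]
  linarith

end main

end Vale.Agent.P050.H180

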