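import Vale.Agent.P050.H148.Defs

/-!
Statement-level definitions.
-/

namespace Vale.Agent.P050.H180

open Vale.Agent.P050.H148

/-- The indices of the rungs of `wingedLadder k`: the residues modulo `k`, and two copies (the first
coordinate tells which copy) of the nonzero residues modulo `k - 1`. -/
abbrev Rung (k : ℕ) : Type := ZMod k ⊕ (Bool × {i : ZMod (k - 1) // i ≠ 0})

/-- The rungs of the copy `c` of the ladder with `k - 1` rungs; its rung `0` is the rung `0` of the
Moebius ladder. -/
def wing (k : ℕ) (c : Bool) (i : ZMod (k - 1)) : Rung k :=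
  if h : i = 0 then Sum.inl 0 else Sum.inr (c, ⟨i, h⟩)

/-- The Moebius ladder with `k` rungs (`k` odd) and two prisms with `k - 1` rungs
(`moebiusLadder (k - 1)`), all three having one rung in common and nothing else. -/
def wingedLadder (k : ℕ) : SimpleGraph (Rung k × Bool) where
  Adj u v := (∃ a b, (moebiusLadder k).Adj a b ∧ u = (Sum.inl a.1, a.2) ∧ v = (Sum.inl b.1, b.2)) ∨
    ∃ c a b, (moebiusLadder (k - 1)).Adj a b ∧ u = (wing k c a.1, a.2) ∧ v = (wing k c b.1, b.2)
  symm := ⟨fun u v h => by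
    rcases h with ⟨a, b, h, hu, hv⟩ | ⟨c, a, b, h, hu, hv⟩
    · exact Or.inl ⟨b, a, h.symm, hv, hu⟩
    · exact Or.inr ⟨c, b, a, h.symm, hv, hu⟩⟩
  loopless := ⟨fun u h => by
    rcases h with ⟨a, b, h, hu, hv⟩ | ⟨c, a, b, h, hu, hv⟩
    · exact h.1 ((congrArg Prod.snd hu).symm.trans (congrArg Prod.snd hv))
    · exact h.1 ((congrArg Prod.snd hu).symm.trans (congrArg Prod.snd hv))⟩

end Vale.Agent.P050.H180
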