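import Vale.Agent.P050.H180.Odd2
import Vale.Agent.P050.H180.GlueDefs
import Vale.Agent.P050.H148.Graph

set_option linter.all false

/-!
Ladders glued along a rung.
-/

namespace Vale.Agent.P050.H180

open Finset Vale.Agent.P050.H148

section root

variable {I : Type*} [Fintype I] [DecidableEq I]
variable {M : I → I → ℝ} {l : I → ℝ} {u : I → I → ℝ}

theorem const_of_shift' {k : ℕ} [NeZero k] (J : ZMod k → I) (h : ∀ i, i ≠ 0 → J i = J (i - 1))
    (i : ZMod k) : J i = J 0 := by
  have h1 : ∀ n : ℕ, J (n : ZMod k) = J 0 := by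
    intro n
    induction n with
    | zero => simp
    | succ n ih =>
      by_cases h0 : ((n + 1 : ℕ) : ZMod k) = 0
      · rw [h0]
      · rw [h _ h0]
        push_cast
        rw [add_sub_cancel_right, ih]
  have := h1 (ZMod.val i)
  rwa [ZMod.natCast_zmod_val] at this

theorem cyc_root (h : Eig M l u) (k : ℕ) [NeZero k] (g : I → ℝ) :
    ∑ w : ZMod k → I, g (w 0) * ∏ i, M (w i) (w (i + 1)) =
      ∑ i, l i ^ k * ∑ e, g e * u i e ^ 2 := by
  classical
  have h1 : ∀ w : ZMod k → I, g (w 0) * ∏ i, M (w i) (w (i + 1)) =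
      ∑ J : ZMod k → I, (∏ i, l (J i)) *
        ∏ i, ((if i = 0 then g (w i) else 1) * (u (J i) (w i) * u (J (i - 1)) (w i))) := by
    intro w
    have h2 : ∏ i, M (w i) (w (i + 1)) =
        ∑ J : ZMod k → I, (∏ i, l (J i)) * ∏ i, (u (J i) (w i) * u (J (i - 1)) (w i)) := by
      simp only [h.eq]
      rw [Finset.prod_univ_sum, Fintype.piFinset_univ]
      refine sum_congr rfl fun J _ => ?_
      rw [prod_mul_distrib, prod_mul_distrib, prod_mul_distrib]
      congr 2
      have := Equiv.prod_comp (Equiv.subRight (1 : ZMod k)) (fun i => u (J i) (w (i + 1)))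
      simp only [Equiv.subRight_apply, sub_add_cancel] at this
      exact this.symm
    rw [h2, mul_sum]
    refine sum_congr rfl fun J _ => ?_
    rw [prod_mul_distrib (f := fun i => if i = 0 then g (w i) else 1), prod_ite_eq' univ 0
      (fun i => g (w i)), if_pos (mem_univ _)]
    ring
  simp only [h1]
  rw [sum_comm]
  have h2 : ∀ J : ZMod k → I, ∑ w : ZMod k → I, (∏ i, l (J i)) *
        ∏ i, ((if i = 0 then g (w i) else 1) * (u (J i) (w i) * u (J (i - 1)) (w i))) =
      if ∀ i, i ≠ 0 → J i = J (i - 1) then (∏ i, l (J i)) * ∑ e, g e * u (J 0) e ^ 2 else 0 := by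
    intro J
    rw [← mul_sum]
    have h3 : ∑ w : ZMod k → I,
        ∏ i, ((if i = 0 then g (w i) else 1) * (u (J i) (w i) * u (J (i - 1)) (w i))) =
        ∏ i, ∑ e, (if i = 0 then g e else 1) * (u (J i) e * u (J (i - 1)) e) := by
      rw [Finset.prod_univ_sum, Fintype.piFinset_univ]
    rw [h3]
    split_ifs with hJ
    · congr 1
      have hc := const_of_shift' J hJ
      have h4 : ∀ i : ZMod k, ∑ e, (if i = 0 then g e else 1) * (u (J i) e * u (J (i - 1)) e) =
          if i = 0 then ∑ e, g e * u (J 0) e ^ 2 else 1 := by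
        intro i
        by_cases hi : i = 0
        · subst hi
          simp only [if_true]
          refine sum_congr rfl fun e _ => ?_
          rw [hc (0 - 1), sq]
        · simp only [hi, if_false, one_mul]
          rw [h.orth, if_pos (by rw [hJ i hi])]
      simp only [h4]
      rw [prod_ite_eq' univ 0 (fun _ => ∑ e, g e * u (J 0) e ^ 2), if_pos (mem_univ _)]
    · push Not at hJ
      obtain ⟨i, hi, hJi⟩ := hJ
      have h5 : ∏ i, ∑ e, (if i = 0 then g e else 1) * (u (J i) e * u (J (i - 1)) e) = 0 := by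
        refine prod_eq_zero (mem_univ i) ?_
        simp only [hi, if_false, one_mul]
        rw [h.orth, if_neg hJi]
      rw [h5, mul_zero]
  simp only [h2]
  rw [← sum_filter]
  have h4 : (univ.filter fun J : ZMod k → I => ∀ i, i ≠ 0 → J i = J (i - 1)) =
      univ.image (fun c : I => fun _ : ZMod k => c) := by
    ext J
    simp only [mem_filter, mem_univ, true_and, mem_image]
    constructor
    · intro hJ
      exact ⟨J 0, funext fun i => (const_of_shift' J hJ i).symm⟩
    · rintro ⟨c, rfl⟩ i _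
      rfl
  rw [h4, sum_image]
  · refine sum_congr rfl fun c _ => ?_
    rw [prod_const, card_univ, ZMod.card]
  · intro a _ b _ hab
    exact congrFun hab 0

end root

section wing

variable {X : Type*} [Fintype X] [DecidableEq X] {W : X → X → ℝ}
variable {l : X × X → ℝ} {f : X × X → X × X → ℝ}

/-- the weight of a closed walk of rungs -/
def clos (W : X → X → ℝ) (k : ℕ) [NeZero k] (w : ZMod k → X × X) : ℝ :=
  ∏ i, (W (w i).1 (w i).2 * (W (w i).1 (w (i + 1)).2 * W (w (i + 1)).1 (w i).2))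

theorem clos_eq (h0 : ∀ x y, 0 ≤ W x y) (k : ℕ) [NeZero k] (w : ZMod k → X × X) :
    clos W k w = ∏ i, lad W (w i) (w (i + 1)) := by
  unfold clos
  have h2 := Equiv.prod_comp (Equiv.addRight (1 : ZMod k))
    (fun i => Real.sqrt (W (w i).1 (w i).2))
  simp only [Equiv.coe_addRight] at h2
  have h3 : ∏ i, W (w i).1 (w i).2 = (∏ i, Real.sqrt (W (w i).1 (w i).2)) *
      ∏ i, Real.sqrt (W (w (i + 1)).1 (w (i + 1)).2) := by
    rw [h2, ← prod_mul_distrib]
    exact prod_congr rfl fun i _ => (Real.mul_self_sqrt (h0 _ _)).symm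
  have h4 : ∀ i : ZMod k, lad W (w i) (w (i + 1)) = Real.sqrt (W (w i).1 (w i).2) *
      Real.sqrt (W (w (i + 1)).1 (w (i + 1)).2) *
      (W (w i).1 (w (i + 1)).2 * W (w (i + 1)).1 (w i).2) := fun i => rfl
  simp only [h4]
  simp only [prod_mul_distrib]
  rw [h3]

theorem clos_root (h0 : ∀ x y, 0 ≤ W x y) (hL : Eig (lad W) l f) (k : ℕ) [NeZero k]
    (g : X × X → ℝ) : ∑ w : ZMod k → X × X, g (w 0) * clos W k w =
      ∑ e, g e * ∑ i, l i ^ k * f i e ^ 2 := by
  simp only [clos_eq h0]
  rw [cyc_root hL k g]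
  simp only [mul_sum]
  rw [sum_comm]
  exact sum_congr rfl fun e _ => sum_congr rfl fun i _ => by ring

/-- a closed walk with prescribed root -/
def ext (k : ℕ) (y : X × X) (v : {i : ZMod k // i ≠ 0} → X × X) (i : ZMod k) : X × X :=
  if h : i = 0 then y else v ⟨i, h⟩

theorem ext_sum (h0 : ∀ x y, 0 ≤ W x y) (hL : Eig (lad W) l f) (k : ℕ) [NeZero k] (y : X × X) :
    ∑ v : {i : ZMod k // i ≠ 0} → X × X, clos W k (ext k y v) = ∑ i, l i ^ k * f i y ^ 2 := by
  classical
  have h1 := clos_root h0 hL k (fun e => if e = y then (1 : ℝ) else 0)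
  simp only [ite_mul, one_mul, zero_mul, sum_ite_eq', mem_univ, if_true] at h1
  rw [← h1, ← (Equiv.funSplitAt (0 : ZMod k) (X × X)).symm.sum_comp, Fintype.sum_prod_type]
  have h2 : ∀ (a : X × X) (v : {i : ZMod k // i ≠ 0} → X × X),
      (Equiv.funSplitAt (0 : ZMod k) (X × X)).symm (a, v) = ext k a v := by
    intro a v
    funext i
    unfold ext
    simp only [Equiv.funSplitAt_symm_apply]
  have h3 : ∀ (a : X × X) (v : {i : ZMod k // i ≠ 0} → X × X), ext k a v 0 = a := by
    intro a v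
    simp [ext]
  simp only [h2, h3]
  rw [sum_eq_single y]
  · simp
  · intro b _ hb
    simp [hb]
  · intro h; exact absurd (mem_univ _) h

/-- the weight of a map from the glued ladders -/
def wingSum (W : X → X → ℝ) (k : ℕ) [NeZero k] [NeZero (k - 1)] : ℝ :=
  ∑ z : Rung k → X × X, clos W k (fun i => z (Sum.inl i)) *
    ∏ c : Bool, clos W (k - 1) (fun i => z (wing k c i))

theorem wingSum_eq (h0 : ∀ x y, 0 ≤ W x y) (hL : Eig (lad W) l f) (k : ℕ) [NeZero k]
    [NeZero (k - 1)] : wingSum W k =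
      ∑ y, (∑ i, l i ^ k * f i y ^ 2) * (∑ i, l i ^ (k - 1) * f i y ^ 2) ^ 2 := by
  classical
  unfold wingSum
  rw [← (Equiv.sumArrowEquivProdArrow (ZMod k) (Bool × {i : ZMod (k - 1) // i ≠ 0})
    (X × X)).symm.sum_comp, Fintype.sum_prod_type]
  have h1 : ∀ (a : ZMod k → X × X) (b : Bool × {i : ZMod (k - 1) // i ≠ 0} → X × X) (c : Bool),
      (fun i => (Equiv.sumArrowEquivProdArrow (ZMod k) (Bool × {i : ZMod (k - 1) // i ≠ 0})
        (X × X)).symm (a, b) (wing k c i)) = ext (k - 1) (a 0) (fun j => b (c, j)) := by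
    intro a b c
    funext i
    unfold wing ext
    split_ifs <;> rfl
  have h2 : ∀ (a : ZMod k → X × X) (b : Bool × {i : ZMod (k - 1) // i ≠ 0} → X × X),
      (fun i => (Equiv.sumArrowEquivProdArrow (ZMod k) (Bool × {i : ZMod (k - 1) // i ≠ 0})
        (X × X)).symm (a, b) (Sum.inl i)) = a := fun a b => rfl
  simp only [h1, h2]
  have h3 : ∀ a : ZMod k → X × X, ∑ b : Bool × {i : ZMod (k - 1) // i ≠ 0} → X × X,
      clos W k a * ∏ c : Bool, clos W (k - 1) (ext (k - 1) (a 0) (fun j => b (c, j))) =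
      (∑ i, l i ^ (k - 1) * f i (a 0) ^ 2) ^ 2 * clos W k a := by
    intro a
    rw [← mul_sum, mul_comm]
    congr 1
    rw [← (Equiv.curry Bool {i : ZMod (k - 1) // i ≠ 0} (X × X)).symm.sum_comp]
    have h4 : ∀ b : Bool → {i : ZMod (k - 1) // i ≠ 0} → X × X,
        ∏ c : Bool, clos W (k - 1) (ext (k - 1) (a 0)
          (fun j => (Equiv.curry Bool {i : ZMod (k - 1) // i ≠ 0} (X × X)).symm b (c, j))) =
        ∏ c : Bool, clos W (k - 1) (ext (k - 1) (a 0) (b c)) := fun b => rfl
    simp only [h4]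
    have h5 := Finset.prod_univ_sum (fun _ : Bool => (univ : Finset
      ({i : ZMod (k - 1) // i ≠ 0} → X × X)))
      (fun (_ : Bool) v => clos W (k - 1) (ext (k - 1) (a 0) v))
    rw [Fintype.piFinset_univ] at h5
    rw [← h5]
    simp only [ext_sum h0 hL, prod_const, card_univ, Fintype.card_bool]
  simp only [h3]
  rw [clos_root h0 hL k (fun y => (∑ i, l i ^ (k - 1) * f i y ^ 2) ^ 2)]
  exact sum_congr rfl fun y _ => by ring

end wing

end Vale.Agent.P050.H180
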