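import Vale.Agent.P050.H180.Glue

set_option linter.all false

/-!
Ladders glued along a rung: the inequality.
-/

namespace Vale.Agent.P050.H180

open Finset Vale.Agent.P050.H148

section ineq

variable {X : Type*} [Fintype X] [DecidableEq X] {W : X → X → ℝ}
variable {l : X × X → ℝ} {f : X × X → X × X → ℝ}

theorem pw_comm (hL : Eig (lad W) l f) (m : ℕ) (a b : X × X) : pw W m a b = pw W m b a := by
  rw [pw_eig hL, pw_eig hL]
  exact sum_congr rfl fun i _ => by ring

theorem pw_zero (hL : Eig (lad W) l f) (m : ℕ) (a b : X × X) (ha : W a.1 a.2 = 0) :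
    pw W (m + 1) a b = 0 := by
  rw [pw_comm hL]
  simp only [pw]
  refine sum_eq_zero fun c _ => ?_
  unfold lad
  rw [ha, Real.sqrt_zero]; ring

/-- lower bound for the moments -/
theorem even_lower (h0 : ∀ x y, 0 ≤ W x y) {p : ℝ} (hp0 : 0 < p) (hn : 0 < Fintype.card X)
    (hp : ∑ x, ∑ y, W x y = p * (Fintype.card X : ℝ) ^ 2) (hL : Eig (lad W) l f) (j : ℕ) :
    p ^ (6 * (j + 1) + 1) * (Fintype.card X : ℝ) ^ (4 * (j + 1) + 2) ≤
      ∑ i, nu W f i * l i ^ (2 * (j + 1)) := by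
  set n : ℝ := (Fintype.card X : ℝ) with hndef
  have hn0 : 0 < n := by rw [hndef]; exact_mod_cast hn
  have hM : ∑ i, nu W f i = p * n ^ 2 := by
    rw [nu_sum h0 hL, Fintype.sum_prod_type, hp]
  have hC : p ^ 4 * n ^ 4 ≤ ∑ i, nu W f i * l i := by
    rw [nu_one h0 hL]
    have e1 := fourcycle W (fun _ _ => 1)
    simp only [abs_one, mul_one] at e1
    have e2 := om_row W (fun _ _ => 1)
    simp only [mul_one] at e2
    rw [e2, hp, ← hndef] at e1
    rw [Fintype.sum_prod_type]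
    have e3 : n ^ 4 * (p ^ 4 * n ^ 4) ≤ n ^ 4 * ∑ x, ∑ y, W x y * rr W (x, y) := by
      refine le_trans (le_of_eq ?_) e1
      ring
    exact le_of_mul_le_mul_left e3 (by positivity)
  have h2 := jensen_even (nu W f) l nu_nonneg (j + 1) (by omega)
  rw [hM] at h2
  have h3 : (p ^ 4 * n ^ 4) ^ (2 * (j + 1)) ≤ (p * n ^ 2) ^ (2 * (j + 1) - 1) *
      ∑ i, nu W f i * l i ^ (2 * (j + 1)) :=
    (pow_le_pow_left₀ (by positivity) hC _).trans h2
  have e1 : 0 < (p * n ^ 2) ^ (2 * (j + 1) - 1) := by positivity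
  refine le_of_mul_le_mul_left ?_ e1
  refine le_trans (le_of_eq ?_) h3
  have e2 : 2 * (j + 1) - 1 = 2 * j + 1 := by omega
  rw [e2]
  ring

theorem wing_ineq (h0 : ∀ x y, 0 ≤ W x y) (hint : ∀ x y, W x y = 0 ∨ W x y = 1) {p : ℝ}
    (hp0 : 0 < p) (hn : 0 < Fintype.card X)
    (hp : ∑ x, ∑ y, W x y = p * (Fintype.card X : ℝ) ^ 2) (m : ℕ) (hm : m ≠ 0)
    [NeZero (2 * m + 1)] [NeZero (2 * m + 1 - 1)] :
    p ^ (18 * m + 1) * (Fintype.card X : ℝ) ^ (12 * m - 2) ≤ wingSum W (2 * m + 1) := by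
  obtain ⟨l, f, hL⟩ := exists_eig (lad W) (lad_symm W)
  obtain ⟨j, rfl⟩ : ∃ j, m = j + 1 := ⟨m - 1, by omega⟩
  rw [wingSum_eq h0 hL]
  have e0 : 2 * (j + 1) + 1 - 1 = 2 * (j + 1) := rfl
  rw [e0]
  set n : ℝ := (Fintype.card X : ℝ) with hndef
  have hn0 : 0 < n := by rw [hndef]; exact_mod_cast hn
  have hA0 : ∀ y, 0 ≤ ∑ i, l i ^ (2 * (j + 1) + 1) * f i y ^ 2 := fun y => by
    have e1 := pw_nonneg h0 (2 * (j + 1) + 1) y y
    rw [pw_eig hL] at e1
    refine e1.trans (le_of_eq (sum_congr rfl fun i _ => by ring))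
  have key := holder_sum (fun y => ∑ z : X × X, pw W (j + 1) y z * Real.sqrt (W z.1 z.2))
    (fun y => (∑ i, l i ^ (2 * (j + 1) + 1) * f i y ^ 2) *
      (∑ i, l i ^ (2 * (j + 1)) * f i y ^ 2) ^ 2)
    (fun y => W y.1 y.2) (n ^ 4) (by positivity)
    (fun y => sum_nonneg fun z _ => mul_nonneg (pw_nonneg h0 _ _ _) (Real.sqrt_nonneg _))
    (fun y => mul_nonneg (hA0 y) (sq_nonneg _))
    (fun y => h0 _ _)
    (fun y => by
      rcases hint y.1 y.2 with hy | hy
      · have e1 : ∑ z : X × X, pw W (j + 1) y z * Real.sqrt (W z.1 z.2) = 0 :=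
          sum_eq_zero fun z _ => by rw [pw_zero hL j y z hy, zero_mul]
        simp only [e1, hy]
        norm_num
      · have := rooted h0 hL j y
        rw [hy]
        refine this.trans (le_of_eq ?_)
        rw [← hndef]; ring)
  rw [open_sq hL, Fintype.sum_prod_type (f := fun y : X × X => W y.1 y.2), hp] at key
  have h4 := even_lower h0 hp0 hn hp hL j
  rw [← hndef] at h4
  have h5 : (p ^ (6 * (j + 1) + 1) * n ^ (4 * (j + 1) + 2)) ^ 3 ≤
      (∑ i, nu W f i * l i ^ (2 * (j + 1))) ^ 3 := pow_le_pow_left₀ (by positivity) h4 3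
  have h6 := h5.trans key
  have e1 : 12 * (j + 1) - 2 = 12 * j + 10 := by omega
  rw [e1]
  have e2 : 0 < n ^ 8 * p ^ 2 := by positivity
  refine le_of_mul_le_mul_left ?_ e2
  refine le_trans (le_of_eq ?_) (h6.trans (le_of_eq ?_))
  · ring
  · ring

end ineq

section graph

variable {X : Type*} [Fintype X]

/-- the walk condition -/
def Walk (G : SimpleGraph X) (k : ℕ) (w : ZMod k → X × X) : Prop :=
  ∀ i, G.Adj (w i).1 (w i).2 ∧ G.Adj (w i).1 (w (i + 1)).2 ∧ G.Adj (w (i + 1)).1 (w i).2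

/-- the two ends of a rung -/
def side (a : X × X) (b : Bool) : X := if b then a.2 else a.1

theorem walk_adj {G : SimpleGraph X} {k : ℕ} {w : ZMod k → X × X} (h : Walk G k w)
    {a b : ZMod k × Bool} (hab : (moebiusLadder k).Adj a b) :
    G.Adj (side (w a.1) a.2) (side (w b.1) b.2) := by
  obtain ⟨i, a⟩ := a
  obtain ⟨j, b⟩ := b
  obtain ⟨hne, hij⟩ := hab
  simp only at hne hij ⊢
  unfold side
  cases a <;> cases b
  · exact absurd rfl hne
  · simp only [Bool.false_eq_true, if_false, if_true]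
    rcases hij with h' | h' | h'
    · subst h'; exact (h i).1
    · subst h'; exact (h j).2.2
    · subst h'; exact (h i).2.1
  · simp only [Bool.false_eq_true, if_false, if_true]
    rcases hij with h' | h' | h'
    · subst h'; exact (h i).1.symm
    · subst h'; exact (h j).2.1.symm
    · subst h'; exact (h i).2.2.symm
  · exact absurd rfl hne

/-- homomorphisms from the glued ladders -/
def wingEquiv (G : SimpleGraph X) (k : ℕ) :
    (wingedLadder k →g G) ≃ {z : Rung k → X × X // Walk G k (fun i => z (Sum.inl i)) ∧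
      ∀ c, Walk G (k - 1) (fun i => z (wing k c i))} where
  toFun φ := ⟨fun r => (φ (r, false), φ (r, true)),
    fun i => ⟨φ.map_rel (Or.inl ⟨(i, false), (i, true), ⟨by simp, Or.inl rfl⟩, rfl, rfl⟩),
      φ.map_rel (Or.inl ⟨(i, false), (i + 1, true), ⟨by simp, Or.inr (Or.inr rfl)⟩, rfl, rfl⟩),
      φ.map_rel (Or.inl ⟨(i + 1, false), (i, true), ⟨by simp, Or.inr (Or.inl rfl)⟩, rfl, rfl⟩)⟩,
    fun c i => ⟨φ.map_rel (Or.inr ⟨c, (i, false), (i, true), ⟨by simp, Or.inl rfl⟩, rfl, rfl⟩),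
      φ.map_rel (Or.inr ⟨c, (i, false), (i + 1, true), ⟨by simp, Or.inr (Or.inr rfl)⟩, rfl, rfl⟩),
      φ.map_rel (Or.inr ⟨c, (i + 1, false), (i, true), ⟨by simp, Or.inr (Or.inl rfl)⟩, rfl,
        rfl⟩)⟩⟩
  invFun z := ⟨fun v => side (z.1 v.1) v.2, by
    rintro u v (⟨a, b, hab, rfl, rfl⟩ | ⟨c, a, b, hab, rfl, rfl⟩)
    · exact walk_adj z.2.1 hab
    · exact walk_adj (z.2.2 c) hab⟩
  left_inv φ := by
    ext ⟨r, a⟩
    cases a <;> rfl
  right_inv z := by
    apply Subtype.ext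
    rfl

open Classical in
theorem clos_walk (G : SimpleGraph X) (k : ℕ) [NeZero k] (w : ZMod k → X × X) :
    clos (adj G) k w = if Walk G k w then 1 else 0 := by
  unfold clos
  have h2 : ∀ i, adj G (w i).1 (w i).2 * (adj G (w i).1 (w (i + 1)).2 *
      adj G (w (i + 1)).1 (w i).2) = if (G.Adj (w i).1 (w i).2 ∧ G.Adj (w i).1 (w (i + 1)).2 ∧
        G.Adj (w (i + 1)).1 (w i).2) then (1 : ℝ) else 0 := by
    intro i
    simp only [adj]
    by_cases a : G.Adj (w i).1 (w i).2 <;> by_cases b : G.Adj (w i).1 (w (i + 1)).2 <;>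
      by_cases c : G.Adj (w (i + 1)).1 (w i).2 <;> simp [a, b, c]
  simp only [h2]
  rw [prod_ite_zero]
  by_cases h : Walk G k w
  · rw [if_pos h, if_pos (fun i _ => h i), prod_const_one]
  · rw [if_neg h, if_neg (fun h' => h fun i => h' i (mem_univ i))]

theorem rung_card (k : ℕ) (hk : 2 ≤ k) : Nat.card (Rung k × Bool) = 6 * k - 8 := by
  haveI : NeZero k := ⟨by omega⟩
  haveI : NeZero (k - 1) := ⟨by omega⟩
  have h1 : Nat.card {i : ZMod (k - 1) // i ≠ 0} = k - 2 := by
    rw [Nat.card_eq_fintype_card, Fintype.card_subtype_compl, Fintype.card_subtype_eq, ZMod.card]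
    omega
  rw [Nat.card_prod, Nat.card_sum, Nat.card_prod, h1, Nat.card_zmod, Nat.card_eq_fintype_card,
    Fintype.card_bool]
  omega

theorem winged_graph (G : SimpleGraph X) [Nonempty X] (k : ℕ) (hk : Odd k) (hk3 : 3 ≤ k) :
    edgeDensity G ^ (9 * k - 8) ≤ homDensity (wingedLadder k) G := by
  classical
  obtain ⟨m, rfl⟩ := hk
  have hm : m ≠ 0 := by omega
  haveI : NeZero (2 * m + 1) := ⟨by omega⟩
  haveI : NeZero (2 * m + 1 - 1) := ⟨by omega⟩
  have hnn : 0 ≤ edgeDensity G := by unfold edgeDensity; positivity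
  have hn : 0 < Fintype.card X := Fintype.card_pos
  have hn0 : (0 : ℝ) < Fintype.card X := by exact_mod_cast hn
  have hcount : (Nat.card (wingedLadder (2 * m + 1) →g G) : ℝ) =
      wingSum (adj G) (2 * m + 1) := by
    rw [Nat.card_congr (wingEquiv G (2 * m + 1)), Nat.card_eq_fintype_card, Fintype.card_subtype,
      card_eq_sum_ones, sum_filter]
    push_cast
    unfold wingSum
    refine sum_congr rfl fun z _ => ?_
    simp only [clos_walk, prod_ite_zero]
    by_cases a : Walk G (2 * m + 1) (fun i => z (Sum.inl i)) <;>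
      by_cases b : ∀ c, Walk G (2 * m + 1 - 1) (fun i => z (wing (2 * m + 1) c i)) <;>
      simp [a, b]
  rcases hnn.lt_or_eq with hpos | hz
  · have hp := adj_sum G
    have hp' : ∑ x, ∑ y, adj G x y = edgeDensity G * (Fintype.card X : ℝ) ^ 2 := by
      rw [← hp]; field_simp
    have key := wing_ineq (W := adj G) (fun x y => by simp only [adj]; split_ifs <;> norm_num)
      (fun x y => by simp only [adj]; split_ifs <;> simp) hpos hn hp' m hm
    unfold homDensity
    rw [hcount, rung_card _ (by omega), Nat.card_eq_fintype_card, le_div_iff₀ (by positivity)]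
    have e1 : 9 * (2 * m + 1) - 8 = 18 * m + 1 := by omega
    have e2 : 6 * (2 * m + 1) - 8 = 12 * m - 2 := by omega
    rw [e1, e2]
    exact key
  · rw [← hz, zero_pow (by omega)]
    unfold homDensity; positivity

end graph

end Vale.Agent.P050.H180
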