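import Vale.Agent.P050.H180.Fin
import Vale.Agent.P050.H148.Graph

set_option linter.all false

/-!
Moebius ladders in graphs and in weighted graphs.
-/

namespace Vale.Agent.P050.H180

open Finset Vale.Agent.P050.H148

section weighted

variable {X : Type*} [Fintype X]

theorem weighted (W : X → X → ℝ) (hs : ∀ x y, W x y = W y x) (h0 : ∀ x y, 0 ≤ W x y)
    (h1 : ∀ x y, W x y ≤ 1) [Nonempty X] {p : ℝ} (hp0 : 0 < p)
    (hp : (∑ x, ∑ y, W x y) / (Fintype.card X : ℝ) ^ 2 = p) (k : ℕ) [NeZero k] (hk : Odd k)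
    (h : (5 ≤ k ∧ 2 / 15 ≤ p ^ 4) ∨ (7 ≤ k ∧ 9 / 20 ≤ p) ∨ (9 ≤ k ∧ 6 ≤ 2 ^ k * p ^ 4)) :
    p ^ (3 * k) ≤ ladderDensity W k := by
  classical
  have hn : 0 < Fintype.card X := Fintype.card_pos
  have hn0 : (0 : ℝ) < Fintype.card X := by exact_mod_cast hn
  have hp' : ∑ x, ∑ y, W x y = p * (Fintype.card X : ℝ) ^ 2 := by
    rw [← hp]; field_simp
  have fin : p ^ (3 * k) * (Fintype.card X : ℝ) ^ (2 * k) ≤ ladSum W k := by
    rcases h with ⟨h5, h215⟩ | ⟨h7, h920⟩ | ⟨h9, h6⟩
    · refine assemble hs h0 h1 hn hp0 hp' k hk (by omega) (q := 2) (η := 1) (c := 5)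
        (by norm_num) (by norm_num) (by norm_num) ?_ ?_ ?_
      · obtain ⟨d, rfl⟩ := Nat.exists_eq_add_of_le h5
        have e1 : 5 + d - 4 = d + 1 := by omega
        have e2 : ((2 : ℝ) / 3) ^ d ≤ 1 := pow_le_one₀ (by norm_num) (by norm_num)
        rw [e1, pow_succ]
        linarith
      · intro κ A B T Y hA hB hT _ _
        linarith
      · intro E hE
        rw [one_mul]
        exact numA E 5 hE le_rfl k h5
    · refine assemble hs h0 h1 hn hp0 hp' k hk (by omega) (q := 7 / 4) (η := 3 / 4)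
        (c := 97 / 20) (by norm_num) (by norm_num) (by norm_num) ?_ ?_ ?_
      · obtain ⟨d, rfl⟩ := Nat.exists_eq_add_of_le h7
        have e1 : 7 + d - 4 = d + 3 := by omega
        have e2 : ((7 : ℝ) / 4 / 3) ^ d ≤ 1 := pow_le_one₀ (by norm_num) (by norm_num)
        have e3 : (9 / 20 : ℝ) ^ 4 ≤ p ^ 4 := pow_le_pow_left₀ (by norm_num) h920 4
        rw [e1, pow_add]
        norm_num at e3 e2 ⊢
        linarith
      · intro κ A B T Y hA hB hT hσ hBT
        have e1 := hσ 0 le_rfl zero_le_one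
        norm_num at e1
        linarith
      · intro E hE
        exact numC E (97 / 20) hE le_rfl k h7
    · refine assemble hs h0 h1 hn hp0 hp' k hk (by omega) (q := 3 / 2) (η := 4 / 9)
        (c := 8 / 3) (by norm_num) (by norm_num) (by norm_num) ?_ ?_ ?_
      · obtain ⟨d, rfl⟩ := Nat.exists_eq_add_of_le h9
        have e1 : 9 + d - 4 = d + 5 := by omega
        rw [e1]
        rw [pow_add] at h6
        have e2 : (3 / 2 / 3 : ℝ) ^ (d + 5) = 1 / (2 ^ d * 32) := by
          have e4 : (3 / 2 / 3 : ℝ) = 1 / 2 := by norm_num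
          rw [e4, div_pow, one_pow, pow_add]; norm_num
        have e3 : (0 : ℝ) < 2 ^ d := by positivity
        rw [e2, div_le_iff₀ (by positivity)]
        norm_num at h6 ⊢
        linarith
      · intro κ A B T Y hA hB hT hσ hBT
        have e1 := hσ (5 / 9) (by norm_num) (by norm_num)
        norm_num at e1
        linarith
      · intro E hE
        exact numB E (8 / 3) hE le_rfl k h9
  unfold ladderDensity
  rw [← ladSum_two, le_div_iff₀ (by positivity)]
  exact fin

end weighted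

section graph

variable {X : Type*} [Fintype X]

theorem graph (G : SimpleGraph X) [Nonempty X] (k : ℕ) (hk : Odd k)
    (h : (5 ≤ k ∧ 2 / 15 ≤ edgeDensity G ^ 4) ∨ (7 ≤ k ∧ 9 / 20 ≤ edgeDensity G) ∨
      (9 ≤ k ∧ 6 ≤ 2 ^ k * edgeDensity G ^ 4)) :
    edgeDensity G ^ (3 * k) ≤ homDensity (moebiusLadder k) G := by
  classical
  haveI : NeZero k := ⟨by rintro rfl; exact absurd hk (by decide)⟩
  rw [hom_ladder]
  have hp := adj_sum G
  have hnn : 0 ≤ edgeDensity G := by
    unfold edgeDensity; positivity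
  have hp0 : 0 < edgeDensity G := by
    rcases hnn.lt_or_eq with h' | h'
    · exact h'
    · rw [← h'] at h; norm_num at h
  refine weighted (adj G) ?_ ?_ ?_ hp0 hp k hk h
  · intro x y; simp only [adj, SimpleGraph.adj_comm]
  · intro x y; simp only [adj]; split_ifs <;> norm_num
  · intro x y; simp only [adj]; split_ifs <;> norm_num

theorem graph5 (G : SimpleGraph X) [Nonempty X] (h : 2 / 15 ≤ edgeDensity G ^ 4) :
    edgeDensity G ^ 15 ≤ homDensity K55minusC10 G := by
  obtain ⟨e⟩ := iso5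
  rw [← homDensity_congr e]
  exact graph G 5 (by decide) (Or.inl ⟨le_refl _, h⟩)

end graph

end Vale.Agent.P050.H180
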