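import Vale.Agent.P050.MathlibUsed

set_option linter.all false

/-!
Hoelder's inequality with natural exponents.
-/

namespace Vale.Agent.P050.H180

open Finset

theorem amgm3 (x y z : ℝ) (hx : 0 ≤ x) (hy : 0 ≤ y) (hz : 0 ≤ z) (a b d : ℕ) (ha : 0 < a) :
    x ^ a * y ^ b * z ^ d ≤ ((a * x + b * y + d * z) / (a + b + d)) ^ (a + b + d) := by
  set n : ℝ := (a : ℝ) + b + d with hn
  have hn0 : 0 < n := by
    have : (0 : ℝ) < a := by exact_mod_cast ha
    have h2 : (0 : ℝ) ≤ b := Nat.cast_nonneg b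
    have h3 : (0 : ℝ) ≤ d := Nat.cast_nonneg d
    linarith
  have h := Real.geom_mean_le_arith_mean3_weighted (w₁ := a / n) (w₂ := b / n) (w₃ := d / n)
    (by positivity) (by positivity) (by positivity) hx hy hz (by
      rw [← add_div, ← add_div, ← hn, div_self hn0.ne'])
  have h1 : (x ^ ((a : ℝ) / n) * y ^ ((b : ℝ) / n) * z ^ ((d : ℝ) / n)) ^ (a + b + d) =
      x ^ a * y ^ b * z ^ d := by
    have hc : ((a + b + d : ℕ) : ℝ) = n := by push_cast; rfl
    have key : ∀ (u : ℝ) (hu : 0 ≤ u) (c : ℕ), (u ^ ((c : ℝ) / n)) ^ (a + b + d) = u ^ c := by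
      intro u hu c
      rw [← Real.rpow_natCast (u ^ ((c : ℝ) / n)), ← Real.rpow_mul hu, hc,
        div_mul_cancel₀ _ hn0.ne', Real.rpow_natCast]
    rw [mul_pow, mul_pow, key x hx, key y hy, key z hz]
  rw [← h1]
  refine pow_le_pow_left₀ (by positivity) ?_ _
  refine h.trans (le_of_eq ?_)
  field_simp

/-- Hoelder's inequality with natural exponents -/
theorem holder_nat {T : Type*} [Fintype T] (c x y z : T → ℝ) (K : ℝ) (hK : 0 ≤ K)
    (hc : ∀ i, 0 ≤ c i) (hx : ∀ i, 0 ≤ x i) (hy : ∀ i, 0 ≤ y i) (hz : ∀ i, 0 ≤ z i) (a b d : ℕ)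
    (ha : 0 < a) (hb : 0 < b) (hd : 0 < d)
    (h : ∀ i, c i ^ (a + b + d) ≤ K * (x i ^ a * y i ^ b * z i ^ d)) :
    (∑ i, c i) ^ (a + b + d) ≤ K * ((∑ i, x i) ^ a * (∑ i, y i) ^ b * (∑ i, z i) ^ d) := by
  set X : ℝ := ∑ i, x i with hX
  set Y : ℝ := ∑ i, y i with hY
  set Z : ℝ := ∑ i, z i with hZ
  have hX0 : 0 ≤ X := sum_nonneg fun i _ => hx i
  have hY0 : 0 ≤ Y := sum_nonneg fun i _ => hy i
  have hZ0 : 0 ≤ Z := sum_nonneg fun i _ => hz i
  have hn : a + b + d ≠ 0 := by omega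
  by_cases h0 : X = 0 ∨ Y = 0 ∨ Z = 0
  · have hc0 : ∀ i, c i = 0 := by
      intro i
      have e1 : x i ^ a * y i ^ b * z i ^ d = 0 := by
        rcases h0 with h0 | h0 | h0
        · rw [(sum_eq_zero_iff_of_nonneg fun i _ => hx i).mp h0 i (mem_univ i),
            zero_pow ha.ne', zero_mul, zero_mul]
        · rw [(sum_eq_zero_iff_of_nonneg fun i _ => hy i).mp h0 i (mem_univ i),
            zero_pow hb.ne', mul_zero, zero_mul]
        · rw [(sum_eq_zero_iff_of_nonneg fun i _ => hz i).mp h0 i (mem_univ i),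
            zero_pow hd.ne', mul_zero]
      have e2 := h i
      rw [e1, mul_zero] at e2
      exact pow_eq_zero_iff hn |>.mp (le_antisymm e2 (pow_nonneg (hc i) _))
    have : ∑ i, c i = 0 := sum_eq_zero fun i _ => hc0 i
    rw [this, zero_pow hn]
    positivity
  · rw [not_or, not_or] at h0
    obtain ⟨h1, h2, h3⟩ := h0
    have hX1 : 0 < X := lt_of_le_of_ne hX0 (Ne.symm h1)
    have hY1 : 0 < Y := lt_of_le_of_ne hY0 (Ne.symm h2)
    have hZ1 : 0 < Z := lt_of_le_of_ne hZ0 (Ne.symm h3)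
    set n : ℝ := (a : ℝ) + b + d with hndef
    have ha' : (0 : ℝ) < a := by exact_mod_cast ha
    have hb' : (0 : ℝ) < b := by exact_mod_cast hb
    have hd' : (0 : ℝ) < d := by exact_mod_cast hd
    have hn0 : 0 < n := by positivity
    have hM : 0 ≤ K * (X ^ a * Y ^ b * Z ^ d) := by positivity
    set M : ℝ := (K * (X ^ a * Y ^ b * Z ^ d)) ^ (1 / n) with hMdef
    have hM0 : 0 ≤ M := Real.rpow_nonneg hM _
    have hMn : M ^ (a + b + d) = K * (X ^ a * Y ^ b * Z ^ d) := by
      have hc' : ((a + b + d : ℕ) : ℝ) = n := by push_cast; rfl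
      rw [hMdef, ← Real.rpow_natCast, ← Real.rpow_mul hM, hc', one_div, inv_mul_cancel₀ hn0.ne',
        Real.rpow_one]
    have hi : ∀ i, c i ≤ M * ((a * (x i / X) + b * (y i / Y) + d * (z i / Z)) / n) := by
      intro i
      have e1 := amgm3 (x i / X) (y i / Y) (z i / Z) (div_nonneg (hx i) hX0)
        (div_nonneg (hy i) hY0) (div_nonneg (hz i) hZ0) a b d ha
      have e2 : c i ^ (a + b + d) ≤
          (M * ((a * (x i / X) + b * (y i / Y) + d * (z i / Z)) / n)) ^ (a + b + d) := by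
        rw [mul_pow, hMn]
        refine (h i).trans ?_
        refine le_trans (le_of_eq ?_) (mul_le_mul_of_nonneg_left e1 hM)
        rw [div_pow, div_pow, div_pow]
        field_simp
      by_contra hcon
      rw [not_le] at hcon
      have e3 : 0 ≤ M * ((a * (x i / X) + b * (y i / Y) + d * (z i / Z)) / n) := by
        have := hx i
        have := hy i
        have := hz i
        positivity
      have := pow_lt_pow_left₀ hcon e3 hn
      linarith
    have hsum : ∑ i, c i ≤ M := by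
      calc ∑ i, c i ≤ ∑ i, M * ((a * (x i / X) + b * (y i / Y) + d * (z i / Z)) / n) :=
            sum_le_sum fun i _ => hi i
        _ = M * ((a * (X / X) + b * (Y / Y) + d * (Z / Z)) / n) := by
            rw [← mul_sum, ← sum_div, sum_add_distrib, sum_add_distrib, ← mul_sum, ← mul_sum,
              ← mul_sum, ← sum_div, ← sum_div, ← sum_div]
        _ = M := by
            rw [div_self hX1.ne', div_self hY1.ne', div_self hZ1.ne', mul_one, mul_one, mul_one,
              ← hndef, div_self hn0.ne', mul_one]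
    calc (∑ i, c i) ^ (a + b + d) ≤ M ^ (a + b + d) :=
          pow_le_pow_left₀ (sum_nonneg fun i _ => hc i) hsum _
      _ = _ := hMn

end Vale.Agent.P050.H180
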