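import Vale.Agent.P050.H180.Cert

set_option linter.all false

/-!
The negative part of the spectrum of a compressed ladder operator.
-/

namespace Vale.Agent.P050.H180

open Finset Vale.Agent.P050.H148

section negd

variable {X : Type*} [Fintype X] [DecidableEq X]
variable {W : X → X → ℝ} {t : X → ℝ} {u : X → X → ℝ} {D : X × X → ℝ}
variable {l : X × X → ℝ} {f : X × X → X × X → ℝ}

theorem neg_le_D (hW : Eig W t u)
    (hL : Eig (fun a b => D a * D b * (W a.1 b.2 * W b.1 a.2)) l f) (p : X × X) :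
    -l p ≤ ∑ i, ∑ j, (∑ a, f p a * (D a * acomb t u i j a)) ^ 2 *
      |t i * t j| := by
  set g : X × X → ℝ := fun a => f p a * D a with hg
  set G : X → X → ℝ := fun i j => ∑ a, g a * (u i a.1 * u j a.2) with hG
  have h1 : l p = ∑ i, ∑ j, t i * t j * (G i j * G j i) := by
    rw [← hL.self p, hG, ← quad_swap hW]
    refine sum_congr rfl fun a _ => sum_congr rfl fun b _ => ?_
    simp only [hg]; ring
  rw [h1, ← sum_neg_distrib]
  refine sum_le_sum fun i _ => ?_
  rw [← sum_neg_distrib]
  refine sum_le_sum fun j _ => ?_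
  by_cases hij : i = j
  · subst hij
    have h2 : 0 ≤ t i * t i * (G i i * G i i) := by
      have := sq_nonneg (t i * G i i); nlinarith
    have h3 : (0 : ℝ) ≤ (∑ a, f p a * (D a * acomb t u i i a)) ^ 2 *
      |t i * t i| := by positivity
    linarith
  · set s : ℝ := sg (t i * t j) with hs
    have h2 : ∑ a, f p a * (D a * acomb t u i j a) =
        (G i j - s * G j i) / 2 := by
      simp only [hG, acomb, if_neg hij]
      rw [mul_sum, ← sum_sub_distrib, sum_div]
      refine sum_congr rfl fun a _ => ?_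
      simp only [hg, ← hs]; ring
    rw [h2]
    have h3 : |t i * t j| * s = t i * t j := abs_mul_sg _
    have h4 : |t i * t j| * s ^ 2 = |t i * t j| := by rw [sg_sq, mul_one]
    have h5 : 0 ≤ |t i * t j| * (G i j + s * G j i) ^ 2 := by positivity
    have h6 : |t i * t j| * (G i j + s * G j i) ^ 2 =
        |t i * t j| * (G i j - s * G j i) ^ 2 + 4 * (|t i * t j| * s) * (G i j * G j i) := by ring
    rw [h6, h3] at h5
    nlinarith

theorem weight_le_D (hD : ∀ a, D a ^ 2 ≤ 1) (hW : Eig W t u)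
    (hL : Eig (fun a b => D a * D b * (W a.1 b.2 * W b.1 a.2)) l f) (p : X × X) :
    ∑ i, ∑ j, (∑ a, f p a * (D a * acomb t u i j a)) ^ 2 ≤ 1 := by
  set g : X × X → ℝ := fun a => f p a * D a with hg
  set G : X → X → ℝ := fun i j => ∑ a, g a * (u i a.1 * u j a.2) with hG
  have h2 : ∀ i j, (∑ a, f p a * (D a * acomb t u i j a)) ^ 2 ≤
      (G i j ^ 2 + G j i ^ 2) / 2 := by
    intro i j
    by_cases hij : i = j
    · subst hij
      simp only [acomb, if_true, mul_zero, sum_const_zero]
      have h := sq_nonneg (G i i)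
      linarith
    · set s : ℝ := sg (t i * t j) with hs
      have h2 : ∑ a, f p a * (D a * acomb t u i j a) =
          (G i j - s * G j i) / 2 := by
        simp only [hG, acomb, if_neg hij]
        rw [mul_sum, ← sum_sub_distrib, sum_div]
        refine sum_congr rfl fun a _ => ?_
        simp only [hg, ← hs]; ring
      rw [h2]
      have hs1 : s ^ 2 = 1 := sg_sq _
      have h3 : 0 ≤ (G i j + s * G j i) ^ 2 := sq_nonneg _
      have h4 : s ^ 2 * G j i ^ 2 = G j i ^ 2 := by rw [hs1, one_mul]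
      nlinarith
  have h3 : ∑ i, ∑ j, (G i j ^ 2 + G j i ^ 2) / 2 = ∑ i, ∑ j, G i j ^ 2 := by
    have : ∑ i, ∑ j, G j i ^ 2 = ∑ i, ∑ j, G i j ^ 2 := sum_comm
    simp only [add_div, sum_add_distrib]
    simp only [← sum_div, this]
    ring
  have h4 : ∑ i, ∑ j, G i j ^ 2 = ∑ a, g a ^ 2 := parseval_pair hW g
  have h5 : ∑ a, g a ^ 2 ≤ ∑ a, f p a * f p a := by
    refine sum_le_sum fun a _ => ?_
    simp only [hg, mul_pow]
    nlinarith [sq_nonneg (f p a), hD a]
  rw [hL.orth, if_pos rfl] at h5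
  calc _ ≤ ∑ i, ∑ j, (G i j ^ 2 + G j i ^ 2) / 2 :=
        sum_le_sum fun i _ => sum_le_sum fun j _ => h2 i j
    _ ≤ 1 := by rw [h3, h4]; exact h5

theorem neg_part_D (hD : ∀ a, D a ^ 2 ≤ 1) (hW : Eig W t u)
    (hL : Eig (fun a b => D a * D b * (W a.1 b.2 * W b.1 a.2)) l f) {k : ℕ} (hk : k ≠ 0) :
    ∑ p, max (-l p) 0 ^ k ≤ 1 / 2 * ∑ i, ∑ j, if i = j then 0 else |t i * t j| ^ k := by
  have h2 : ∀ p, max (-l p) 0 ^ k ≤ ∑ i, ∑ j,
      (∑ a, f p a * (D a * acomb t u i j a)) ^ 2 * |t i * t j| ^ k := by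
    intro p
    have h3 : max (-l p) 0 ≤ ∑ q : X × X,
        (∑ a, f p a * (D a * acomb t u q.1 q.2 a)) ^ 2 * |t q.1 * t q.2| := by
      refine max_le ?_ (sum_nonneg fun q _ => by positivity)
      rw [Fintype.sum_prod_type]
      exact neg_le_D hW hL p
    have h4 := pow_le_pow_left₀ (le_max_right _ _) h3 k
    refine h4.trans ?_
    refine (jensen_sub _ _ (fun q => sq_nonneg _) ?_ (fun q => abs_nonneg _) hk).trans ?_
    · rw [Fintype.sum_prod_type]
      exact weight_le_D hD hW hL p
    · rw [Fintype.sum_prod_type]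
  calc ∑ p, max (-l p) 0 ^ k ≤ ∑ p, ∑ i, ∑ j,
      (∑ a, f p a * (D a * acomb t u i j a)) ^ 2 * |t i * t j| ^ k :=
        sum_le_sum fun p _ => h2 p
    _ = ∑ i, ∑ j, (∑ p, (∑ a, f p a * (D a * acomb t u i j a)) ^ 2) *
          |t i * t j| ^ k := by
        rw [sum_comm]
        refine sum_congr rfl fun i _ => ?_
        rw [sum_comm]
        refine sum_congr rfl fun j _ => ?_
        rw [sum_mul]
    _ ≤ ∑ i, ∑ j, (if i = j then 0 else 1 / 2) * |t i * t j| ^ k := by
        refine sum_le_sum fun i _ => sum_le_sum fun j _ => ?_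
        refine mul_le_mul_of_nonneg_right ?_ (by positivity)
        rw [hL.parseval]
        refine le_trans ?_ (acomb_sq hW i j)
        refine sum_le_sum fun a _ => ?_
        rw [mul_pow]
        nlinarith [sq_nonneg (acomb t u i j a), hD a]
    _ = 1 / 2 * ∑ i, ∑ j, if i = j then 0 else |t i * t j| ^ k := by
        rw [mul_sum]
        refine sum_congr rfl fun i _ => ?_
        rw [mul_sum]
        refine sum_congr rfl fun j _ => ?_
        split_ifs <;> ring

end negd

end Vale.Agent.P050.H180
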