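import Vale.Agent.P050.H180.Cert
import Vale.Agent.P050.H148.Main

set_option linter.all false

/-!
Closed walks of odd length of the ladder operator.
-/

namespace Vale.Agent.P050.H180

open Finset Vale.Agent.P050.H148

section pw

variable {X : Type*} [Fintype X] [DecidableEq X] {W : X → X → ℝ}
variable {l : X × X → ℝ} {f : X × X → X × X → ℝ}

/-- powers of the ladder operator -/
noncomputable def pw (W : X → X → ℝ) : ℕ → X × X → X × X → ℝ
  | 0 => fun a b => if a = b then 1 else 0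
  | m + 1 => fun a b => ∑ c, pw W m a c * lad W c b

theorem pw_nonneg (h0 : ∀ x y, 0 ≤ W x y) (m : ℕ) (a b : X × X) : 0 ≤ pw W m a b := by
  induction m generalizing b with
  | zero => simp only [pw]; split_ifs <;> norm_num
  | succ m ih =>
    simp only [pw]
    exact sum_nonneg fun c _ => mul_nonneg (ih c) (mul_nonneg (mul_nonneg (Real.sqrt_nonneg _)
      (Real.sqrt_nonneg _)) (mul_nonneg (h0 _ _) (h0 _ _)))

theorem pw_eig (hL : Eig (lad W) l f) (m : ℕ) (a b : X × X) :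
    pw W m a b = ∑ i, l i ^ m * (f i a * f i b) := by
  induction m generalizing b with
  | zero => simp only [pw, pow_zero, one_mul, hL.comp]
  | succ m ih =>
    simp only [pw, ih, sum_mul]
    rw [sum_comm]
    refine sum_congr rfl fun i _ => ?_
    have h1 : ∀ c, l i ^ m * (f i a * f i c) * lad W c b =
        l i ^ m * f i a * (lad W b c * f i c) := fun c => by rw [lad_symm W c b]; ring
    simp only [h1]
    rw [← mul_sum, hL.apply]; ring

theorem pw_coef (hL : Eig (lad W) l f) (m : ℕ) (a : X × X) (i : X × X) :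
    ∑ e, f i e * pw W m a e = l i ^ m * f i a := by
  have h1 : ∀ e, f i e * pw W m a e = ∑ j, l j ^ m * f j a * (f j e * f i e) := by
    intro e
    rw [pw_eig hL, mul_sum]
    exact sum_congr rfl fun j _ => by ring
  simp only [h1]
  rw [sum_comm]
  simp only [← mul_sum, hL.orth]
  simp

/-- the quadratic form of the ladder operator on a nonnegative function -/
theorem q_ineq (h0 : ∀ x y, 0 ≤ W x y) (h : X → X → ℝ) (hh : ∀ x y, 0 ≤ h x y) :
    (∑ x, ∑ y, W x y * Real.sqrt (h x y)) ^ 4 ≤ (Fintype.card X : ℝ) ^ 4 *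
      ∑ x, ∑ x', ∑ y, ∑ y', om W x x' y y' * (h x y * h x' y') := by
  have h4 := fourcycle W (fun x y => Real.sqrt (h x y))
  have e1 : ∑ x, ∑ y, W x y * |Real.sqrt (h x y)| = ∑ x, ∑ y, W x y * Real.sqrt (h x y) :=
    sum_congr rfl fun x _ => sum_congr rfl fun y _ => by rw [abs_of_nonneg (Real.sqrt_nonneg _)]
  rw [e1] at h4
  refine h4.trans (mul_le_mul_of_nonneg_left ?_ (by positivity))
  have hom : ∀ x x' y y', 0 ≤ om W x x' y y' := fun x x' y y' => by
    have := h0 x y; have := h0 x' y'; have := h0 x y'; have := h0 x' y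
    unfold om; positivity
  have q1 : ∑ x, ∑ x', ∑ y, ∑ y', om W x x' y y' * (h x y' * h x' y) =
      ∑ x, ∑ x', ∑ y, ∑ y', om W x x' y y' * (h x y * h x' y') := by
    rw [swap34]
    refine sum_congr rfl fun x _ => sum_congr rfl fun x' _ => sum_congr rfl fun y _ =>
      sum_congr rfl fun y' _ => ?_
    unfold om; ring
  have e2 : ∀ x x' y y', om W x x' y y' * |Real.sqrt (h x y) * Real.sqrt (h x' y') *
      (Real.sqrt (h x y') * Real.sqrt (h x' y))| ≤ 1 / 2 * (om W x x' y y' *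
        (h x y * h x' y')) + 1 / 2 * (om W x x' y y' * (h x y' * h x' y)) := by
    intro x x' y y'
    rw [abs_of_nonneg (by positivity)]
    have a1 := Real.sq_sqrt (hh x y)
    have a2 := Real.sq_sqrt (hh x' y')
    have a3 := Real.sq_sqrt (hh x y')
    have a4 := Real.sq_sqrt (hh x' y)
    have e3 : Real.sqrt (h x y) * Real.sqrt (h x' y') *
        (Real.sqrt (h x y') * Real.sqrt (h x' y)) ≤
        1 / 2 * (h x y * h x' y') + 1 / 2 * (h x y' * h x' y) := by
      rw [← a1, ← a2, ← a3, ← a4]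
      simp only [Real.sqrt_sq (Real.sqrt_nonneg _)]
      nlinarith [sq_nonneg (Real.sqrt (h x y) * Real.sqrt (h x' y') -
        Real.sqrt (h x y') * Real.sqrt (h x' y))]
    have := mul_le_mul_of_nonneg_left e3 (hom x x' y y')
    linarith
  refine (sum_le_sum fun x _ => sum_le_sum fun x' _ => sum_le_sum fun y _ =>
    sum_le_sum fun y' _ => e2 x x' y y').trans ?_
  simp only [sum_add_distrib, ← mul_sum, q1]
  linarith

/-- Hoelder's inequality between the exponents `1/2`, `1` and `2` -/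
theorem holder3 {T : Type*} [Fintype T] (w s : T → ℝ) (hw : ∀ a, 0 ≤ w a) (hs : ∀ a, 0 ≤ s a) :
    (∑ a, w a * s a ^ 2) ^ 3 ≤ (∑ a, w a * s a) ^ 2 * ∑ a, w a * s a ^ 4 := by
  set A : ℝ := ∑ a, w a * s a with hA
  set B : ℝ := ∑ a, w a * s a ^ 2 with hB
  set C : ℝ := ∑ a, w a * s a ^ 3 with hC
  set D : ℝ := ∑ a, w a * s a ^ 4 with hD
  have cs : ∀ u v : T → ℝ, (∀ a, 0 ≤ u a) → (∀ a, 0 ≤ v a) →
      (∑ a, w a * (u a * v a)) ^ 2 ≤ (∑ a, w a * u a ^ 2) * ∑ a, w a * v a ^ 2 := by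
    intro u v hu hv
    have := sum_mul_sq_le_sq_mul_sq univ (fun a => Real.sqrt (w a) * u a)
      (fun a => Real.sqrt (w a) * v a)
    have e : ∀ a, Real.sqrt (w a) * u a * (Real.sqrt (w a) * v a) = w a * (u a * v a) := by
      intro a
      calc _ = Real.sqrt (w a) * Real.sqrt (w a) * (u a * v a) := by ring
        _ = _ := by rw [Real.mul_self_sqrt (hw a)]
    simp only [e, mul_pow, Real.sq_sqrt (hw _)] at this
    exact this
  have hA0 : 0 ≤ A := sum_nonneg fun a _ => mul_nonneg (hw a) (hs a)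
  have hB0 : 0 ≤ B := sum_nonneg fun a _ => mul_nonneg (hw a) (pow_nonneg (hs a) 2)
  have hC0 : 0 ≤ C := sum_nonneg fun a _ => mul_nonneg (hw a) (pow_nonneg (hs a) 3)
  have hD0 : 0 ≤ D := sum_nonneg fun a _ => mul_nonneg (hw a) (pow_nonneg (hs a) 4)
  have h1 : B ^ 2 ≤ A * C := by
    have := cs (fun a => Real.sqrt (s a)) (fun a => Real.sqrt (s a) * s a)
      (fun a => Real.sqrt_nonneg _) (fun a => mul_nonneg (Real.sqrt_nonneg _) (hs a))
    have e1 : ∀ a, Real.sqrt (s a) * (Real.sqrt (s a) * s a) = s a ^ 2 := by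
      intro a; rw [← mul_assoc, Real.mul_self_sqrt (hs a)]; ring
    have e2 : ∀ a, (Real.sqrt (s a) * s a) ^ 2 = s a ^ 3 := by
      intro a; rw [mul_pow, Real.sq_sqrt (hs a)]; ring
    simp only [e1, e2, Real.sq_sqrt (hs _)] at this
    exact this
  have h2 : C ^ 2 ≤ B * D := by
    have := cs s (fun a => s a ^ 2) hs (fun a => pow_nonneg (hs a) 2)
    have e1 : ∀ a, s a * s a ^ 2 = s a ^ 3 := fun a => by ring
    have e2 : ∀ a, (s a ^ 2) ^ 2 = s a ^ 4 := fun a => by ring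
    simp only [e1, e2] at this
    exact this
  have h3 : B ^ 4 ≤ A ^ 2 * (B * D) := by
    calc B ^ 4 = (B ^ 2) ^ 2 := by ring
      _ ≤ (A * C) ^ 2 := pow_le_pow_left₀ (sq_nonneg _) h1 2
      _ = A ^ 2 * C ^ 2 := by ring
      _ ≤ A ^ 2 * (B * D) := mul_le_mul_of_nonneg_left h2 (sq_nonneg _)
  rcases hB0.lt_or_eq with hB' | hB'
  · have : B * B ^ 3 ≤ B * (A ^ 2 * D) := by linarith [h3, (by ring : B * B ^ 3 = B ^ 4),
      (by ring : B * (A ^ 2 * D) = A ^ 2 * (B * D))]
    exact le_of_mul_le_mul_left this hB'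
  · rw [← hB']
    have : 0 ≤ A ^ 2 * D := by positivity
    simpa using this

/-- the rooted inequality between odd closed walks, even closed walks and open walks -/
theorem rooted (h0 : ∀ x y, 0 ≤ W x y) (hL : Eig (lad W) l f) (j : ℕ) (y : X × X) :
    (∑ z : X × X, pw W (j + 1) y z * Real.sqrt (W z.1 z.2)) ^ 6 ≤ (Fintype.card X : ℝ) ^ 4 *
      (∑ i, l i ^ (2 * (j + 1) + 1) * f i y ^ 2) * (∑ i, l i ^ (2 * (j + 1)) * f i y ^ 2) ^ 2 := by
  set χ : X × X → ℝ := pw W (j + 1) y with hχ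
  have hχ0 : ∀ z, 0 ≤ χ z := fun z => pw_nonneg h0 _ _ _
  have hχz : ∀ z : X × X, W z.1 z.2 = 0 → χ z = 0 := by
    intro z hz
    simp only [hχ, pw]
    refine sum_eq_zero fun c _ => ?_
    unfold lad
    rw [hz, Real.sqrt_zero]; ring
  set h : X → X → ℝ := fun x y => χ (x, y) / Real.sqrt (W x y) with hh
  have hh0 : ∀ x y, 0 ≤ h x y := fun x y => div_nonneg (hχ0 _) (Real.sqrt_nonneg _)
  have key : ∀ x y, W x y * h x y = Real.sqrt (W x y) * χ (x, y) := by
    intro x y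
    rcases (h0 x y).lt_or_eq with hpos | hz
    · have hs : Real.sqrt (W x y) ≠ 0 := (Real.sqrt_pos.mpr hpos).ne'
      simp only [hh]
      rw [← mul_div_assoc, div_eq_iff hs]
      nth_rewrite 1 [← Real.mul_self_sqrt (h0 x y)]
      ring
    · rw [← hz]; simp
  have key2 : ∀ x y, W x y * h x y ^ 2 = χ (x, y) ^ 2 := by
    intro x y
    rcases (h0 x y).lt_or_eq with hpos | hz
    · simp only [hh, div_pow, Real.sq_sqrt (h0 x y)]
      rw [mul_div_cancel₀ _ hpos.ne']
    · rw [hχz (x, y) hz.symm, ← hz]; simp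
  have hQ : ∑ x, ∑ x', ∑ y, ∑ y', om W x x' y y' * (h x y * h x' y') =
      ∑ i, l i ^ (2 * (j + 1) + 1) * f i y ^ 2 := by
    have e1 : ∑ x, ∑ x', ∑ y, ∑ y', om W x x' y y' * (h x y * h x' y') =
        ∑ a, ∑ b, χ a * lad W a b * χ b := by
      rw [prod4]
      refine sum_congr rfl fun x _ => sum_congr rfl fun x' _ => sum_congr rfl fun y _ =>
        sum_congr rfl fun y' _ => ?_
      unfold om lad
      calc _ = (W x y * h x y) * (W x' y' * h x' y') * (W x y' * W x' y) := by ring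
        _ = _ := by rw [key, key]; ring
    rw [e1, hL.quad]
    refine sum_congr rfl fun i _ => ?_
    rw [hχ, pw_coef hL, mul_pow, ← pow_mul]
    ring
  have hq : ∑ x, ∑ y', W x y' * h x y' ^ 2 = ∑ i, l i ^ (2 * (j + 1)) * f i y ^ 2 := by
    have e1 : ∑ x, ∑ y', W x y' * h x y' ^ 2 = ∑ a, χ a ^ 2 := by
      rw [Fintype.sum_prod_type]
      exact sum_congr rfl fun x _ => sum_congr rfl fun y' _ => key2 x y'
    rw [e1, ← hL.parseval]
    refine sum_congr rfl fun i _ => ?_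
    rw [hχ, pw_coef hL, mul_pow, ← pow_mul]
    ring
  have hc : ∑ x, ∑ y', W x y' * h x y' = ∑ z : X × X, χ z * Real.sqrt (W z.1 z.2) := by
    rw [Fintype.sum_prod_type]
    exact sum_congr rfl fun x _ => sum_congr rfl fun y' _ => by rw [key]; ring
  have h1 := q_ineq h0 h hh0
  have h2 := holder3 (fun a : X × X => W a.1 a.2) (fun a => Real.sqrt (h a.1 a.2))
    (fun a => h0 _ _) (fun a => Real.sqrt_nonneg _)
  have e2 : ∀ a : X × X, Real.sqrt (h a.1 a.2) ^ 2 = h a.1 a.2 := fun a => Real.sq_sqrt (hh0 _ _)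
  have e4 : ∀ a : X × X, Real.sqrt (h a.1 a.2) ^ 4 = h a.1 a.2 ^ 2 := fun a => by
    calc _ = (Real.sqrt (h a.1 a.2) ^ 2) ^ 2 := by ring
      _ = _ := by rw [e2]
  simp only [e2, e4] at h2
  simp only [Fintype.sum_prod_type] at h2
  rw [hc, hq] at h2
  rw [hQ] at h1
  set B : ℝ := ∑ z : X × X, χ z * Real.sqrt (W z.1 z.2) with hB
  set A : ℝ := ∑ x, ∑ y', W x y' * Real.sqrt (h x y') with hA
  set q : ℝ := ∑ i, l i ^ (2 * (j + 1)) * f i y ^ 2 with hqdef
  have hB0 : 0 ≤ B := sum_nonneg fun z _ => mul_nonneg (hχ0 z) (Real.sqrt_nonneg _)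
  calc B ^ 6 = (B ^ 3) ^ 2 := by ring
    _ ≤ (A ^ 2 * q) ^ 2 := pow_le_pow_left₀ (pow_nonneg hB0 3) h2 2
    _ = A ^ 4 * q ^ 2 := by ring
    _ ≤ _ := mul_le_mul_of_nonneg_right h1 (sq_nonneg _)

end pw

end Vale.Agent.P050.H180
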