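import Vale.Agent.P050.H180.Odd

set_option linter.all false

/-!
Closed walks of odd length, closed walks of even length and open walks.
-/

namespace Vale.Agent.P050.H180

open Finset Vale.Agent.P050.H148

section sums

theorem holder_sum {T : Type*} [Fintype T] (c A q : T → ℝ) (K0 : ℝ) (hK : 0 ≤ K0)
    (hc : ∀ y, 0 ≤ c y) (hA : ∀ y, 0 ≤ A y) (hq : ∀ y, 0 ≤ q y)
    (h : ∀ y, c y ^ 6 ≤ K0 * A y * q y ^ 2) :
    (∑ y, c y ^ 2) ^ 3 ≤ K0 * (∑ y, A y) * (∑ y, q y) ^ 2 := by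
  set a : ℝ := ∑ y, A y with ha
  set b : ℝ := ∑ y, q y with hb
  have ha0 : 0 ≤ a := sum_nonneg fun y _ => hA y
  have hb0 : 0 ≤ b := sum_nonneg fun y _ => hq y
  by_cases hz : a = 0 ∨ b = 0
  · have hc0 : ∀ y, c y = 0 := by
      intro y
      have e1 : A y = 0 ∨ q y = 0 := by
        rcases hz with hz | hz
        · exact Or.inl ((sum_eq_zero_iff_of_nonneg fun y _ => hA y).mp hz y (mem_univ y))
        · exact Or.inr ((sum_eq_zero_iff_of_nonneg fun y _ => hq y).mp hz y (mem_univ y))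
      have e2 : c y ^ 6 ≤ 0 := by
        refine (h y).trans (le_of_eq ?_)
        rcases e1 with e1 | e1 <;> rw [e1] <;> ring
      have e3 : c y ^ 6 = 0 := le_antisymm e2 (pow_nonneg (hc y) 6)
      exact pow_eq_zero_iff (by norm_num) |>.mp e3
    have : ∑ y, c y ^ 2 = 0 := sum_eq_zero fun y _ => by rw [hc0]; ring
    rw [this]
    have : 0 ≤ K0 * a * b ^ 2 := by positivity
    simpa using this
  · rw [not_or] at hz
    have ha1 : 0 < a := lt_of_le_of_ne ha0 (Ne.symm hz.1)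
    have hb1 : 0 < b := lt_of_le_of_ne hb0 (Ne.symm hz.2)
    set K : ℝ := (K0 * a * b ^ 2) ^ (1 / 3 : ℝ) with hKdef
    have hKnn : 0 ≤ K0 * a * b ^ 2 := by positivity
    have hK3 : K ^ 3 = K0 * a * b ^ 2 := by
      rw [hKdef, ← Real.rpow_natCast, ← Real.rpow_mul hKnn]; norm_num
    have hK0 : 0 ≤ K := Real.rpow_nonneg hKnn _
    have hy : ∀ y, c y ^ 2 ≤ K * ((A y / a + 2 * (q y / b)) / 3) := by
      intro y
      set α : ℝ := A y / a with hα
      set β : ℝ := q y / b with hβ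
      have hα0 : 0 ≤ α := div_nonneg (hA y) ha0
      have hβ0 : 0 ≤ β := div_nonneg (hq y) hb0
      have e1 : c y ^ 6 ≤ K ^ 3 * (α * β ^ 2) := by
        refine (h y).trans (le_of_eq ?_)
        rw [hK3, hα, hβ]; field_simp
      have e2 : α * β ^ 2 ≤ ((α + 2 * β) / 3) ^ 3 := by
        have e3 : ((α + 2 * β) / 3) ^ 3 - α * β ^ 2 = (α - β) ^ 2 * (α + 8 * β) / 27 := by ring
        have e4 : 0 ≤ (α - β) ^ 2 * (α + 8 * β) / 27 := by positivity
        linarith
      have e5 : (c y ^ 2) ^ 3 ≤ (K * ((α + 2 * β) / 3)) ^ 3 := by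
        calc (c y ^ 2) ^ 3 = c y ^ 6 := by ring
          _ ≤ K ^ 3 * (α * β ^ 2) := e1
          _ ≤ K ^ 3 * ((α + 2 * β) / 3) ^ 3 := mul_le_mul_of_nonneg_left e2 (pow_nonneg hK0 3)
          _ = _ := by ring
      by_contra hcon
      rw [not_le] at hcon
      have e6 : 0 ≤ K * ((α + 2 * β) / 3) := by positivity
      have := pow_lt_pow_left₀ hcon e6 (by norm_num : 3 ≠ 0)
      linarith
    have hsum : ∑ y, c y ^ 2 ≤ K := by
      calc ∑ y, c y ^ 2 ≤ ∑ y, K * ((A y / a + 2 * (q y / b)) / 3) := sum_le_sum fun y _ => hy y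
        _ = K * ((a / a + 2 * (b / b)) / 3) := by
            rw [← mul_sum, ← sum_div, sum_add_distrib, ← mul_sum, ← sum_div, ← sum_div]
        _ = K := by rw [div_self ha1.ne', div_self hb1.ne']; ring
    calc (∑ y, c y ^ 2) ^ 3 ≤ K ^ 3 :=
          pow_le_pow_left₀ (sum_nonneg fun y _ => sq_nonneg _) hsum 3
      _ = _ := hK3

/-- Jensen's inequality for an even power -/
theorem jensen_even {T : Type*} [Fintype T] (w l : T → ℝ) (hw : ∀ i, 0 ≤ w i) (m : ℕ)
    (hm : m ≠ 0) : (∑ i, w i * l i) ^ (2 * m) ≤ (∑ i, w i) ^ (2 * m - 1) *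
      ∑ i, w i * l i ^ (2 * m) := by
  set S : ℝ := ∑ i, w i with hS
  have hS0 : 0 ≤ S := sum_nonneg fun i _ => hw i
  rcases hS0.lt_or_eq with hpos | hz
  · have h1 := Real.pow_arith_mean_le_arith_mean_pow_of_even univ (fun i => w i / S) l
      (fun i _ => div_nonneg (hw i) hS0) (by rw [← sum_div]; exact div_self hpos.ne')
      (n := 2 * m) ⟨m, by ring⟩
    have e1 : ∑ i, w i / S * l i = (∑ i, w i * l i) / S := by
      rw [sum_div]; exact sum_congr rfl fun i _ => by ring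
    have e2 : ∑ i, w i / S * l i ^ (2 * m) = (∑ i, w i * l i ^ (2 * m)) / S := by
      rw [sum_div]; exact sum_congr rfl fun i _ => by ring
    simp only [e1, e2, div_pow] at h1
    rw [div_le_div_iff₀ (by positivity) hpos] at h1
    have e3 : S ^ (2 * m) = S * S ^ (2 * m - 1) := by
      rw [← pow_succ']; congr 1; omega
    rw [e3] at h1
    have h2 : S * (∑ i, w i * l i) ^ (2 * m) ≤
        S * (S ^ (2 * m - 1) * ∑ i, w i * l i ^ (2 * m)) := by linarith
    exact le_of_mul_le_mul_left h2 hpos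
  · have hw0 : ∀ i, w i = 0 := fun i =>
      (sum_eq_zero_iff_of_nonneg fun i _ => hw i).mp hz.symm i (mem_univ i)
    have e1 : ∑ i, w i * l i = 0 := sum_eq_zero fun i _ => by rw [hw0]; ring
    have e2 : ∑ i, w i * l i ^ (2 * m) = 0 := sum_eq_zero fun i _ => by rw [hw0]; ring
    rw [e1, e2, mul_zero, zero_pow (by omega)]

/-- Chebyshev's inequality for even moments -/
theorem cheb {T : Type*} [Fintype T] (w l : T → ℝ) (hw : ∀ i, 0 ≤ w i) (m : ℕ) :
    (∑ i, w i * l i ^ 2) * (∑ i, w i * l i ^ (2 * m)) ≤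
      (∑ i, w i) * ∑ i, w i * l i ^ (2 * (m + 1)) := by
  have h1 : 0 ≤ ∑ i, ∑ j, w i * w j * ((l i ^ 2 - l j ^ 2) * (l i ^ (2 * m) - l j ^ (2 * m))) := by
    refine sum_nonneg fun i _ => sum_nonneg fun j _ => mul_nonneg (mul_nonneg (hw i) (hw j)) ?_
    rw [pow_mul, pow_mul]
    rcases le_total (l i ^ 2) (l j ^ 2) with h | h
    · exact mul_nonneg_of_nonpos_of_nonpos (sub_nonpos.mpr h)
        (sub_nonpos.mpr (pow_le_pow_left₀ (sq_nonneg _) h m))
    · exact mul_nonneg (sub_nonneg.mpr h)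
        (sub_nonneg.mpr (pow_le_pow_left₀ (sq_nonneg _) h m))
  have h2 : ∀ i j, w i * w j * ((l i ^ 2 - l j ^ 2) * (l i ^ (2 * m) - l j ^ (2 * m))) =
      (w i * l i ^ (2 * (m + 1))) * w j + w i * (w j * l j ^ (2 * (m + 1))) -
      (w i * l i ^ 2) * (w j * l j ^ (2 * m)) - (w i * l i ^ (2 * m)) * (w j * l j ^ 2) := by
    intro i j; ring
  simp only [h2, sum_add_distrib, sum_sub_distrib, ← mul_sum, ← sum_mul] at h1
  linarith

/-- moments of a measure on the line -/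
theorem moments {T : Type*} [Fintype T] (w l : T → ℝ) (hw : ∀ i, 0 ≤ w i) (j : ℕ) (K : ℝ)
    (hK : 0 ≤ K) (hS0 : 0 < ∑ i, w i) (hS1 : 0 < ∑ i, w i * l i)
    (hkey : (∑ i, w i * l i ^ (2 * (j + 1))) ^ 3 ≤ K * (∑ i, w i * l i ^ (2 * j + 1)) ^ 2) :
    (∑ i, w i * l i) ^ (2 * (j + 1) + 2) ≤ (∑ i, w i) ^ (2 * (j + 1) + 1) * K := by
  have hcs : (∑ i, w i * l i ^ (2 * j + 1)) ^ 2 ≤
      (∑ i, w i * l i ^ (2 * (j + 1))) * ∑ i, w i * l i ^ (2 * j) := by
    have := sum_mul_sq_le_sq_mul_sq univ (fun i => Real.sqrt (w i) * l i ^ (j + 1))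
      (fun i => Real.sqrt (w i) * l i ^ j)
    have e : ∀ i, Real.sqrt (w i) * l i ^ (j + 1) * (Real.sqrt (w i) * l i ^ j) =
        w i * l i ^ (2 * j + 1) := by
      intro i
      calc _ = Real.sqrt (w i) * Real.sqrt (w i) * (l i ^ (j + 1) * l i ^ j) := by ring
        _ = _ := by rw [Real.mul_self_sqrt (hw i), ← pow_add]; congr 2; ring
    have e' : ∀ r : ℕ, ∀ i, (Real.sqrt (w i) * l i ^ r) ^ 2 = w i * l i ^ (2 * r) := by
      intro r i
      rw [mul_pow, Real.sq_sqrt (hw i), ← pow_mul, mul_comm r 2]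
    simp only [e, e'] at this
    exact this
  have h7 := jensen_even w l hw (j + 1) (by omega)
  have e2 : 2 * (j + 1) - 1 = 2 * j + 1 := by omega
  rw [e2] at h7
  have h2 := jensen_even w l hw 1 one_ne_zero
  have hch := cheb w l hw j
  have hnn : 0 ≤ ∑ i, w i * l i ^ (2 * j) := sum_nonneg fun i _ =>
    mul_nonneg (hw i) (by rw [pow_mul]; positivity)
  norm_num at h2
  revert hkey hcs h7 h2 hch hnn
  generalize ∑ i, w i * l i ^ (2 * (j + 1)) = A
  generalize ∑ i, w i * l i ^ (2 * j + 1) = B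
  generalize ∑ i, w i * l i ^ (2 * j) = C
  generalize ∑ i, w i * l i ^ 2 = D
  generalize ∑ i, w i * l i = S1 at hS1 ⊢
  generalize ∑ i, w i = S0 at hS0 ⊢
  intro hkey hcs h7 hch hnn h2
  have hA : 0 < A := by
    have e3 : 0 < S0 ^ (2 * j + 1) * A := lt_of_lt_of_le (by positivity) h7
    exact pos_of_mul_pos_right e3 (by positivity)
  have h5 : A ^ 2 ≤ K * C := by
    have e1 : A ^ 3 ≤ K * (A * C) := hkey.trans (mul_le_mul_of_nonneg_left hcs hK)
    have e3 : A * A ^ 2 ≤ A * (K * C) := by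
      linarith [e1, (by ring : A * A ^ 2 = A ^ 3), (by ring : A * (K * C) = K * (A * C))]
    exact le_of_mul_le_mul_left e3 hA
  have hC : 0 < C := by
    have e1 : 0 < K * C := lt_of_lt_of_le (by positivity) h5
    exact pos_of_mul_pos_right e1 hK
  have h6 : S1 ^ 2 * C ≤ S0 ^ 2 * A := by
    calc S1 ^ 2 * C ≤ S0 * D * C := mul_le_mul_of_nonneg_right h2 hnn
      _ = S0 * (D * C) := by ring
      _ ≤ S0 * (S0 * A) := mul_le_mul_of_nonneg_left hch hS0.le
      _ = _ := by ring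
  have h8 : S1 ^ (2 * (j + 1) + 2) * C ≤ S0 ^ (2 * (j + 1) + 1) * K * C := by
    calc S1 ^ (2 * (j + 1) + 2) * C = S1 ^ (2 * (j + 1)) * (S1 ^ 2 * C) := by ring
      _ ≤ (S0 ^ (2 * j + 1) * A) * (S0 ^ 2 * A) :=
          mul_le_mul h7 h6 (by positivity) (by positivity)
      _ = S0 ^ (2 * (j + 1) + 1) * A ^ 2 := by ring
      _ ≤ S0 ^ (2 * (j + 1) + 1) * (K * C) := mul_le_mul_of_nonneg_left h5 (by positivity)
      _ = _ := by ring
  exact le_of_mul_le_mul_right h8 hC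

end sums

section global

variable {X : Type*} [Fintype X] [DecidableEq X] {W : X → X → ℝ}
variable {l : X × X → ℝ} {f : X × X → X × X → ℝ}

/-- the weights of the spectral measure of the root of the weight -/
noncomputable def nu (W : X → X → ℝ) (f : X × X → X × X → ℝ) (i : X × X) : ℝ :=
  (∑ z : X × X, f i z * Real.sqrt (W z.1 z.2)) ^ 2

theorem nu_nonneg (i : X × X) : 0 ≤ nu W f i := sq_nonneg _

theorem nu_sum (h0 : ∀ x y, 0 ≤ W x y) (hL : Eig (lad W) l f) :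
    ∑ i, nu W f i = ∑ a : X × X, W a.1 a.2 := by
  unfold nu
  rw [hL.parseval]
  exact sum_congr rfl fun a _ => Real.sq_sqrt (h0 _ _)

theorem nu_one (h0 : ∀ x y, 0 ≤ W x y) (hL : Eig (lad W) l f) :
    ∑ i, nu W f i * l i = ∑ a : X × X, W a.1 a.2 * rr W a := by
  have h1 := hL.quad (fun a => Real.sqrt (W a.1 a.2))
  have h2 : ∑ i, nu W f i * l i = ∑ i, l i * (∑ e, f i e * Real.sqrt (W e.1 e.2)) ^ 2 :=
    sum_congr rfl fun i _ => by unfold nu; ring
  rw [h2, ← h1]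
  have h3 := om_row W (fun _ _ => 1)
  simp only [mul_one] at h3
  rw [prod4, Fintype.sum_prod_type, ← h3]
  refine sum_congr rfl fun x _ => sum_congr rfl fun x' _ => sum_congr rfl fun y _ =>
      sum_congr rfl fun y' _ => ?_
  simp only [lad, om]
  have e1 := Real.mul_self_sqrt (h0 x y)
  have e2 := Real.mul_self_sqrt (h0 x' y')
  calc _ = (Real.sqrt (W x y) * Real.sqrt (W x y)) * (Real.sqrt (W x' y') * Real.sqrt (W x' y')) *
          (W x y' * W x' y) := by ring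
    _ = _ := by rw [e1, e2]

theorem open_sq (hL : Eig (lad W) l f) (m : ℕ) :
    ∑ y, (∑ z : X × X, pw W m y z * Real.sqrt (W z.1 z.2)) ^ 2 =
      ∑ i, nu W f i * l i ^ (2 * m) := by
  rw [← hL.parseval]
  refine sum_congr rfl fun i _ => ?_
  have h1 : ∑ e, f i e * ∑ z : X × X, pw W m e z * Real.sqrt (W z.1 z.2) =
      l i ^ m * ∑ z : X × X, f i z * Real.sqrt (W z.1 z.2) := by
    have e1 : ∀ e, f i e * ∑ z : X × X, pw W m e z * Real.sqrt (W z.1 z.2) =
        ∑ z : X × X, (f i e * pw W m e z) * Real.sqrt (W z.1 z.2) := by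
      intro e; rw [mul_sum]; exact sum_congr rfl fun z _ => by ring
    simp only [e1]
    rw [sum_comm, mul_sum]
    refine sum_congr rfl fun z _ => ?_
    rw [← sum_mul]
    have e2 : ∀ e, f i e * pw W m e z = f i e * pw W m z e := by
      intro e
      rw [pw_eig hL, pw_eig hL]
      congr 1
      exact sum_congr rfl fun j _ => by ring
    simp only [e2]
    rw [pw_coef hL]; ring
  rw [h1, mul_pow, ← pow_mul]
  unfold nu; ring

/-- closed walks of odd length, closed walks of even length and open walks -/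
theorem odd_even (h0 : ∀ x y, 0 ≤ W x y) (hL : Eig (lad W) l f) (j : ℕ) :
    (∑ i, nu W f i * l i ^ (2 * (j + 1))) ^ 3 ≤ (Fintype.card X : ℝ) ^ 4 *
      (∑ i, l i ^ (2 * (j + 1) + 1)) * (∑ i, l i ^ (2 * (j + 1))) ^ 2 := by
  have key := holder_sum (fun y => ∑ z : X × X, pw W (j + 1) y z * Real.sqrt (W z.1 z.2))
    (fun y => ∑ i, l i ^ (2 * (j + 1) + 1) * f i y ^ 2)
    (fun y => ∑ i, l i ^ (2 * (j + 1)) * f i y ^ 2) ((Fintype.card X : ℝ) ^ 4) (by positivity)
    (fun y => sum_nonneg fun z _ => mul_nonneg (pw_nonneg h0 _ _ _) (Real.sqrt_nonneg _))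
    (fun y => by
      have e1 := pw_nonneg h0 (2 * (j + 1) + 1) y y
      rw [pw_eig hL] at e1
      refine e1.trans (le_of_eq (sum_congr rfl fun i _ => by ring)))
    (fun y => sum_nonneg fun i _ => mul_nonneg (by rw [pow_mul]; positivity) (sq_nonneg _))
    (fun y => rooted h0 hL j y)
  have e1 : ∀ m : ℕ, ∑ y, ∑ i, l i ^ m * f i y ^ 2 = ∑ i, l i ^ m := by
    intro m
    rw [sum_comm]
    refine sum_congr rfl fun i _ => ?_
    rw [← mul_sum]
    have := hL.orth i i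
    simp only [if_true, ← sq] at this
    rw [this, mul_one]
  rw [open_sq hL, e1, e1] at key
  exact key

end global

section co

variable {X : Type*} [Fintype X] [DecidableEq X] {W : X → X → ℝ}
variable {l : X × X → ℝ} {f : X × X → X × X → ℝ}

/-- even closed walks are at most open walks -/
theorem closed_open (h0 : ∀ x y, 0 ≤ W x y) (h1 : ∀ x y, W x y ≤ 1) (hL : Eig (lad W) l f)
    (j : ℕ) : ∑ i, l i ^ (2 * (j + 1)) ≤ ∑ i, nu W f i * l i ^ (2 * j + 1) := by
  have e1 : ∑ i, l i ^ (2 * (j + 1)) = ∑ y, pw W (2 * (j + 1)) y y := by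
    have e2 : ∀ y, pw W (2 * (j + 1)) y y = ∑ i, l i ^ (2 * (j + 1)) * (f i y * f i y) :=
      fun y => pw_eig hL _ y y
    simp only [e2]
    rw [sum_comm]
    refine sum_congr rfl fun i _ => ?_
    rw [← mul_sum, hL.orth, if_pos rfl, mul_one]
  have e3 : ∀ y, pw W (2 * (j + 1)) y y ≤ ∑ z : X × X,
      pw W (2 * j + 1) y z * (Real.sqrt (W z.1 z.2) * Real.sqrt (W y.1 y.2)) := by
    intro y
    have e4 : 2 * (j + 1) = (2 * j + 1) + 1 := by ring
    rw [e4]
    change ∑ z, pw W (2 * j + 1) y z * lad W z y ≤ _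
    refine sum_le_sum fun z _ => mul_le_mul_of_nonneg_left ?_ (pw_nonneg h0 (2 * j + 1) y z)
    unfold lad
    have e5 : W z.1 y.2 * W y.1 z.2 ≤ 1 := mul_le_one₀ (h1 _ _) (h0 _ _) (h1 _ _)
    have e6 : 0 ≤ Real.sqrt (W z.1 z.2) * Real.sqrt (W y.1 y.2) := by positivity
    nlinarith
  have e7 : ∑ i, nu W f i * l i ^ (2 * j + 1) = ∑ y : X × X, ∑ z : X × X,
      pw W (2 * j + 1) y z * (Real.sqrt (W z.1 z.2) * Real.sqrt (W y.1 y.2)) := by
    have e8 : ∀ y z : X × X, pw W (2 * j + 1) y z *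
        (Real.sqrt (W z.1 z.2) * Real.sqrt (W y.1 y.2)) = ∑ i, l i ^ (2 * j + 1) *
          ((f i y * Real.sqrt (W y.1 y.2)) * (f i z * Real.sqrt (W z.1 z.2))) := by
      intro y z
      rw [pw_eig hL, sum_mul]
      exact sum_congr rfl fun i _ => by ring
    simp only [e8]
    calc ∑ i, nu W f i * l i ^ (2 * j + 1) = ∑ i, ∑ y : X × X, ∑ z : X × X,
          l i ^ (2 * j + 1) *
          ((f i y * Real.sqrt (W y.1 y.2)) * (f i z * Real.sqrt (W z.1 z.2))) := by
          refine sum_congr rfl fun i _ => ?_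
          unfold nu
          rw [sq, sum_mul_sum, sum_mul]
          refine sum_congr rfl fun y _ => ?_
          rw [sum_mul]
          exact sum_congr rfl fun z _ => by ring
      _ = ∑ y : X × X, ∑ i, ∑ z : X × X, l i ^ (2 * j + 1) *
          ((f i y * Real.sqrt (W y.1 y.2)) * (f i z * Real.sqrt (W z.1 z.2))) := sum_comm
      _ = _ := sum_congr rfl fun y _ => sum_comm
  rw [e1, e7]
  exact sum_le_sum fun y _ => e3 y

end co

section dens

variable {X : Type*} [Fintype X] [DecidableEq X] {W : X → X → ℝ}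

/-- ladders with an odd number of rungs and prisms -/
theorem twin_sum (h0 : ∀ x y, 0 ≤ W x y) {p : ℝ} (hp0 : 0 < p) (hn : 0 < Fintype.card X)
    (hp : ∑ x, ∑ y, W x y = p * (Fintype.card X : ℝ) ^ 2) (m : ℕ) (hm : m ≠ 0)
    [NeZero (2 * m + 1)] [NeZero (2 * m)] :
    p ^ (18 * m + 3) * (Fintype.card X : ℝ) ^ (12 * m + 6) ≤
      (Fintype.card X : ℝ) ^ 4 * ladSum W (2 * m + 1) * ladSum W (2 * m) ^ 2 := by
  obtain ⟨l, f, hL⟩ := exists_eig (lad W) (lad_symm W)
  obtain ⟨j, rfl⟩ : ∃ j, m = j + 1 := ⟨m - 1, by omega⟩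
  set n : ℝ := (Fintype.card X : ℝ) with hndef
  have hn0 : 0 < n := by rw [hndef]; exact_mod_cast hn
  have h1 := odd_even h0 hL j
  rw [← ladSum_eq h0 hL, ← ladSum_eq h0 hL] at h1
  have hM : ∑ i, nu W f i = p * n ^ 2 := by
    rw [nu_sum h0 hL, Fintype.sum_prod_type, hp]
  have hC : p ^ 4 * n ^ 4 ≤ ∑ i, nu W f i * l i := by
    rw [nu_one h0 hL]
    have e1 := fourcycle W (fun _ _ => 1)
    simp only [abs_one, mul_one] at e1
    have e2 := om_row W (fun _ _ => 1)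
    simp only [mul_one] at e2
    rw [e2, hp, ← hndef] at e1
    rw [Fintype.sum_prod_type]
    have e3 : n ^ 4 * (p ^ 4 * n ^ 4) ≤ n ^ 4 * ∑ x, ∑ y, W x y * rr W (x, y) := by
      refine le_trans (le_of_eq ?_) e1
      ring
    exact le_of_mul_le_mul_left e3 (by positivity)
  have h2 := jensen_even (nu W f) l nu_nonneg (j + 1) (by omega)
  rw [hM] at h2
  have h3 : (p ^ 4 * n ^ 4) ^ (2 * (j + 1)) ≤ (p * n ^ 2) ^ (2 * (j + 1) - 1) *
      ∑ i, nu W f i * l i ^ (2 * (j + 1)) :=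
    (pow_le_pow_left₀ (by positivity) hC _).trans h2
  have h4 : p ^ (6 * (j + 1) + 1) * n ^ (4 * (j + 1) + 2) ≤
      ∑ i, nu W f i * l i ^ (2 * (j + 1)) := by
    have e1 : 0 < (p * n ^ 2) ^ (2 * (j + 1) - 1) := by positivity
    refine le_of_mul_le_mul_left ?_ e1
    refine le_trans (le_of_eq ?_) h3
    have e2 : 2 * (j + 1) - 1 = 2 * j + 1 := by omega
    rw [e2]
    ring
  calc p ^ (18 * (j + 1) + 3) * n ^ (12 * (j + 1) + 6) =
        (p ^ (6 * (j + 1) + 1) * n ^ (4 * (j + 1) + 2)) ^ 3 := by ring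
    _ ≤ (∑ i, nu W f i * l i ^ (2 * (j + 1))) ^ 3 := pow_le_pow_left₀ (by positivity) h4 3
    _ ≤ _ := h1

/-- many four-cycles -/
theorem rich_sum (h0 : ∀ x y, 0 ≤ W x y) (h1 : ∀ x y, W x y ≤ 1) {p : ℝ} (hp0 : 0 < p)
    (hn : 0 < Fintype.card X)
    (hp : ∑ x, ∑ y, W x y = p * (Fintype.card X : ℝ) ^ 2) (m : ℕ) (hm : m ≠ 0)
    [NeZero (2 * m + 1)] :
    (∑ a : X × X, W a.1 a.2 * rr W a) ^ (2 * m + 2) ≤
      (p * (Fintype.card X : ℝ) ^ 2) ^ (2 * m + 1) *
        ((Fintype.card X : ℝ) ^ 4 * ladSum W (2 * m + 1)) := by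
  obtain ⟨l, f, hL⟩ := exists_eig (lad W) (lad_symm W)
  obtain ⟨j, rfl⟩ : ∃ j, m = j + 1 := ⟨m - 1, by omega⟩
  set n : ℝ := (Fintype.card X : ℝ) with hndef
  have hn0 : 0 < n := by rw [hndef]; exact_mod_cast hn
  have key := odd_even h0 hL j
  rw [← ladSum_eq h0 hL (2 * (j + 1) + 1)] at key
  have hM : ∑ i, nu W f i = p * n ^ 2 := by
    rw [nu_sum h0 hL, Fintype.sum_prod_type, hp]
  have hM0 : 0 < ∑ i, nu W f i := by rw [hM]; positivity
  have hCge : p ^ 4 * n ^ 4 ≤ ∑ i, nu W f i * l i := by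
    rw [nu_one h0 hL]
    have e1 := fourcycle W (fun _ _ => 1)
    simp only [abs_one, mul_one] at e1
    have e2 := om_row W (fun _ _ => 1)
    simp only [mul_one] at e2
    rw [e2, hp, ← hndef] at e1
    rw [Fintype.sum_prod_type]
    have e3 : n ^ 4 * (p ^ 4 * n ^ 4) ≤ n ^ 4 * ∑ x, ∑ y, W x y * rr W (x, y) := by
      refine le_trans (le_of_eq ?_) e1
      ring
    exact le_of_mul_le_mul_left e3 (by positivity)
  have hC0 : 0 < ∑ i, nu W f i * l i := lt_of_lt_of_le (by positivity) hCge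
  -- even closed walks are at most open walks
  have hcl : ∑ i, l i ^ (2 * (j + 1)) ≤ ∑ i, nu W f i * l i ^ (2 * j + 1) := closed_open h0 h1 hL j
  have hcl0 : 0 ≤ ∑ i, l i ^ (2 * (j + 1)) := sum_nonneg fun i _ => by rw [pow_mul]; positivity
  have hT0 : 0 ≤ n ^ 4 * ladSum W (2 * (j + 1) + 1) := by
    have e1 : 0 ≤ ladSum W (2 * (j + 1) + 1) := by
      unfold ladSum
      exact sum_nonneg fun w _ => prod_nonneg fun i _ => mul_nonneg (h0 _ _)
        (mul_nonneg (h0 _ _) (h0 _ _))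
    positivity
  have h9 := moments (nu W f) l nu_nonneg j (n ^ 4 * ladSum W (2 * (j + 1) + 1)) hT0 hM0 hC0
    (key.trans (mul_le_mul_of_nonneg_left (pow_le_pow_left₀ hcl0 hcl 2) hT0))
  rw [nu_one h0 hL, hM] at h9
  exact h9

end dens

end Vale.Agent.P050.H180
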