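import Vale.Agent.P050.H180.Ent6
import Vale.Agent.P050.H173.Half
import Vale.Agent.P050.H125.Sharp5

set_option linter.all false

/-!
Moebius ladders and four-cycles: excess exponent at most one.
-/

namespace Vale.Agent.P050.H180

open Finset Vale.Agent.P050.H148

variable {X : Type*} [Fintype X]

theorem half_log_all [Nonempty X] [DecidableEq X] (M : ℕ) (hM : 1 ≤ M) [NeZero (2 * M + 3)] :
    Vale.Agent.P050.H173.HalfLog X M := by
  intro V hV h1 hs
  refine half_log_of hV h1 M ?_
  have key := Vale.Agent.P050.H125.two_D hV hs M hM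
  have e1 : Vale.Agent.P050.H125.ccc V =
      ∑ c : X × X, cod V c.1 c.2 ^ 2 / zc V * Real.log (cod V c.1 c.2) := by
    rw [Fintype.sum_prod_type]
    rfl
  have e2 : ∀ q, Vale.Agent.P050.H125.Dq V q = Dq V q := fun q => rfl
  rw [e1] at key
  simp only [e2] at key
  linarith

/-- Moebius ladders with at least five rungs -/
theorem sharp_graph (G : SimpleGraph X) [Nonempty X] (k : ℕ) (hk : Odd k) (h5 : 5 ≤ k) :
    homDensity (SimpleGraph.cycleGraph 4) G ^ (2 * k + 1) ≤
        edgeDensity G ^ (2 * k + 2) * homDensity (moebiusLadder k) G ^ 2 ∧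
      edgeDensity G ^ (3 * k + 1) ≤ homDensity (moebiusLadder k) G := by
  classical
  obtain ⟨M, rfl⟩ : ∃ M, k = 2 * M + 3 := by
    obtain ⟨j, hj⟩ := hk
    exact ⟨j - 1, by omega⟩
  haveI : NeZero (2 * M + 3) := ⟨by omega⟩
  have hM : 1 ≤ M := by omega
  have h1 := Vale.Agent.P050.H173.half_graph G M (half_log_all M hM)
  have h2 := Vale.Agent.P050.H173.half_near G M (half_log_all M hM)
  have e1 : 2 * (2 * M + 3) + 1 = 4 * M + 7 := by ring
  have e2 : 2 * (2 * M + 3) + 2 = 4 * M + 8 := by ring
  rw [e1, e2]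
  exact ⟨h1, h2⟩

/-- the complete bipartite graph with five and five vertices minus a cycle of length ten -/
theorem sharp5 (G : SimpleGraph X) [Nonempty X] :
    edgeDensity G ^ 16 ≤ homDensity K55minusC10 G := by
  obtain ⟨e⟩ := iso5
  rw [← homDensity_congr e]
  exact (sharp_graph G 5 (by decide) le_rfl).2

end Vale.Agent.P050.H180
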