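import Vale.Agent.P050.H180.TwistDefs
import Vale.Agent.P050.H180.Odd2
import Vale.Agent.P050.H148.Graph

set_option linter.all false

/-!
Counting homomorphisms from glued copies.
-/

namespace Vale.Agent.P050.H180

open Finset Vale.Agent.P050.H148

section count

variable {X : Type*} [Fintype X]

/-- the homomorphism condition -/
def IsHom {V : Type*} (F : SimpleGraph V) (G : SimpleGraph X) (f : V → X) : Prop :=
  ∀ a b, F.Adj a b → G.Adj (f a) (f b)

open Classical in
theorem card_hom {V : Type*} [Fintype V] [DecidableEq V] (F : SimpleGraph V) (G : SimpleGraph X) :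
    (Nat.card (F →g G) : ℝ) = ∑ f : V → X, if IsHom F G f then 1 else 0 := by
  have e : (F →g G) ≃ {f : V → X // IsHom F G f} :=
    { toFun := fun φ => ⟨fun v => φ v, fun a b h => φ.map_rel h⟩
      invFun := fun f => ⟨f.1, fun {a b} h => f.2 a b h⟩
      left_inv := fun φ => rfl
      right_inv := fun f => rfl }
  rw [Nat.card_congr e, Nat.card_eq_fintype_card, Fintype.card_subtype, card_eq_sum_ones,
    sum_filter]
  push_cast
  rfl

variable {A B C K : Type*} [Fintype A] [Fintype B] [Fintype C] [Fintype K]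

open Classical in
/-- the number of extensions -/
noncomputable def ex (F : SimpleGraph (A ⊕ Bool ⊕ B)) (G : SimpleGraph X) (r : A → X)
    (a : Bool → X) : ℝ :=
  ∑ b : B → X, if IsHom F G (Sum.elim r (Sum.elim a b)) then 1 else 0

theorem ex_nonneg (F : SimpleGraph (A ⊕ Bool ⊕ B)) (G : SimpleGraph X) (r : A → X)
    (a : Bool → X) : 0 ≤ ex F G r a := by
  unfold ex
  exact sum_nonneg fun b _ => by split_ifs <;> norm_num

/-- splitting a function on the vertices -/
def splitFun (X A B C K : Type*) :
    (A ⊕ K × Bool ⊕ C × B → X) ≃ (A → X) × (K → Bool → X) × (C → B → X) :=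
  (Equiv.sumArrowEquivProdArrow A (K × Bool ⊕ C × B) X).trans
    (Equiv.prodCongr (Equiv.refl _)
      ((Equiv.sumArrowEquivProdArrow (K × Bool) (C × B) X).trans
        (Equiv.prodCongr (Equiv.curry K Bool X) (Equiv.curry C B X))))

open Classical in
theorem card_glued [DecidableEq A] [DecidableEq K]
    (F : SimpleGraph (A ⊕ Bool ⊕ B)) (G : SimpleGraph X) (slot : C → K)
    (T : K → K → Prop) :
    (Nat.card (glued F slot T →g G) : ℝ) = ∑ r : A → X, ∑ a : K → Bool → X,
      (if ∀ k l s, T k l → G.Adj (a k s) (a l (!s)) then 1 else 0) *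
        ∏ c, ex F G r (a (slot c)) := by
  rw [card_hom]
  refine (Fintype.sum_equiv (splitFun X A B C K) _ (fun g => if IsHom (glued F slot T) G
    ((splitFun X A B C K).symm g) then 1 else 0) (fun f => by
      rw [Equiv.symm_apply_apply])).trans ?_
  rw [Fintype.sum_prod_type]
  refine sum_congr rfl fun r _ => ?_
  rw [Fintype.sum_prod_type]
  refine sum_congr rfl fun a _ => ?_
  have h1 : ∀ β : C → B → X, IsHom (glued F slot T) G ((splitFun X A B C K).symm (r, a, β)) ↔
      (∀ k l s, T k l → G.Adj (a k s) (a l (!s))) ∧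
        ∀ c ∈ (univ : Finset C), IsHom F G (Sum.elim r (Sum.elim (a (slot c)) (β c))) := by
    intro β
    have hput : ∀ c v, (splitFun X A B C K).symm (r, a, β) (put slot c v) =
        Sum.elim r (Sum.elim (a (slot c)) (β c)) v := by
      intro c v
      rcases v with v | v | v <;> rfl
    constructor
    · intro h
      refine ⟨fun k l s hT => ?_, fun c _ u v huv => ?_⟩
      · exact h _ _ (Or.inr ⟨k, l, s, Or.inl hT, rfl, rfl⟩)
      · have := h _ _ (Or.inl ⟨c, u, v, huv, rfl, rfl⟩)
        rwa [hput, hput] at this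
    · rintro ⟨h1, h2⟩ u v (⟨c, p, q, hpq, rfl, rfl⟩ | ⟨k, l, s, hT, rfl, rfl⟩)
      · rw [hput, hput]
        exact h2 c (mem_univ c) p q hpq
      · rcases hT with hT | hT
        · exact h1 k l s hT
        · have := h1 l k (!s) hT
          rw [Bool.not_not] at this
          exact this.symm
  have h2 : ∀ β : C → B → X,
      (if IsHom (glued F slot T) G ((splitFun X A B C K).symm (r, a, β)) then (1 : ℝ) else 0) =
      (if ∀ k l s, T k l → G.Adj (a k s) (a l (!s)) then (1 : ℝ) else 0) *
        ∏ c, (if IsHom F G (Sum.elim r (Sum.elim (a (slot c)) (β c))) then (1 : ℝ) else 0) := by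
    intro β
    rw [prod_ite_zero, prod_const_one]
    by_cases p : ∀ k l s, T k l → G.Adj (a k s) (a l (!s))
    · by_cases q : ∀ c ∈ (univ : Finset C), IsHom F G (Sum.elim r (Sum.elim (a (slot c)) (β c)))
      · rw [if_pos p, if_pos q, if_pos ((h1 β).mpr ⟨p, q⟩), one_mul]
      · rw [if_neg q, mul_zero, if_neg (fun h => q ((h1 β).mp h).2)]
    · rw [if_neg p, zero_mul, if_neg (fun h => p ((h1 β).mp h).1)]
  simp only [h2]
  rw [← mul_sum]
  congr 1
  unfold ex
  rw [Finset.prod_univ_sum, Fintype.piFinset_univ]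

open Classical in
theorem card_base [DecidableEq A] (F : SimpleGraph (A ⊕ Bool ⊕ B)) (G : SimpleGraph X) :
    (Nat.card (F →g G) : ℝ) = ∑ r : A → X, ∑ a : Bool → X, ex F G r a := by
  rw [card_hom]
  refine (Fintype.sum_equiv ((Equiv.sumArrowEquivProdArrow A (Bool ⊕ B) X).trans
    (Equiv.prodCongr (Equiv.refl _) (Equiv.sumArrowEquivProdArrow Bool B X))) _
    (fun g => if IsHom F G (Sum.elim g.1 (Sum.elim g.2.1 g.2.2)) then 1 else 0) (fun f => by
      have : Sum.elim (((Equiv.sumArrowEquivProdArrow A (Bool ⊕ B) X).trans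
        (Equiv.prodCongr (Equiv.refl _) (Equiv.sumArrowEquivProdArrow Bool B X))) f).1
        (Sum.elim (((Equiv.sumArrowEquivProdArrow A (Bool ⊕ B) X).trans
        (Equiv.prodCongr (Equiv.refl _) (Equiv.sumArrowEquivProdArrow Bool B X))) f).2.1
        (((Equiv.sumArrowEquivProdArrow A (Bool ⊕ B) X).trans
        (Equiv.prodCongr (Equiv.refl _) (Equiv.sumArrowEquivProdArrow Bool B X))) f).2.2) = f := by
        funext v
        rcases v with v | v | v <;> rfl
      rw [this])).trans ?_
  rw [Fintype.sum_prod_type]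
  refine sum_congr rfl fun r _ => ?_
  rw [Fintype.sum_prod_type]
  refine sum_congr rfl fun a _ => ?_
  unfold ex
  rfl

end count

end Vale.Agent.P050.H180
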