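import Vale.Agent.P050.H180.Twist

set_option linter.all false

/-!
Glued copies: inequalities.
-/

namespace Vale.Agent.P050.H180

open Finset Vale.Agent.P050.H148

section point

variable {X : Type*} [Fintype X] [DecidableEq X] {W : X → X → ℝ}

/-- the quadratic form of pairs of rungs -/
def qf (W : X → X → ℝ) (g : X → X → ℝ) : ℝ :=
  ∑ x, ∑ y, ∑ x', ∑ y', W x y' * W x' y * (g x y * g x' y')

theorem qf_om (hint : ∀ x y, W x y = 0 ∨ W x y = 1) (g : X → X → ℝ)
    (hs : ∀ x y, W x y = 0 → g x y = 0) : qf W g =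
      ∑ x, ∑ x', ∑ y, ∑ y', om W x x' y y' * (g x y * g x' y') := by
  unfold qf
  refine sum_congr rfl fun x _ => ?_
  rw [sum_comm]
  refine sum_congr rfl fun x' _ => sum_congr rfl fun y _ => sum_congr rfl fun y' _ => ?_
  unfold om
  have h1 : ∀ x y, W x y * g x y = g x y := by
    intro x y
    rcases hint x y with h | h
    · rw [hs x y h, mul_zero]
    · rw [h, one_mul]
  calc _ = W x y' * W x' y * (W x y * g x y * (W x' y' * g x' y')) := by rw [h1, h1]
    _ = _ := by ring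

theorem point1 (hint : ∀ x y, W x y = 0 ∨ W x y = 1) (g : X → X → ℝ) (hg : ∀ x y, 0 ≤ g x y)
    (hs : ∀ x y, W x y = 0 → g x y = 0) :
    (∑ x, ∑ y, g x y) ^ 6 ≤ (Fintype.card X : ℝ) ^ 4 * qf W g * (∑ x, ∑ y, g x y ^ 2) ^ 2 := by
  have h0 : ∀ x y, 0 ≤ W x y := fun x y => by rcases hint x y with h | h <;> rw [h] <;> norm_num
  have h1 : ∀ x y, W x y * g x y = g x y := by
    intro x y
    rcases hint x y with h | h
    · rw [hs x y h, mul_zero]
    · rw [h, one_mul]
  have h2 : ∀ x y, W x y * g x y ^ 2 = g x y ^ 2 := by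
    intro x y
    calc _ = W x y * g x y * g x y := by ring
      _ = _ := by rw [h1]; ring
  have k1 := q_ineq h0 g hg
  rw [← qf_om hint g hs] at k1
  have k2 := holder3 (fun a : X × X => W a.1 a.2) (fun a => Real.sqrt (g a.1 a.2))
    (fun a => h0 _ _) (fun a => Real.sqrt_nonneg _)
  have e2 : ∀ a : X × X, Real.sqrt (g a.1 a.2) ^ 2 = g a.1 a.2 := fun a => Real.sq_sqrt (hg _ _)
  have e4 : ∀ a : X × X, Real.sqrt (g a.1 a.2) ^ 4 = g a.1 a.2 ^ 2 := fun a => by
    calc _ = (Real.sqrt (g a.1 a.2) ^ 2) ^ 2 := by ring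
      _ = _ := by rw [e2]
  simp only [e2, e4, h1, h2] at k2
  simp only [Fintype.sum_prod_type] at k2
  have hc : 0 ≤ ∑ x, ∑ y, g x y := sum_nonneg fun x _ => sum_nonneg fun y _ => hg x y
  calc (∑ x, ∑ y, g x y) ^ 6 = ((∑ x, ∑ y, g x y) ^ 3) ^ 2 := by ring
    _ ≤ ((∑ x, ∑ y, W x y * Real.sqrt (g x y)) ^ 2 * ∑ x, ∑ y, g x y ^ 2) ^ 2 :=
        pow_le_pow_left₀ (pow_nonneg hc 3) k2 2
    _ = (∑ x, ∑ y, W x y * Real.sqrt (g x y)) ^ 4 * (∑ x, ∑ y, g x y ^ 2) ^ 2 := by ring
    _ ≤ _ := mul_le_mul_of_nonneg_right k1 (sq_nonneg _)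

theorem point2 (hint : ∀ x y, W x y = 0 ∨ W x y = 1) (g : X → X → ℝ) (hg : ∀ x y, 0 ≤ g x y)
    (hs : ∀ x y, W x y = 0 → g x y = 0) :
    (∑ x, ∑ y, g x y) ^ 4 ≤ (Fintype.card X : ℝ) ^ 4 * qf W (fun x y => g x y ^ 2) := by
  have h0 : ∀ x y, 0 ≤ W x y := fun x y => by rcases hint x y with h | h <;> rw [h] <;> norm_num
  have h1 : ∀ x y, W x y * g x y = g x y := by
    intro x y
    rcases hint x y with h | h
    · rw [hs x y h, mul_zero]
    · rw [h, one_mul]
  have k1 := q_ineq h0 (fun x y => g x y ^ 2) (fun x y => sq_nonneg _)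
  rw [← qf_om hint (fun x y => g x y ^ 2) (fun x y h => by simp only [hs x y h]; norm_num)] at k1
  simp only [Real.sqrt_sq (hg _ _), h1] at k1
  exact k1

theorem qf_nonneg (h0 : ∀ x y, 0 ≤ W x y) (g : X → X → ℝ) (hg : ∀ x y, 0 ≤ g x y) :
    0 ≤ qf W g := by
  unfold qf
  exact sum_nonneg fun x _ => sum_nonneg fun y _ => sum_nonneg fun x' _ => sum_nonneg fun y' _ =>
    mul_nonneg (mul_nonneg (h0 _ _) (h0 _ _)) (mul_nonneg (hg _ _) (hg _ _))

end point

section mean

theorem pow_mean {T : Type*} (s : Finset T) (c : T → ℝ) (hc : ∀ r ∈ s, 0 ≤ c r) (m : ℕ) :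
    (∑ r ∈ s, c r) ^ (m + 1) ≤ (s.card : ℝ) ^ m * ∑ r ∈ s, c r ^ (m + 1) := by
  rcases s.eq_empty_or_nonempty with h | h
  · subst h; simp
  · have h1 := pow_sum_div_card_le_sum_pow hc m
    have h2 : (0 : ℝ) < (s.card : ℝ) ^ m := by
      have : 0 < s.card := h.card_pos
      positivity
    rw [div_le_iff₀ h2] at h1
    linarith

/-- the mean over the valid functions -/
theorem valid_mean {T : Type*} [Fintype T] (v : T → Prop) [DecidablePred v] (c : T → ℝ)
    (hc : ∀ r, 0 ≤ c r) (hv : ∀ r, ¬ v r → c r = 0) (m : ℕ) (hm : m ≠ 0) :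
    (∑ r, c r) ^ m ≤ (∑ r, if v r then (1 : ℝ) else 0) ^ (m - 1) * ∑ r, c r ^ m := by
  obtain ⟨m, rfl⟩ : ∃ j, m = j + 1 := ⟨m - 1, by omega⟩
  have h1 := pow_mean (univ.filter v) c (fun r _ => hc r) m
  have h2 : ∑ r ∈ univ.filter v, c r = ∑ r, c r := by
    rw [sum_filter]
    refine sum_congr rfl fun r _ => ?_
    split_ifs with h
    · rfl
    · exact (hv r h).symm
  have h3 : ∑ r ∈ univ.filter v, c r ^ (m + 1) = ∑ r, c r ^ (m + 1) := by
    rw [sum_filter]
    refine sum_congr rfl fun r _ => ?_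
    split_ifs with h
    · rfl
    · rw [hv r h, zero_pow (Nat.succ_ne_zero m)]
  rw [h2, h3] at h1
  rw [sum_boole]
  exact h1

end mean

section bools

theorem sum_bool {Y : Type*} [Fintype Y] (f : (Bool → Y) → ℝ) :
    ∑ a, f a = ∑ u, ∑ v, f (fun s => if s then v else u) := by
  rw [← Fintype.sum_prod_type']
  refine Fintype.sum_equiv (Equiv.boolArrowEquivProd Y) _ _ (fun a => ?_)
  congr 1
  funext s
  cases s <;> rfl

theorem sum_unit {Y : Type*} [Fintype Y] (f : (Unit → Y) → ℝ) :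
    ∑ a, f a = ∑ u, f (fun _ => u) :=
  Fintype.sum_equiv (Equiv.funUnique Unit Y) _ _ (fun a => by
    congr 1)

theorem sum_split {Y S S' : Type*} [Fintype Y] [Fintype S] [Fintype S'] [DecidableEq S]
    [DecidableEq S'] (f : (S ⊕ S' → Y) → ℝ) :
    ∑ a, f a = ∑ u, ∑ v, f (Sum.elim u v) := by
  rw [← Fintype.sum_prod_type']
  refine Fintype.sum_equiv (Equiv.sumArrowEquivProdArrow S S' Y) _ _ (fun a => ?_)
  congr 1
  funext s
  rcases s with s | s <;> rfl

end bools

section graph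

variable {X A B : Type*} [Fintype X] [Fintype A] [Fintype B]

/-- extensions as a function of the ends of the edge -/
noncomputable def gx (F : SimpleGraph (A ⊕ Bool ⊕ B)) (G : SimpleGraph X) (r : A → X)
    (x y : X) : ℝ := ex F G r (fun s => if s then y else x)

theorem gx_nonneg (F : SimpleGraph (A ⊕ Bool ⊕ B)) (G : SimpleGraph X) (r : A → X) (x y : X) :
    0 ≤ gx F G r x y := ex_nonneg _ _ _ _

theorem gx_zero (F : SimpleGraph (A ⊕ Bool ⊕ B))
    (hz : F.Adj (Sum.inr (Sum.inl false)) (Sum.inr (Sum.inl true))) (G : SimpleGraph X)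
    (r : A → X) (x y : X) (h : adj G x y = 0) : gx F G r x y = 0 := by
  classical
  unfold gx ex
  refine sum_eq_zero fun b _ => if_neg fun hh => ?_
  have h1 := hh _ _ hz
  simp only [Sum.elim_inr, Sum.elim_inl, if_true, Bool.false_eq_true, if_false] at h1
  simp [adj, h1] at h

theorem ex_invalid (F : SimpleGraph (A ⊕ Bool ⊕ B)) (G : SimpleGraph X) (r : A → X)
    (h : ¬ IsHom (F.comap Sum.inl) G r) (a : Bool → X) : ex F G r a = 0 := by
  classical
  unfold ex
  refine sum_eq_zero fun b _ => if_neg fun hh => h fun u v huv => ?_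
  exact hh _ _ huv

theorem adj_int (G : SimpleGraph X) (x y : X) : adj G x y = 0 ∨ adj G x y = 1 := by
  simp only [adj]; split_ifs <;> simp

theorem ite_adj {G : SimpleGraph X} {x y x' y' : X} {P : Prop} {d : Decidable P}
    (h : P ↔ G.Adj x y' ∧ G.Adj x' y) :
    @ite ℝ P d 1 0 = adj G x y' * adj G x' y := by
  by_cases hP : P
  · rw [if_pos hP]
    obtain ⟨h1, h2⟩ := h.mp hP
    simp [adj, h1, h2]
  · rw [if_neg hP]
    simp only [adj]
    by_cases h1 : G.Adj x y'
    · have h2 : ¬ G.Adj x' y := fun h2 => hP (h.mpr ⟨h1, h2⟩)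
      simp [h2]
    · simp [h1]

theorem twist_iff (G : SimpleGraph X) (x y x' y' : X) :
    (∀ k l s, k ≠ l → G.Adj ((fun s : Bool => if s then (fun s : Bool => if s then y' else x')
      else (fun s : Bool => if s then y else x)) k s) ((fun s : Bool => if s then
      (fun s : Bool => if s then y' else x') else (fun s : Bool => if s then y else x)) l (!s))) ↔
      G.Adj x y' ∧ G.Adj x' y := by
  constructor
  · intro h
    exact ⟨h false true false (by decide), h true false false (by decide)⟩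
  · rintro ⟨h1, h2⟩ k l s hkl
    cases k <;> cases l <;> cases s <;> simp_all [SimpleGraph.adj_comm]

end graph

end Vale.Agent.P050.H180
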