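import Vale.Agent.P050.H180.Twist2

set_option linter.all false

/-!
Glued copies: the theorems.
-/

namespace Vale.Agent.P050.H180

open Finset Vale.Agent.P050.H148

section counts

variable {X A B : Type*} [Fintype X] [Fintype A] [Fintype B]

open Classical in
theorem count_twist (F : SimpleGraph (A ⊕ Bool ⊕ B)) (G : SimpleGraph X) :
    (Nat.card (glued F (id : Bool → Bool) (fun k l => k ≠ l) →g G) : ℝ) =
      ∑ r : A → X, qf (adj G) (gx F G r) := by
  rw [card_glued]
  refine sum_congr rfl fun r _ => ?_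
  rw [sum_bool, sum_bool]
  unfold qf
  refine sum_congr rfl fun x _ => sum_congr rfl fun y _ => ?_
  rw [sum_bool]
  refine sum_congr rfl fun x' _ => sum_congr rfl fun y' _ => ?_
  rw [ite_adj (twist_iff G x y x' y'), Fintype.prod_bool]
  simp only [id, if_true, Bool.false_eq_true, if_false]
  unfold gx
  ring

open Classical in
theorem count_square (F : SimpleGraph (A ⊕ Bool ⊕ B)) (G : SimpleGraph X) :
    (Nat.card (glued F (Prod.fst : Bool × Bool → Bool) (fun k l => k ≠ l) →g G) : ℝ) =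
      ∑ r : A → X, qf (adj G) (fun x y => gx F G r x y ^ 2) := by
  rw [card_glued]
  refine sum_congr rfl fun r _ => ?_
  rw [sum_bool, sum_bool]
  unfold qf
  refine sum_congr rfl fun x _ => sum_congr rfl fun y _ => ?_
  rw [sum_bool]
  refine sum_congr rfl fun x' _ => sum_congr rfl fun y' _ => ?_
  rw [ite_adj (twist_iff G x y x' y'), Fintype.prod_prod_type]
  simp only [Fintype.prod_bool, if_true, Bool.false_eq_true, if_false]
  unfold gx
  ring

open Classical in
theorem count_fold (F : SimpleGraph (A ⊕ Bool ⊕ B)) (G : SimpleGraph X) :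
    (Nat.card (glued F (fun _ : Bool => ()) (fun _ _ => False) →g G) : ℝ) =
      ∑ r : A → X, ∑ x, ∑ y, gx F G r x y ^ 2 := by
  rw [card_glued]
  refine sum_congr rfl fun r _ => ?_
  rw [sum_unit, sum_bool]
  refine sum_congr rfl fun x _ => sum_congr rfl fun y _ => ?_
  simp only [false_imp_iff, implies_true, if_true, one_mul, Fintype.prod_bool]
  unfold gx
  ring

open Classical in
theorem count_winged (F : SimpleGraph (A ⊕ Bool ⊕ B)) (G : SimpleGraph X) :
    (Nat.card (glued F (Sum.map id Prod.fst : Bool ⊕ Bool × Bool → Bool ⊕ Bool)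
      (fun k l => k = Sum.inl false ∧ l = Sum.inl true) →g G) : ℝ) =
      ∑ r : A → X, qf (adj G) (gx F G r) * (∑ x, ∑ y, gx F G r x y ^ 2) ^ 2 := by
  rw [card_glued]
  refine sum_congr rfl fun r _ => ?_
  rw [sum_split]
  have h1 : ∀ u v : Bool → Bool → X,
      (∀ k l s, (k = Sum.inl false ∧ l = Sum.inl true) →
        G.Adj ((Sum.elim u v : Bool ⊕ Bool → Bool → X) k s) ((Sum.elim u v) l (!s))) ↔
      ∀ k l s, k ≠ l → G.Adj (u k s) (u l (!s)) := by
    intro u v
    constructor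
    · intro h k l s hkl
      cases k <;> cases l
      · exact absurd rfl hkl
      · exact h _ _ s ⟨rfl, rfl⟩
      · have := h _ _ (!s) ⟨rfl, rfl⟩
        rw [Bool.not_not] at this
        exact this.symm
      · exact absurd rfl hkl
    · rintro h k l s ⟨rfl, rfl⟩
      exact h false true s (by decide)
  have h2 : ∀ u v : Bool → Bool → X, ∏ c : Bool ⊕ Bool × Bool, ex F G r
      ((Sum.elim u v : Bool ⊕ Bool → Bool → X) (Sum.map id Prod.fst c)) =
      (∏ c : Bool, ex F G r (u (id c))) * ∏ j : Bool, ex F G r (v j) ^ 2 := by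
    intro u v
    rw [Fintype.prod_sum_type, Fintype.prod_prod_type]
    simp only [Sum.map_inl, Sum.map_inr, Sum.elim_inl, Sum.elim_inr, id, Fintype.prod_bool, sq]
  simp only [h1, h2]
  have h3 : ∑ v : Bool → Bool → X, ∏ j : Bool, ex F G r (v j) ^ 2 =
      (∑ x, ∑ y, gx F G r x y ^ 2) ^ 2 := by
    have := Finset.prod_univ_sum (fun _ : Bool => (univ : Finset (Bool → X)))
      (fun _ a => ex F G r a ^ 2)
    rw [Fintype.piFinset_univ] at this
    rw [← this, prod_const, card_univ, Fintype.card_bool, sum_bool]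
    rfl
  have h4 : ∑ u : Bool → Bool → X, (if ∀ k l s, k ≠ l → G.Adj (u k s) (u l (!s)) then (1 : ℝ)
      else 0) * ∏ c : Bool, ex F G r (u (id c)) = qf (adj G) (gx F G r) := by
    rw [sum_bool, sum_bool]
    unfold qf
    refine sum_congr rfl fun x _ => sum_congr rfl fun y _ => ?_
    rw [sum_bool]
    refine sum_congr rfl fun x' _ => sum_congr rfl fun y' _ => ?_
    rw [ite_adj (twist_iff G x y x' y'), Fintype.prod_bool]
    simp only [id, if_true, Bool.false_eq_true, if_false]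
    unfold gx
    ring
  rw [← h3, ← h4, sum_mul_sum]
  exact sum_congr rfl fun u _ => sum_congr rfl fun v _ => by ring

end counts

section main

variable {X A B : Type*} [Fintype X] [Fintype A] [Fintype B]

/-- the number of extensions of a function on the root set -/
noncomputable def cr (F : SimpleGraph (A ⊕ Bool ⊕ B)) (G : SimpleGraph X) (r : A → X) : ℝ :=
  ∑ x, ∑ y, gx F G r x y

theorem cr_nonneg (F : SimpleGraph (A ⊕ Bool ⊕ B)) (G : SimpleGraph X) (r : A → X) :
    0 ≤ cr F G r := sum_nonneg fun x _ => sum_nonneg fun y _ => gx_nonneg _ _ _ _ _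

theorem cr_invalid (F : SimpleGraph (A ⊕ Bool ⊕ B)) (G : SimpleGraph X) (r : A → X)
    (h : ¬ IsHom (F.comap Sum.inl) G r) : cr F G r = 0 :=
  sum_eq_zero fun x _ => sum_eq_zero fun y _ => ex_invalid _ _ _ h _

open Classical in
theorem hom_base (F : SimpleGraph (A ⊕ Bool ⊕ B)) (G : SimpleGraph X) :
    (Nat.card (F →g G) : ℝ) = ∑ r : A → X, cr F G r := by
  rw [card_base]
  refine sum_congr rfl fun r _ => ?_
  rw [sum_bool]
  rfl

open Classical in
theorem twist_hom (F : SimpleGraph (A ⊕ Bool ⊕ B))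
    (hz : F.Adj (Sum.inr (Sum.inl false)) (Sum.inr (Sum.inl true))) (G : SimpleGraph X) :
    (Nat.card (F →g G) : ℝ) ^ 6 ≤ (Fintype.card X : ℝ) ^ 4 *
      ((Nat.card (F.comap Sum.inl →g G) : ℝ) ^ 3 *
        (Nat.card (glued F (id : Bool → Bool) (fun k l => k ≠ l) →g G) : ℝ) *
        (Nat.card (glued F (fun _ : Bool => ()) (fun _ _ => False) →g G) : ℝ) ^ 2) := by
  rw [hom_base, count_twist, count_fold, card_hom (F.comap Sum.inl)]
  have h1 := valid_mean (fun r : A → X => IsHom (F.comap Sum.inl) G r) (cr F G)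
    (cr_nonneg F G) (cr_invalid F G) 2 two_ne_zero
  have h2 := holder_sum (cr F G) (fun r => qf (adj G) (gx F G r))
    (fun r => ∑ x, ∑ y, gx F G r x y ^ 2) ((Fintype.card X : ℝ) ^ 4) (by positivity)
    (cr_nonneg F G)
    (fun r => qf_nonneg (fun x y => by rcases adj_int G x y with h | h <;> rw [h] <;> norm_num) _
      (gx_nonneg F G r))
    (fun r => sum_nonneg fun x _ => sum_nonneg fun y _ => sq_nonneg _)
    (fun r => point1 (adj_int G) (gx F G r) (gx_nonneg F G r) (gx_zero F hz G r))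
  have h0 : 0 ≤ ∑ r : A → X, cr F G r := sum_nonneg fun r _ => cr_nonneg F G r
  have hR : (0 : ℝ) ≤ ∑ r : A → X, if IsHom (F.comap Sum.inl) G r then (1 : ℝ) else 0 :=
    sum_nonneg fun r _ => by split_ifs <;> norm_num
  calc (∑ r : A → X, cr F G r) ^ 6 = ((∑ r : A → X, cr F G r) ^ 2) ^ 3 := by ring
    _ ≤ ((∑ r : A → X, if IsHom (F.comap Sum.inl) G r then (1 : ℝ) else 0) ^ (2 - 1) *
        ∑ r : A → X, cr F G r ^ 2) ^ 3 := pow_le_pow_left₀ (sq_nonneg _) h1 3
    _ = (∑ r : A → X, if IsHom (F.comap Sum.inl) G r then (1 : ℝ) else 0) ^ 3 *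
        (∑ r : A → X, cr F G r ^ 2) ^ 3 := by ring
    _ ≤ (∑ r : A → X, if IsHom (F.comap Sum.inl) G r then (1 : ℝ) else 0) ^ 3 * _ :=
        mul_le_mul_of_nonneg_left h2 (pow_nonneg hR 3)
    _ = _ := by ring

open Classical in
theorem square_hom (F : SimpleGraph (A ⊕ Bool ⊕ B))
    (hz : F.Adj (Sum.inr (Sum.inl false)) (Sum.inr (Sum.inl true))) (G : SimpleGraph X) :
    (Nat.card (F →g G) : ℝ) ^ 4 ≤ (Fintype.card X : ℝ) ^ 4 *
      ((Nat.card (F.comap Sum.inl →g G) : ℝ) ^ 3 *
        (Nat.card (glued F (Prod.fst : Bool × Bool → Bool) (fun k l => k ≠ l) →g G) : ℝ)) := by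
  rw [hom_base, count_square, card_hom (F.comap Sum.inl)]
  have h1 := valid_mean (fun r : A → X => IsHom (F.comap Sum.inl) G r) (cr F G)
    (cr_nonneg F G) (cr_invalid F G) 4 four_ne_zero
  have h2 : ∑ r : A → X, cr F G r ^ 4 ≤ (Fintype.card X : ℝ) ^ 4 *
      ∑ r : A → X, qf (adj G) (fun x y => gx F G r x y ^ 2) := by
    rw [mul_sum]
    exact sum_le_sum fun r _ => point2 (adj_int G) (gx F G r) (gx_nonneg F G r) (gx_zero F hz G r)
  have hR : (0 : ℝ) ≤ ∑ r : A → X, if IsHom (F.comap Sum.inl) G r then (1 : ℝ) else 0 :=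
    sum_nonneg fun r _ => by split_ifs <;> norm_num
  calc (∑ r : A → X, cr F G r) ^ 4 ≤ _ := h1
    _ ≤ (∑ r : A → X, if IsHom (F.comap Sum.inl) G r then (1 : ℝ) else 0) ^ (4 - 1) * _ :=
        mul_le_mul_of_nonneg_left h2 (pow_nonneg hR _)
    _ = _ := by ring

open Classical in
theorem winged_hom (F : SimpleGraph (A ⊕ Bool ⊕ B))
    (hz : F.Adj (Sum.inr (Sum.inl false)) (Sum.inr (Sum.inl true))) (G : SimpleGraph X) :
    (Nat.card (F →g G) : ℝ) ^ 6 ≤ (Fintype.card X : ℝ) ^ 4 *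
      ((Nat.card (F.comap Sum.inl →g G) : ℝ) ^ 5 *
        (Nat.card (glued F (Sum.map id Prod.fst : Bool ⊕ Bool × Bool → Bool ⊕ Bool)
          (fun k l => k = Sum.inl false ∧ l = Sum.inl true) →g G) : ℝ)) := by
  rw [hom_base, count_winged, card_hom (F.comap Sum.inl)]
  have h1 := valid_mean (fun r : A → X => IsHom (F.comap Sum.inl) G r) (cr F G)
    (cr_nonneg F G) (cr_invalid F G) 6 (by norm_num)
  have h2 : ∑ r : A → X, cr F G r ^ 6 ≤ (Fintype.card X : ℝ) ^ 4 *
      ∑ r : A → X, qf (adj G) (gx F G r) * (∑ x, ∑ y, gx F G r x y ^ 2) ^ 2 := by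
    rw [mul_sum]
    refine sum_le_sum fun r _ => ?_
    rw [← mul_assoc]
    exact point1 (adj_int G) (gx F G r) (gx_nonneg F G r) (gx_zero F hz G r)
  have hR : (0 : ℝ) ≤ ∑ r : A → X, if IsHom (F.comap Sum.inl) G r then (1 : ℝ) else 0 :=
    sum_nonneg fun r _ => by split_ifs <;> norm_num
  calc (∑ r : A → X, cr F G r) ^ 6 ≤ _ := h1
    _ ≤ (∑ r : A → X, if IsHom (F.comap Sum.inl) G r then (1 : ℝ) else 0) ^ (6 - 1) * _ :=
        mul_le_mul_of_nonneg_left h2 (pow_nonneg hR _)
    _ = _ := by ring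

end main

end Vale.Agent.P050.H180
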