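import Vale.Agent.P050.H180.Twist3

set_option linter.all false

/-!
Glued copies: densities.
-/

namespace Vale.Agent.P050.H180

open Finset Vale.Agent.P050.H148

section density

variable {X A B : Type*} [Fintype X] [Nonempty X] [Fintype A] [Fintype B]

theorem density_eq {V : Type*} (H : SimpleGraph V) (G : SimpleGraph X) (v : ℕ)
    (hv : Nat.card V = v) :
    (Nat.card (H →g G) : ℝ) = homDensity H G * (Fintype.card X : ℝ) ^ v := by
  have hn : (0 : ℝ) < Fintype.card X := by
    have : 0 < Fintype.card X := Fintype.card_pos
    exact_mod_cast this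
  unfold homDensity
  rw [hv, Nat.card_eq_fintype_card (α := X), div_mul_cancel₀ _ (by positivity)]

theorem card_V : Nat.card (A ⊕ Bool ⊕ B) = Fintype.card A + (2 + Fintype.card B) := by
  simp [Nat.card_eq_fintype_card, Fintype.card_sum]

theorem card_W (C K : Type*) [Fintype C] [Fintype K] : Nat.card (A ⊕ K × Bool ⊕ C × B) =
    Fintype.card A + (Fintype.card K * 2 + Fintype.card C * Fintype.card B) := by
  simp [Nat.card_eq_fintype_card, Fintype.card_sum, Fintype.card_prod]

/-- two copies with twist edges and the folded graph -/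
theorem twist_density (F : SimpleGraph (A ⊕ Bool ⊕ B))
    (hz : F.Adj (Sum.inr (Sum.inl false)) (Sum.inr (Sum.inl true))) (G : SimpleGraph X) :
    homDensity F G ^ 6 ≤ homDensity (F.comap Sum.inl) G ^ 3 *
      homDensity (glued F (id : Bool → Bool) (fun k l => k ≠ l)) G *
      homDensity (glued F (fun _ : Bool => ()) (fun _ _ => False)) G ^ 2 := by
  have hn : (0 : ℝ) < Fintype.card X := by
    have : 0 < Fintype.card X := Fintype.card_pos
    exact_mod_cast this
  have key := twist_hom F hz G
  rw [density_eq F G _ card_V, density_eq (F.comap Sum.inl) G _ Nat.card_eq_fintype_card,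
    density_eq (glued F (id : Bool → Bool) (fun k l => k ≠ l)) G _ (card_W Bool Bool),
    density_eq (glued F (fun _ : Bool => ()) (fun _ _ => False)) G _ (card_W Bool Unit)] at key
  set n : ℝ := (Fintype.card X : ℝ) with hndef
  simp only [Fintype.card_bool, Fintype.card_unit] at key
  have e : 0 < n ^ (6 * Fintype.card A + 6 * Fintype.card B + 12) := by positivity
  refine le_of_mul_le_mul_right (a := n ^ (6 * Fintype.card A + 6 * Fintype.card B + 12)) ?_ e
  refine le_trans (le_of_eq ?_) (key.trans (le_of_eq ?_))
  · rw [mul_pow, ← pow_mul]; congr 2; ring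
  · simp only [mul_pow, ← pow_mul]
    ring

/-- four copies, in pairs on two opposite edges of a four-cycle -/
theorem square_density (F : SimpleGraph (A ⊕ Bool ⊕ B))
    (hz : F.Adj (Sum.inr (Sum.inl false)) (Sum.inr (Sum.inl true))) (G : SimpleGraph X) :
    homDensity F G ^ 4 ≤ homDensity (F.comap Sum.inl) G ^ 3 *
      homDensity (glued F (Prod.fst : Bool × Bool → Bool) (fun k l => k ≠ l)) G := by
  have hn : (0 : ℝ) < Fintype.card X := by
    have : 0 < Fintype.card X := Fintype.card_pos
    exact_mod_cast this
  have key := square_hom F hz G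
  rw [density_eq F G _ card_V, density_eq (F.comap Sum.inl) G _ Nat.card_eq_fintype_card,
    density_eq (glued F (Prod.fst : Bool × Bool → Bool) (fun k l => k ≠ l)) G _
      (card_W (Bool × Bool) Bool)] at key
  set n : ℝ := (Fintype.card X : ℝ) with hndef
  simp only [Fintype.card_bool, Fintype.card_prod] at key
  have e : 0 < n ^ (4 * Fintype.card A + 4 * Fintype.card B + 8) := by positivity
  refine le_of_mul_le_mul_right (a := n ^ (4 * Fintype.card A + 4 * Fintype.card B + 8)) ?_ e
  refine le_trans (le_of_eq ?_) (key.trans (le_of_eq ?_))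
  · rw [mul_pow, ← pow_mul]; congr 2; ring
  · simp only [mul_pow, ← pow_mul]
    ring

/-- two copies with twist edges and two folded graphs, all glued together -/
theorem winged_density (F : SimpleGraph (A ⊕ Bool ⊕ B))
    (hz : F.Adj (Sum.inr (Sum.inl false)) (Sum.inr (Sum.inl true))) (G : SimpleGraph X) :
    homDensity F G ^ 6 ≤ homDensity (F.comap Sum.inl) G ^ 5 *
      homDensity (glued F (Sum.map id Prod.fst : Bool ⊕ Bool × Bool → Bool ⊕ Bool)
        (fun k l => k = Sum.inl false ∧ l = Sum.inl true)) G := by
  have hn : (0 : ℝ) < Fintype.card X := by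
    have : 0 < Fintype.card X := Fintype.card_pos
    exact_mod_cast this
  have key := winged_hom F hz G
  rw [density_eq F G _ card_V, density_eq (F.comap Sum.inl) G _ Nat.card_eq_fintype_card,
    density_eq (glued F (Sum.map id Prod.fst : Bool ⊕ Bool × Bool → Bool ⊕ Bool)
        (fun k l => k = Sum.inl false ∧ l = Sum.inl true)) G _
      (card_W (Bool ⊕ Bool × Bool) (Bool ⊕ Bool))] at key
  set n : ℝ := (Fintype.card X : ℝ) with hndef
  simp only [Fintype.card_bool, Fintype.card_prod, Fintype.card_sum] at key
  have e : 0 < n ^ (6 * Fintype.card A + 6 * Fintype.card B + 12) := by positivity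
  refine le_of_mul_le_mul_right (a := n ^ (6 * Fintype.card A + 6 * Fintype.card B + 12)) ?_ e
  refine le_trans (le_of_eq ?_) (key.trans (le_of_eq ?_))
  · rw [mul_pow, ← pow_mul]; congr 2; ring
  · simp only [mul_pow, ← pow_mul]
    ring

end density

end Vale.Agent.P050.H180
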