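import Vale.Agent.P050.H180.Twist4
import Vale.Agent.P050.H180.Hold

set_option linter.all false

/-!
Glued copies: several copies at one edge.
-/

namespace Vale.Agent.P050.H180

open Finset Vale.Agent.P050.H148

section point

variable {X : Type*} [Fintype X] [DecidableEq X] {W : X → X → ℝ}

theorem pointj (hint : ∀ x y, W x y = 0 ∨ W x y = 1) (g : X → X → ℝ) (hg : ∀ x y, 0 ≤ g x y)
    (hs : ∀ x y, W x y = 0 → g x y = 0) (i : ℕ) (hi : 0 < i) :
    (∑ x, ∑ y, g x y) ^ (4 * i + 2) ≤ ((Fintype.card X : ℝ) ^ 4 * qf W g) ^ i *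
      (∑ x, ∑ y, g x y ^ (i + 1)) ^ 2 := by
  have h0 : ∀ x y, 0 ≤ W x y := fun x y => by rcases hint x y with h | h <;> rw [h] <;> norm_num
  have h1 : ∀ x y, W x y * g x y = g x y := by
    intro x y
    rcases hint x y with h | h
    · rw [hs x y h, mul_zero]
    · rw [h, one_mul]
  have h2 : ∀ x y, W x y * g x y ^ (i + 1) = g x y ^ (i + 1) := by
    intro x y
    rw [pow_succ']
    calc _ = W x y * g x y * g x y ^ i := by ring
      _ = _ := by rw [h1]
  have k1 := q_ineq h0 g hg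
  rw [← qf_om hint g hs] at k1
  have k2 := holder_nat (fun a : X × X => W a.1 a.2 * g a.1 a.2)
    (fun a => W a.1 a.2 * Real.sqrt (g a.1 a.2)) (fun a => W a.1 a.2 * Real.sqrt (g a.1 a.2))
    (fun a => W a.1 a.2 * g a.1 a.2 ^ (i + 1)) 1 zero_le_one
    (fun a => mul_nonneg (h0 _ _) (hg _ _)) (fun a => mul_nonneg (h0 _ _) (Real.sqrt_nonneg _))
    (fun a => mul_nonneg (h0 _ _) (Real.sqrt_nonneg _))
    (fun a => mul_nonneg (h0 _ _) (pow_nonneg (hg _ _) _)) 1 (2 * i - 1) 1 one_pos (by omega)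
    one_pos (fun a => by
      have e1 := Real.sq_sqrt (hg a.1 a.2)
      set s : ℝ := Real.sqrt (g a.1 a.2) with hs'
      rw [← e1]
      refine le_of_eq ?_
      obtain ⟨j, rfl⟩ : ∃ j, i = j + 1 := ⟨i - 1, by omega⟩
      have e2 : 2 * (j + 1) - 1 = 2 * j + 1 := by omega
      rw [e2]
      ring)
  have e3 : 1 + (2 * i - 1) + 1 = 2 * i + 1 := by omega
  rw [e3] at k2
  simp only [h1, h2, one_mul, pow_one] at k2
  simp only [Fintype.sum_prod_type] at k2
  have hc : 0 ≤ ∑ x, ∑ y, g x y := sum_nonneg fun x _ => sum_nonneg fun y _ => hg x y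
  set S : ℝ := ∑ x, ∑ y, W x y * Real.sqrt (g x y) with hS
  have hS0 : 0 ≤ S := sum_nonneg fun x _ => sum_nonneg fun y _ =>
    mul_nonneg (h0 _ _) (Real.sqrt_nonneg _)
  have hq : 0 ≤ ∑ x, ∑ y, g x y ^ (i + 1) :=
    sum_nonneg fun x _ => sum_nonneg fun y _ => pow_nonneg (hg x y) _
  calc (∑ x, ∑ y, g x y) ^ (4 * i + 2) = ((∑ x, ∑ y, g x y) ^ (2 * i + 1)) ^ 2 := by ring
    _ ≤ (S * S ^ (2 * i - 1) * ∑ x, ∑ y, g x y ^ (i + 1)) ^ 2 :=
        pow_le_pow_left₀ (pow_nonneg hc _) k2 2
    _ = (S ^ 4) ^ i * (∑ x, ∑ y, g x y ^ (i + 1)) ^ 2 := by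
        obtain ⟨j, rfl⟩ : ∃ j, i = j + 1 := ⟨i - 1, by omega⟩
        have e2 : 2 * (j + 1) - 1 = 2 * j + 1 := by omega
        rw [e2]
        ring
    _ ≤ _ := mul_le_mul_of_nonneg_right (pow_le_pow_left₀ (pow_nonneg hS0 4) k1 i) (sq_nonneg _)

end point

section counts

variable {X A B : Type*} [Fintype X] [Fintype A] [Fintype B]

open Classical in
theorem count_multi (F : SimpleGraph (A ⊕ Bool ⊕ B)) (G : SimpleGraph X) (j : ℕ) :
    (Nat.card (multi F j →g G) : ℝ) = ∑ r : A → X, ∑ x, ∑ y, gx F G r x y ^ j := by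
  unfold multi
  rw [card_glued]
  refine sum_congr rfl fun r _ => ?_
  rw [sum_unit, sum_bool]
  refine sum_congr rfl fun x _ => sum_congr rfl fun y _ => ?_
  simp only [false_imp_iff, implies_true, if_true, one_mul, prod_const, card_univ,
    Fintype.card_fin]
  rfl

open Classical in
theorem count_paired (F : SimpleGraph (A ⊕ Bool ⊕ B)) (G : SimpleGraph X) :
    (Nat.card (paired F →g G) : ℝ) =
      ∑ r : A → X, qf (adj G) (gx F G r) * ∑ x, ∑ y, gx F G r x y ^ 3 := by
  unfold paired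
  rw [card_glued]
  refine sum_congr rfl fun r _ => ?_
  rw [sum_split]
  have h1 : ∀ (u : Bool → Bool → X) (v : Unit → Bool → X),
      (∀ k l s, (k = Sum.inl false ∧ l = Sum.inl true) →
        G.Adj ((Sum.elim u v : Bool ⊕ Unit → Bool → X) k s) ((Sum.elim u v) l (!s))) ↔
      ∀ k l s, k ≠ l → G.Adj (u k s) (u l (!s)) := by
    intro u v
    constructor
    · intro h k l s hkl
      cases k <;> cases l
      · exact absurd rfl hkl
      · exact h _ _ s ⟨rfl, rfl⟩
      · have := h _ _ (!s) ⟨rfl, rfl⟩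
        rw [Bool.not_not] at this
        exact this.symm
      · exact absurd rfl hkl
    · rintro h k l s ⟨rfl, rfl⟩
      exact h false true s (by decide)
  have h2 : ∀ (u : Bool → Bool → X) (v : Unit → Bool → X), ∏ c : Bool ⊕ Fin 3, ex F G r
      ((Sum.elim u v : Bool ⊕ Unit → Bool → X) (Sum.map id (fun _ => ()) c)) =
      (∏ c : Bool, ex F G r (u (id c))) * ex F G r (v ()) ^ 3 := by
    intro u v
    rw [Fintype.prod_sum_type]
    simp only [Sum.map_inl, Sum.map_inr, Sum.elim_inl, Sum.elim_inr, id, prod_const, card_univ,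
      Fintype.card_fin]
  simp only [h1, h2]
  have h3 : ∑ v : Unit → Bool → X, ex F G r (v ()) ^ 3 = ∑ x, ∑ y, gx F G r x y ^ 3 := by
    rw [sum_unit, sum_bool]
    rfl
  have h4 : ∑ u : Bool → Bool → X, (if ∀ k l s, k ≠ l → G.Adj (u k s) (u l (!s)) then (1 : ℝ)
      else 0) * ∏ c : Bool, ex F G r (u (id c)) = qf (adj G) (gx F G r) := by
    rw [sum_bool, sum_bool]
    unfold qf
    refine sum_congr rfl fun x _ => sum_congr rfl fun y _ => ?_
    rw [sum_bool]
    refine sum_congr rfl fun x' _ => sum_congr rfl fun y' _ => ?_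
    rw [ite_adj (twist_iff G x y x' y'), Fintype.prod_bool]
    simp only [id, if_true, Bool.false_eq_true, if_false]
    unfold gx
    ring
  rw [← h3, ← h4, sum_mul_sum]
  exact sum_congr rfl fun u _ => sum_congr rfl fun v _ => by ring

end counts

section main

variable {X A B : Type*} [Fintype X] [Fintype A] [Fintype B]

open Classical in
theorem multi_hom (F : SimpleGraph (A ⊕ Bool ⊕ B))
    (hz : F.Adj (Sum.inr (Sum.inl false)) (Sum.inr (Sum.inl true))) (G : SimpleGraph X)
    (i : ℕ) (hi : 0 < i) :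
    (Nat.card (F →g G) : ℝ) ^ (4 * i + 2) ≤ (Fintype.card X : ℝ) ^ (4 * i) *
      ((Nat.card (F.comap Sum.inl →g G) : ℝ) ^ (3 * i) * (Nat.card (twisted F →g G) : ℝ) ^ i *
        (Nat.card (multi F (i + 1) →g G) : ℝ) ^ 2) := by
  have e0 : (Nat.card (twisted F →g G) : ℝ) = ∑ r : A → X, qf (adj G) (gx F G r) :=
    count_twist F G
  rw [hom_base, e0, count_multi, card_hom (F.comap Sum.inl)]
  have h0 : ∀ x y, 0 ≤ adj G x y := fun x y => by
    rcases adj_int G x y with h | h <;> rw [h] <;> norm_num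
  have key := holder_nat (cr F G) (fun r => qf (adj G) (gx F G r))
    (fun r => ∑ x, ∑ y, gx F G r x y ^ (i + 1))
    (fun r => if IsHom (F.comap Sum.inl) G r then (1 : ℝ) else 0)
    ((Fintype.card X : ℝ) ^ (4 * i)) (by positivity) (cr_nonneg F G)
    (fun r => qf_nonneg h0 _ (gx_nonneg F G r))
    (fun r => sum_nonneg fun x _ => sum_nonneg fun y _ => pow_nonneg (gx_nonneg _ _ _ _ _) _)
    (fun r => by split_ifs <;> norm_num) i 2 (3 * i) hi two_pos (by omega) (fun r => by
      have e1 : i + 2 + 3 * i = 4 * i + 2 := by ring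
      rw [e1]
      by_cases hv : IsHom (F.comap Sum.inl) G r
      · rw [if_pos hv, one_pow, mul_one]
        have := pointj (adj_int G) (gx F G r) (gx_nonneg F G r) (gx_zero F hz G r) i hi
        refine this.trans (le_of_eq ?_)
        rw [mul_pow, ← pow_mul]; ring
      · rw [cr_invalid F G r hv, zero_pow (by omega), if_neg hv, zero_pow (by omega)]
        simp)
  have e1 : i + 2 + 3 * i = 4 * i + 2 := by ring
  rw [e1] at key
  refine key.trans (le_of_eq ?_)
  ring

open Classical in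
theorem paired_hom (F : SimpleGraph (A ⊕ Bool ⊕ B))
    (hz : F.Adj (Sum.inr (Sum.inl false)) (Sum.inr (Sum.inl true))) (G : SimpleGraph X) :
    (Nat.card (F →g G) : ℝ) ^ 5 ≤ (Fintype.card X : ℝ) ^ 4 *
      ((Nat.card (F.comap Sum.inl →g G) : ℝ) ^ 4 * (Nat.card (paired F →g G) : ℝ)) := by
  rw [hom_base, count_paired, card_hom (F.comap Sum.inl)]
  have h0 : ∀ x y, 0 ≤ adj G x y := fun x y => by
    rcases adj_int G x y with h | h <;> rw [h] <;> norm_num
  have h1 := valid_mean (fun r : A → X => IsHom (F.comap Sum.inl) G r) (cr F G)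
    (cr_nonneg F G) (cr_invalid F G) 5 (by norm_num)
  have h2 : ∑ r : A → X, cr F G r ^ 5 ≤ (Fintype.card X : ℝ) ^ 4 *
      ∑ r : A → X, qf (adj G) (gx F G r) * ∑ x, ∑ y, gx F G r x y ^ 3 := by
    rw [mul_sum]
    refine sum_le_sum fun r _ => ?_
    have e1 := pointj (adj_int G) (gx F G r) (gx_nonneg F G r) (gx_zero F hz G r) 2 two_pos
    have e2 : 0 ≤ (Fintype.card X : ℝ) ^ 4 * (qf (adj G) (gx F G r) *
        ∑ x, ∑ y, gx F G r x y ^ 3) := mul_nonneg (by positivity) (mul_nonneg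
        (qf_nonneg h0 _ (gx_nonneg F G r))
        (sum_nonneg fun x _ => sum_nonneg fun y _ => pow_nonneg (gx_nonneg _ _ _ _ _) _))
    refine le_of_sq_le_sq ?_ e2
    calc (cr F G r ^ 5) ^ 2 = (∑ x, ∑ y, gx F G r x y) ^ (4 * 2 + 2) := by unfold cr; ring
      _ ≤ _ := e1
      _ = _ := by ring
  have hR : (0 : ℝ) ≤ ∑ r : A → X, if IsHom (F.comap Sum.inl) G r then (1 : ℝ) else 0 :=
    sum_nonneg fun r _ => by split_ifs <;> norm_num
  calc (∑ r : A → X, cr F G r) ^ 5 ≤ _ := h1
    _ ≤ (∑ r : A → X, if IsHom (F.comap Sum.inl) G r then (1 : ℝ) else 0) ^ (5 - 1) * _ :=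
        mul_le_mul_of_nonneg_left h2 (pow_nonneg hR _)
    _ = _ := by ring

end main

section density

variable {X A B : Type*} [Fintype X] [Nonempty X] [Fintype A] [Fintype B]

/-- twist edges and several copies at one edge -/
theorem multi_density (F : SimpleGraph (A ⊕ Bool ⊕ B))
    (hz : F.Adj (Sum.inr (Sum.inl false)) (Sum.inr (Sum.inl true))) (G : SimpleGraph X)
    (j : ℕ) (hj : 2 ≤ j) :
    homDensity F G ^ (4 * j - 2) ≤ homDensity (F.comap Sum.inl) G ^ (3 * j - 3) *
      homDensity (twisted F) G ^ (j - 1) * homDensity (multi F j) G ^ 2 := by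
  obtain ⟨i, rfl⟩ : ∃ i, j = i + 1 := ⟨j - 1, by omega⟩
  have hn : (0 : ℝ) < Fintype.card X := by
    have : 0 < Fintype.card X := Fintype.card_pos
    exact_mod_cast this
  have key := multi_hom F hz G i (by omega)
  rw [density_eq F G _ card_V, density_eq (F.comap Sum.inl) G _ Nat.card_eq_fintype_card,
    density_eq (twisted F) G _ (card_W Bool Bool),
    density_eq (multi F (i + 1)) G _ (card_W (Fin (i + 1)) Unit)] at key
  set n : ℝ := (Fintype.card X : ℝ) with hndef
  simp only [Fintype.card_bool, Fintype.card_unit, Fintype.card_fin] at key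
  have e1 : 4 * (i + 1) - 2 = 4 * i + 2 := by omega
  have e2 : 3 * (i + 1) - 3 = 3 * i := by omega
  have e3 : i + 1 - 1 = i := rfl
  rw [e1, e2, e3]
  have e : 0 < n ^ ((Fintype.card A + (2 + Fintype.card B)) * (4 * i + 2)) := by positivity
  refine le_of_mul_le_mul_right (a := n ^ ((Fintype.card A + (2 + Fintype.card B)) *
    (4 * i + 2))) ?_ e
  refine le_trans (le_of_eq ?_) (key.trans (le_of_eq ?_))
  · rw [mul_pow, ← pow_mul]
  · simp only [mul_pow, ← pow_mul]
    ring

/-- twist edges and three copies at one edge, glued together -/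
theorem paired_density (F : SimpleGraph (A ⊕ Bool ⊕ B))
    (hz : F.Adj (Sum.inr (Sum.inl false)) (Sum.inr (Sum.inl true))) (G : SimpleGraph X) :
    homDensity F G ^ 5 ≤ homDensity (F.comap Sum.inl) G ^ 4 * homDensity (paired F) G := by
  have hn : (0 : ℝ) < Fintype.card X := by
    have : 0 < Fintype.card X := Fintype.card_pos
    exact_mod_cast this
  have key := paired_hom F hz G
  rw [density_eq F G _ card_V, density_eq (F.comap Sum.inl) G _ Nat.card_eq_fintype_card,
    density_eq (paired F) G _ (card_W (Bool ⊕ Fin 3) (Bool ⊕ Unit))] at key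
  set n : ℝ := (Fintype.card X : ℝ) with hndef
  simp only [Fintype.card_bool, Fintype.card_unit, Fintype.card_fin, Fintype.card_sum] at key
  have e : 0 < n ^ (5 * Fintype.card A + 5 * Fintype.card B + 10) := by positivity
  refine le_of_mul_le_mul_right (a := n ^ (5 * Fintype.card A + 5 * Fintype.card B + 10)) ?_ e
  refine le_trans (le_of_eq ?_) (key.trans (le_of_eq ?_))
  · rw [mul_pow, ← pow_mul]; congr 2; ring
  · simp only [mul_pow, ← pow_mul]
    ring

end density

end Vale.Agent.P050.H180
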