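import Vale.Agent.P050.TDefs

/-!
Statement-level definitions.
-/

namespace Vale.Agent.P050.H180

/-- The position of the vertices of the copy `c` of a graph with vertex set `A ⊕ Bool ⊕ B`: the
vertices in `A` are common to all copies, the two vertices in `Bool` are common to the copies with
the same `slot c`, and the vertices in `B` are private. -/
def put {A B C K : Type*} (slot : C → K) (c : C) : A ⊕ Bool ⊕ B → A ⊕ K × Bool ⊕ C × B
  | Sum.inl a => Sum.inl a
  | Sum.inr (Sum.inl s) => Sum.inr (Sum.inl (slot c, s))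
  | Sum.inr (Sum.inr b) => Sum.inr (Sum.inr (c, b))

/-- Copies of the graph `F`, one for each `c : C`, glued together as described by `put`; moreover,
if `T k l`, then the first (second) of the two special vertices in the slot `k` is joined to the
second (first) of the two special vertices in the slot `l`. -/
def glued {A B C K : Type*} (F : SimpleGraph (A ⊕ Bool ⊕ B)) (slot : C → K) (T : K → K → Prop) :
    SimpleGraph (A ⊕ K × Bool ⊕ C × B) where
  Adj u v := (∃ c a b, F.Adj a b ∧ u = put slot c a ∧ v = put slot c b) ∨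
    ∃ k l s, (T k l ∨ T l k) ∧ u = Sum.inr (Sum.inl (k, s)) ∧ v = Sum.inr (Sum.inl (l, !s))
  symm := ⟨fun u v h => by
    rcases h with ⟨c, a, b, h, hu, hv⟩ | ⟨k, l, s, h, hu, hv⟩
    · exact Or.inl ⟨c, b, a, h.symm, hv, hu⟩
    · exact Or.inr ⟨l, k, !s, h.symm, hv, by rw [Bool.not_not]; exact hu⟩⟩
  loopless := ⟨fun u h => by
    rcases h with ⟨c, a, b, h, hu, hv⟩ | ⟨k, l, s, h, hu, hv⟩
    · have hab : put slot c a = put slot c b := hu.symm.trans hv
      have : a = b := by
        rcases a with a | a | a <;> rcases b with b | b | b <;> simp_all [put]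
      exact F.ne_of_adj h this
    · have h1 := hu.symm.trans hv
      simp at h1⟩

/-- Two copies of `F` glued along `A`, with twist edges between their special edges `uv` and
`u'v'`: the edges `uv'` and `u'v` are added. -/
def twisted {A B : Type*} (F : SimpleGraph (A ⊕ Bool ⊕ B)) :
    SimpleGraph (A ⊕ Bool × Bool ⊕ Bool × B) :=
  glued F (id : Bool → Bool) (fun k l => k ≠ l)

/-- Two copies of `F` glued along `A` and the special edge. -/
def folded {A B : Type*} (F : SimpleGraph (A ⊕ Bool ⊕ B)) :
    SimpleGraph (A ⊕ Unit × Bool ⊕ Bool × B) :=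
  glued F (fun _ : Bool => ()) (fun _ _ => False)

/-- Four copies of `F` glued along `A`, two of them having their special edge at `uv` and two at
`u'v'`, and the edges `uv'` and `u'v`. -/
def squared {A B : Type*} (F : SimpleGraph (A ⊕ Bool ⊕ B)) :
    SimpleGraph (A ⊕ Bool × Bool ⊕ (Bool × Bool) × B) :=
  glued F (Prod.fst : Bool × Bool → Bool) (fun k l => k ≠ l)

/-- `j` copies of `F` glued along `A` and the special edge. -/
def multi {A B : Type*} (F : SimpleGraph (A ⊕ Bool ⊕ B)) (j : ℕ) :
    SimpleGraph (A ⊕ Unit × Bool ⊕ Fin j × B) :=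
  glued F (fun _ : Fin j => ()) (fun _ _ => False)

/-- The graphs `twisted F` and `multi F 3` glued along `A`. -/
def paired {A B : Type*} (F : SimpleGraph (A ⊕ Bool ⊕ B)) :
    SimpleGraph (A ⊕ (Bool ⊕ Unit) × Bool ⊕ (Bool ⊕ Fin 3) × B) :=
  glued F (Sum.map id fun _ => ()) (fun k l => k = Sum.inl false ∧ l = Sum.inl true)

/-- The graphs `twisted F`, `folded F` and `folded F` glued along `A`. -/
def winged {A B : Type*} (F : SimpleGraph (A ⊕ Bool ⊕ B)) :
    SimpleGraph (A ⊕ (Bool ⊕ Bool) × Bool ⊕ (Bool ⊕ Bool × Bool) × B) :=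
  glued F (Sum.map id Prod.fst) (fun k l => k = Sum.inl false ∧ l = Sum.inl true)

end Vale.Agent.P050.H180
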